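import Vale.Agent.P050.R4.H153.GDef

/-!
# P050, series-parallel graphs: gadgets attached to a graph
-/

namespace Vale.Agent.P050.SP

/-- The graph `H` with the gadget `e` attached: the first terminal of `e` is glued to `a`, the
second one to `b`. -/
def att {V : Type} (H : SimpleGraph V) (e : SP) (a b : V) : SimpleGraph (V ⊕ Inn e) :=
  H.map Sum.inl ⊔
    SimpleGraph.fromRel fun u v => (u, v) ∈ edges e (.inl a) (.inl b) .inr

/-- The graph `H` with the gadget `e` hung at `a`: the first terminal of `e` is glued to `a`, the
second one is the new vertex `inr (inl ())`. -/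
def pen {V : Type} (H : SimpleGraph V) (e : SP) (a : V) : SimpleGraph (V ⊕ (Unit ⊕ Inn e)) :=
  H.map Sum.inl ⊔
    SimpleGraph.fromRel fun u v =>
      (u, v) ∈ edges e (.inl a) (.inr (.inl ())) fun i => .inr (.inr i)

end Vale.Agent.P050.SP
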