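import Vale.Agent.P050.R4.H153.Graph
import Vale.Agent.P050.R4.H153.AttachDef

/-!
# P050, series-parallel graphs: the number of maps of a graph with an attached gadget
-/

namespace Vale.Agent.P050.SP

open Finset Matrix Vale.Agent.P050.Ears Vale.Agent.P050.Lev

/-- the sides after attaching a gadget -/
def attSide {V : Type} (side : V → Bool) (e : SP) (a : V) : V ⊕ Inn e → Bool
  | .inl v => side v
  | .inr i => sdi e (side a) i

/-- the sides after hanging a gadget -/
def penSide {V : Type} (side : V → Bool) (e : SP) (a : V) : V ⊕ (Unit ⊕ Inn e) → Bool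
  | .inl v => side v
  | .inr (.inl _) => xor (side a) (decide (len e % 2 = 1))
  | .inr (.inr i) => sdi e (side a) i

section prod

variable {S : Type} [Fintype S] {A : Matrix S S ℝ} {μ : S → ℝ} {c : S → Bool}

/-- the edge weights of a graph with a list of further edges -/
theorem prod_sup {W : Type} [Fintype W] (h : Rev A μ c) (G : SimpleGraph W) (σ : W → Bool)
    (L : List (W × W)) (hL : L.Pairwise fun p q => p ≠ q ∧ p ≠ q.swap)
    (hσ : ∀ p ∈ L, σ p.1 ≠ σ p.2) (hG : ∀ p ∈ L, ¬ G.Adj p.1 p.2) (z : W → S) :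
    ∏ p ∈ sideEdges (G ⊔ SimpleGraph.fromRel fun u v => (u, v) ∈ L) σ,
        A (z p.1) (z p.2) / μ (z p.2) =
      (∏ p ∈ sideEdges G σ, A (z p.1) (z p.2) / μ (z p.2)) *
        ew A μ (L.map fun p => (z p.1, z p.2)) := by
  classical
  set o : W × W → W × W := fun p => if σ p.1 = false then p else p.swap with ho
  have hpair : (L.map o).Nodup := by
    rw [List.Nodup, List.pairwise_map]
    refine hL.imp ?_
    rintro p q ⟨h1, h2⟩ h3
    simp only [ho] at h3
    split_ifs at h3 with h4 h5 h5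
    · exact h1 h3
    · exact h2 h3
    · apply h2
      rw [← h3, Prod.swap_swap]
    · exact h1 (Prod.swap_injective h3)
  have hoL : ∀ p, p ∈ L.map o ↔ ((p ∈ L ∨ p.swap ∈ L) ∧ σ p.1 = false ∧ σ p.2 = true) := by
    intro p
    simp only [List.mem_map]
    constructor
    · rintro ⟨q, hq, rfl⟩
      have h1 := hσ q hq
      simp only [ho]
      by_cases h2 : σ q.1 = false
      · rw [if_pos h2]
        refine ⟨Or.inl hq, h2, ?_⟩
        cases h3 : σ q.2
        · exact absurd (h2.trans h3.symm) h1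
        · rfl
      · rw [if_neg h2]
        have h2' : σ q.1 = true := by simpa using h2
        refine ⟨Or.inr (by rwa [Prod.swap_swap]), ?_, h2'⟩
        show σ q.2 = false
        cases h3 : σ q.2
        · rfl
        · exact absurd (h2'.trans h3.symm) h1
    · rintro ⟨h1 | h1, h2, h3⟩
      · exact ⟨p, h1, by simp [ho, h2]⟩
      · refine ⟨p.swap, h1, ?_⟩
        simp only [ho, Prod.fst_swap, Prod.swap_swap]
        rw [if_neg (by rw [h3]; simp)]
  have hset : sideEdges (G ⊔ SimpleGraph.fromRel fun u v => (u, v) ∈ L) σ =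
      sideEdges G σ ∪ (L.map o).toFinset := by
    ext p
    simp only [sideEdges, mem_filter, mem_univ, true_and, mem_union, List.mem_toFinset, hoL,
      SimpleGraph.sup_adj, SimpleGraph.fromRel_adj]
    constructor
    · rintro ⟨h1 | h1, h2, h3⟩
      · exact Or.inl ⟨h1, h2, h3⟩
      · exact Or.inr ⟨h1.2, h2, h3⟩
    · rintro (⟨h1, h2, h3⟩ | ⟨h1, h2, h3⟩)
      · exact ⟨Or.inl h1, h2, h3⟩
      · refine ⟨Or.inr ⟨?_, h1⟩, h2, h3⟩
        intro h4
        rw [h4, h3] at h2
        exact absurd h2 (by simp)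
  have hdisj : Disjoint (sideEdges G σ) (L.map o).toFinset := by
    rw [Finset.disjoint_left]
    intro p hp hq
    simp only [sideEdges, mem_filter, mem_univ, true_and] at hp
    rw [List.mem_toFinset, hoL] at hq
    rcases hq.1 with h1 | h1
    · exact hG _ h1 hp.1
    · exact hG _ h1 hp.1.symm
  rw [hset, Finset.prod_union hdisj, List.prod_toFinset _ hpair, List.map_map]
  congr 1
  rw [ew, List.map_map]
  congr 1
  refine List.map_congr_left fun p _ => ?_
  simp only [Function.comp, ho]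
  split_ifs
  · rfl
  · exact h.ker_symm _ _

/-- the edge weights of a mapped graph -/
theorem prod_map {V W : Type} [Fintype V] [Fintype W] (H : SimpleGraph V) (g : V → W)
    (hg : Function.Injective g) (σ : W → Bool) (F : W × W → ℝ) :
    ∏ p ∈ sideEdges (H.map g) σ, F p =
      ∏ p ∈ sideEdges H (fun v => σ (g v)), F (g p.1, g p.2) := by
  classical
  symm
  refine Finset.prod_bij (fun p _ => (g p.1, g p.2)) ?_ ?_ ?_ ?_
  · intro p hp
    simp only [sideEdges, mem_filter, mem_univ, true_and] at hp ⊢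
    exact ⟨(SimpleGraph.map_adj ⟨g, hg⟩ H _ _).2 ⟨_, _, hp.1, rfl, rfl⟩, hp.2⟩
  · intro p _ q _ hpq
    rw [Prod.mk.injEq] at hpq
    exact Prod.ext (hg hpq.1) (hg hpq.2)
  · intro p hp
    simp only [sideEdges, mem_filter, mem_univ, true_and] at hp
    obtain ⟨h5, h3, h4⟩ := hp
    obtain ⟨u, v, huv, h1, h2⟩ := (SimpleGraph.map_adj ⟨g, hg⟩ H _ _).1 h5
    change g u = p.1 at h1
    change g v = p.2 at h2
    refine ⟨(u, v), ?_, Prod.ext h1 h2⟩
    simp only [sideEdges, mem_filter, mem_univ, true_and]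
    exact ⟨huv, by rw [h1]; exact h3, by rw [h2]; exact h4⟩
  · intro p _
    rfl

end prod

/-! ### the placement of the gadget -/

section place

variable {V : Type} {H : SimpleGraph V} {e : SP} {a b : V}

theorem map_inl {V I : Type} (H : SimpleGraph V) (u v : V ⊕ I) :
    (H.map (Sum.inl : V → V ⊕ I)).Adj u v ↔
      ∃ u' v' : V, H.Adj u' v' ∧ Sum.inl u' = u ∧ Sum.inl v' = v :=
  SimpleGraph.map_adj ⟨Sum.inl, Sum.inl_injective⟩ H u v

theorem inj_att (hab : a ≠ b) : Inj (V := V ⊕ Inn e) (I := Inn e) (.inl a) (.inl b) .inr where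
  ne := fun h => hab (Sum.inl_injective h)
  left i := by simp
  right i := by simp
  inj := Sum.inr_injective

theorem inj_pen : Inj (V := V ⊕ (Unit ⊕ Inn e)) (I := Inn e) (.inl a) (.inr (.inl ()))
    (fun i => .inr (.inr i)) where
  ne := by simp
  left i := by simp
  right i := by simp
  inj i j h := Sum.inr_injective (Sum.inr_injective h)

theorem att_new (hab : a ≠ b) (hd : ¬ (direct e ∧ H.Adj a b))
    {p : (V ⊕ Inn e) × (V ⊕ Inn e)} (hp : p ∈ edges e (V := V ⊕ Inn e) (.inl a) (.inl b) .inr) :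
    ¬ (H.map (Sum.inl : V → V ⊕ Inn e)).Adj p.1 p.2 := by
  intro h1
  obtain ⟨u, v, huv, h2, h3⟩ := (map_inl H _ _).1 h1
  obtain ⟨h4, h5⟩ := edges_at e hp
  have h2' : p.1 = Sum.inl u := h2.symm
  have h3' : p.2 = Sum.inl v := h3.symm
  have e1 : p.1 = .inl a ∨ p.1 = .inl b := by
    rcases h4 with h4 | h4 | ⟨i, h4⟩
    · exact Or.inl h4
    · exact Or.inr h4
    · rw [h2'] at h4; exact absurd h4 (by simp)
  have e2 : p.2 = .inl a ∨ p.2 = .inl b := by
    rcases h5 with h5 | h5 | ⟨i, h5⟩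
    · exact Or.inl h5
    · exact Or.inr h5
    · rw [h3'] at h5; exact absurd h5 (by simp)
  have hm := mem_ends hp (edges_ne e (inj_att hab) hp) e1 e2
  refine hd ⟨edges_direct e (inj_att hab) hm, ?_⟩
  rw [h2'] at e1
  rw [h3'] at e2
  have hne := huv.ne
  rcases e1 with e1 | e1 <;> rcases e2 with e2 | e2
  · exact absurd (Sum.inl_injective (e1.trans e2.symm)) hne
  · rwa [Sum.inl_injective e1, Sum.inl_injective e2] at huv
  · rw [Sum.inl_injective e1, Sum.inl_injective e2] at huv; exact huv.symm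
  · exact absurd (Sum.inl_injective (e1.trans e2.symm)) hne

theorem pen_new {p : (V ⊕ (Unit ⊕ Inn e)) × (V ⊕ (Unit ⊕ Inn e))}
    (hp : p ∈ edges e (V := V ⊕ (Unit ⊕ Inn e)) (.inl a) (.inr (.inl ()))
      fun i => .inr (.inr i)) :
    ¬ (H.map (Sum.inl : V → V ⊕ (Unit ⊕ Inn e))).Adj p.1 p.2 := by
  intro h1
  obtain ⟨u, v, huv, h2, h3⟩ := (map_inl H _ _).1 h1
  obtain ⟨h4, h5⟩ := edges_at e hp
  have h2' : p.1 = Sum.inl u := h2.symm
  have h3' : p.2 = Sum.inl v := h3.symm
  have e1 : p.1 = .inl a := by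
    rcases h4 with h4 | h4 | ⟨i, h4⟩
    · exact h4
    · rw [h2'] at h4; exact absurd h4 (by simp)
    · rw [h2'] at h4; exact absurd h4 (by simp)
  have e2 : p.2 = .inl a := by
    rcases h5 with h5 | h5 | ⟨i, h5⟩
    · exact h5
    · rw [h3'] at h5; exact absurd h5 (by simp)
    · rw [h3'] at h5; exact absurd h5 (by simp)
  rw [h2'] at e1
  rw [h3'] at e2
  exact huv.ne (Sum.inl_injective (e1.trans e2.symm))

theorem att_adj {u v : V ⊕ Inn e} : (att H e a b).Adj u v ↔
    (H.map (Sum.inl : V → V ⊕ Inn e)).Adj u v ∨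
      (u ≠ v ∧ ((u, v) ∈ edges e (V := V ⊕ Inn e) (.inl a) (.inl b) .inr ∨
        (v, u) ∈ edges e (V := V ⊕ Inn e) (.inl a) (.inl b) .inr)) := by
  unfold att
  rw [SimpleGraph.sup_adj, SimpleGraph.fromRel_adj]

theorem pen_adj {u v : V ⊕ (Unit ⊕ Inn e)} : (pen H e a).Adj u v ↔
    (H.map (Sum.inl : V → V ⊕ (Unit ⊕ Inn e))).Adj u v ∨
      (u ≠ v ∧ ((u, v) ∈ edges e (V := V ⊕ (Unit ⊕ Inn e)) (.inl a) (.inr (.inl ()))
          (fun i => .inr (.inr i)) ∨
        (v, u) ∈ edges e (V := V ⊕ (Unit ⊕ Inn e)) (.inl a) (.inr (.inl ()))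
          (fun i => .inr (.inr i)))) := by
  unfold pen
  rw [SimpleGraph.sup_adj, SimpleGraph.fromRel_adj]

variable {side : V → Bool}

theorem att_side (hb : bip e) (hs : side b = xor (side a) (decide (len e % 2 = 1)))
    {p : (V ⊕ Inn e) × (V ⊕ Inn e)} (hp : p ∈ edges e (V := V ⊕ Inn e) (.inl a) (.inl b) .inr) :
    attSide side e a p.1 ≠ attSide side e a p.2 :=
  edges_side (attSide side e a) e hb (x := .inl a) (y := .inl b) (f := .inr) hs
    (fun _ => rfl) hp

theorem pen_side (hb : bip e) {p : (V ⊕ (Unit ⊕ Inn e)) × (V ⊕ (Unit ⊕ Inn e))}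
    (hp : p ∈ edges e (V := V ⊕ (Unit ⊕ Inn e)) (.inl a) (.inr (.inl ()))
      fun i => .inr (.inr i)) :
    penSide side e a p.1 ≠ penSide side e a p.2 :=
  edges_side (penSide side e a) e hb (x := .inl a) (y := .inr (.inl ()))
    (f := fun i => .inr (.inr i)) rfl (fun _ => rfl) hp

theorem att_proper (hp : ∀ u v, H.Adj u v → side u ≠ side v) (hb : bip e)
    (hs : side b = xor (side a) (decide (len e % 2 = 1))) (u v : V ⊕ Inn e)
    (h : (att H e a b).Adj u v) : attSide side e a u ≠ attSide side e a v := by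
  rcases att_adj.1 h with h | ⟨_, h | h⟩
  · obtain ⟨u', v', huv, rfl, rfl⟩ := (map_inl H _ _).1 h
    exact hp _ _ huv
  · exact att_side hb hs h
  · exact (att_side hb hs h).symm

theorem pen_proper (hp : ∀ u v, H.Adj u v → side u ≠ side v) (hb : bip e)
    (u v : V ⊕ (Unit ⊕ Inn e)) (h : (pen H e a).Adj u v) :
    penSide side e a u ≠ penSide side e a v := by
  rcases pen_adj.1 h with h | ⟨_, h | h⟩
  · obtain ⟨u', v', huv, rfl, rfl⟩ := (map_inl H _ _).1 h
    exact hp _ _ huv
  · exact pen_side hb h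
  · exact (pen_side hb h).symm

theorem att_noIso (hH : ∀ v, ∃ w, H.Adj v w) (hab : a ≠ b) (v : V ⊕ Inn e) :
    ∃ w, (att H e a b).Adj v w := by
  rcases v with v | i
  · obtain ⟨w, hw⟩ := hH v
    exact ⟨.inl w, att_adj.2 (Or.inl ((map_inl H _ _).2 ⟨_, _, hw, rfl, rfl⟩))⟩
  · obtain ⟨_, _, h3⟩ := edges_cover e (V := V ⊕ Inn e) (.inl a) (.inl b) .inr
    obtain ⟨r, hr, h4 | h4⟩ := h3 i
    · have h5 : (Sum.inr i, r.2) = r := Prod.ext h4.symm rfl
      refine ⟨r.2, att_adj.2 (Or.inr ⟨?_, Or.inl (by rw [h5]; exact hr)⟩)⟩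
      rw [← h4]; exact edges_ne e (inj_att hab) hr
    · have h5 : (r.1, Sum.inr i) = r := Prod.ext rfl h4.symm
      refine ⟨r.1, att_adj.2 (Or.inr ⟨?_, Or.inr (by rw [h5]; exact hr)⟩)⟩
      rw [← h4]; exact (edges_ne e (inj_att hab) hr).symm

theorem pen_noIso (hH : ∀ v, ∃ w, H.Adj v w) (v : V ⊕ (Unit ⊕ Inn e)) :
    ∃ w, (pen H e a).Adj v w := by
  obtain ⟨_, ⟨q, hq, h2⟩, h3⟩ := edges_cover e (V := V ⊕ (Unit ⊕ Inn e)) (.inl a)
    (.inr (.inl ())) (fun i => .inr (.inr i))
  have key : ∀ r ∈ edges e (V := V ⊕ (Unit ⊕ Inn e)) (.inl a) (.inr (.inl ()))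
      (fun i => .inr (.inr i)), (pen H e a).Adj r.1 r.2 := fun r hr =>
    pen_adj.2 (Or.inr ⟨edges_ne e inj_pen hr, Or.inl hr⟩)
  rcases v with v | ⟨⟩ | i
  · obtain ⟨w, hw⟩ := hH v
    exact ⟨.inl w, pen_adj.2 (Or.inl ((map_inl H _ _).2 ⟨_, _, hw, rfl, rfl⟩))⟩
  · exact ⟨q.1, by rw [← h2]; exact (key q hq).symm⟩
  · obtain ⟨r, hr, h4 | h4⟩ := h3 i
    · exact ⟨r.2, by rw [← h4]; exact key r hr⟩
    · exact ⟨r.1, by rw [← h4]; exact (key r hr).symm⟩

end place

/-! ### the weights -/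

section wt

variable {S : Type} [Fintype S] {A : Matrix S S ℝ} {μ : S → ℝ} {c : S → Bool}
variable {V : Type} [Fintype V] {H : SimpleGraph V} {e : SP} {a b : V} {side : V → Bool}

theorem wt_att (h : Rev A μ c) (hs : simple e) (hb : bip e) (hab : a ≠ b)
    (hd : ¬ (direct e ∧ H.Adj a b)) (hside : side b = xor (side a) (decide (len e % 2 = 1)))
    (z : V ⊕ Inn e → S) :
    wt (att H e a b) (attSide side e a) A μ c z =
      wt H side A μ c (fun v => z (.inl v)) *
        ((∏ i, μ (z (.inr i))) *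
          ew A μ (edges e (z (.inl a)) (z (.inl b)) fun i => z (.inr i))) := by
  classical
  have hprod : ∏ p ∈ sideEdges (att H e a b) (attSide side e a), A (z p.1) (z p.2) / μ (z p.2) =
      (∏ p ∈ sideEdges H side, A (z (.inl p.1)) (z (.inl p.2)) / μ (z (.inl p.2))) *
        ew A μ (edges e (z (.inl a)) (z (.inl b)) fun i => z (.inr i)) := by
    have h1 := prod_sup h (H.map (Sum.inl : V → V ⊕ Inn e))
      (attSide side e a) (edges e (V := V ⊕ Inn e) (.inl a) (.inl b) .inr)
      (edges_pairwise e hs (inj_att hab)) (fun p hp => att_side hb hside hp)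
      (fun p hp => att_new hab hd hp) z
    rw [prod_map H Sum.inl Sum.inl_injective (attSide side e a)
      (fun p => A (z p.1) (z p.2) / μ (z p.2)),
      ← edges_map z e (V := V ⊕ Inn e) (.inl a) (.inl b) .inr] at h1
    exact h1
  unfold wt
  rw [hprod, Fintype.prod_sum_type]
  by_cases h2 : ∀ v, c (z (.inl v)) = side v
  · rw [if_pos h2]
    by_cases h3 : ew A μ (edges e (z (.inl a)) (z (.inl b)) fun i => z (.inr i)) = 0
    · rw [h3]
      simp
    · obtain ⟨_, h5⟩ := side_of_ne h e hb _ _ _ h3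
      rw [if_pos]
      · ring
      · rintro (v | i)
        · exact h2 v
        · rw [h5, h2]; rfl
  · rw [if_neg h2, if_neg, zero_mul]
    exact fun h3 => h2 fun v => h3 (.inl v)

theorem wt_pen (h : Rev A μ c) (hs : simple e) (hb : bip e) (z : V ⊕ (Unit ⊕ Inn e) → S) :
    wt (pen H e a) (penSide side e a) A μ c z =
      wt H side A μ c (fun v => z (.inl v)) *
        (μ (z (.inr (.inl ()))) * ((∏ i, μ (z (.inr (.inr i)))) *
          ew A μ (edges e (z (.inl a)) (z (.inr (.inl ()))) fun i => z (.inr (.inr i))))) := by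
  classical
  have hprod : ∏ p ∈ sideEdges (pen H e a) (penSide side e a), A (z p.1) (z p.2) / μ (z p.2) =
      (∏ p ∈ sideEdges H side, A (z (.inl p.1)) (z (.inl p.2)) / μ (z (.inl p.2))) *
        ew A μ (edges e (z (.inl a)) (z (.inr (.inl ()))) fun i => z (.inr (.inr i))) := by
    have h1 := prod_sup h
      (H.map (Sum.inl : V → V ⊕ (Unit ⊕ Inn e)))
      (penSide side e a) (edges e (V := V ⊕ (Unit ⊕ Inn e)) (.inl a) (.inr (.inl ()))
        fun i => .inr (.inr i))
      (edges_pairwise e hs inj_pen) (fun p hp => pen_side hb hp)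
      (fun p hp => pen_new hp) z
    rw [prod_map H Sum.inl Sum.inl_injective (penSide side e a)
      (fun p => A (z p.1) (z p.2) / μ (z p.2)),
      ← edges_map z e (V := V ⊕ (Unit ⊕ Inn e)) (.inl a) (.inr (.inl ()))
        (fun i => .inr (.inr i))] at h1
    exact h1
  have hu : ∏ i : Unit, μ (z (.inr (.inl i))) = μ (z (.inr (.inl ()))) := Fintype.prod_unique _
  unfold wt
  rw [hprod, Fintype.prod_sum_type, Fintype.prod_sum_type, hu]
  by_cases h2 : ∀ v, c (z (.inl v)) = side v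
  · rw [if_pos h2]
    by_cases h3 : ew A μ (edges e (z (.inl a)) (z (.inr (.inl ()))) fun i => z (.inr (.inr i))) = 0
    · rw [h3]
      simp
    · obtain ⟨h4, h5⟩ := side_of_ne h e hb _ _ _ h3
      rw [if_pos]
      · ring
      · rintro (v | ⟨⟩ | i)
        · exact h2 v
        · rw [h4, h2]; rfl
        · rw [h5, h2]; rfl
  · rw [if_neg h2, if_neg, zero_mul]
    exact fun h3 => h2 fun v => h3 (.inl v)

variable [DecidableEq V]

/-- The maps of a graph with an attached gadget. -/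
theorem sum_att (h : Rev A μ c) (hs : simple e) (hb : bip e) (hab : a ≠ b)
    (hd : ¬ (direct e ∧ H.Adj a b)) (hside : side b = xor (side a) (decide (len e % 2 = 1)))
    (F : (V → S) → ℝ) :
    ∑ z : V ⊕ Inn e → S, wt (att H e a b) (attSide side e a) A μ c z * F (fun v => z (.inl v)) =
      ∑ z : V → S, wt H side A μ c z * K A μ e (z a) (z b) * F z := by
  rw [← (Equiv.sumArrowEquivProdArrow V (Inn e) S).symm.sum_comp, Fintype.sum_prod_type]
  refine Finset.sum_congr rfl fun z _ => ?_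
  rw [← sum_edges A μ e (z a) (z b), Finset.mul_sum, Finset.sum_mul]
  refine Finset.sum_congr rfl fun z1 _ => ?_
  rw [wt_att h hs hb hab hd hside]
  rfl

/-- The maps of a graph with a gadget hung at a vertex. -/
theorem sum_pen (h : Rev A μ c) (hs : simple e) (hb : bip e) (F : (V → S) → ℝ) :
    ∑ z : V ⊕ (Unit ⊕ Inn e) → S,
        wt (pen H e a) (penSide side e a) A μ c z * F (fun v => z (.inl v)) =
      ∑ z : V → S, wt H side A μ c z * (∑ w, μ w * K A μ e (z a) w) * F z := by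
  rw [← (Equiv.sumArrowEquivProdArrow V (Unit ⊕ Inn e) S).symm.sum_comp, Fintype.sum_prod_type]
  refine Finset.sum_congr rfl fun z _ => ?_
  rw [← (Equiv.sumArrowEquivProdArrow Unit (Inn e) S).symm.sum_comp, Fintype.sum_prod_type,
    ← (Equiv.funUnique Unit S).symm.sum_comp, Finset.mul_sum, Finset.sum_mul]
  refine Finset.sum_congr rfl fun w _ => ?_
  rw [← sum_edges A μ e (z a) w, Finset.mul_sum, Finset.mul_sum, Finset.sum_mul]
  refine Finset.sum_congr rfl fun z1 _ => ?_
  rw [wt_pen h hs hb]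
  rfl

end wt

end Vale.Agent.P050.SP
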