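import Vale.Agent.P050.R4.H153.Law

/-!
# P050, series-parallel graphs: attached gadgets, pointwise forms
-/

namespace Vale.Agent.P050.SP

open Finset Matrix Vale.Agent.P050.Ears Vale.Agent.P050.Lev

/-- the weight of the inner vertices of a gadget -/
noncomputable def gw {S : Type} (A : Matrix S S ℝ) (μ : S → ℝ) (e : SP) (x y : S)
    (f : Inn e → S) : ℝ := (∏ i, μ (f i)) * ew A μ (edges e x y f)

/-- no isolated vertices, or only one vertex -/
def NI {V : Type} (H : SimpleGraph V) : Prop := ∀ u v : V, u ≠ v → ∃ w, H.Adj u w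

section

variable {S : Type} [Fintype S] {A : Matrix S S ℝ} {μ : S → ℝ} {c : S → Bool}
variable {V : Type} {H : SimpleGraph V} {e : SP} {a b : V} {side : V → Bool}

theorem sum_gw (A : Matrix S S ℝ) (μ : S → ℝ) (e : SP) (x y : S) :
    ∑ f : Inn e → S, gw A μ e x y f = K A μ e x y := sum_edges A μ e x y

theorem gw_nonneg (h : Rev A μ c) (e : SP) (x y : S) (f : Inn e → S) : 0 ≤ gw A μ e x y f :=
  inW_nonneg h e x y f

theorem wt_att' [Fintype V] (h : Rev A μ c) (hs : simple e) (hb : bip e) (hab : a ≠ b)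
    (hd : ¬ (direct e ∧ H.Adj a b)) (hside : side b = xor (side a) (decide (len e % 2 = 1)))
    (z : V → S) (f : Inn e → S) :
    wt (att H e a b) (attSide side e a) A μ c (Sum.elim z f) =
      wt H side A μ c z * gw A μ e (z a) (z b) f :=
  wt_att h hs hb hab hd hside (Sum.elim z f)

theorem wt_pen' [Fintype V] (h : Rev A μ c) (hs : simple e) (hb : bip e) (z : V → S)
    (f : Unit ⊕ Inn e → S) :
    wt (pen H e a) (penSide side e a) A μ c (Sum.elim z f) =
      wt H side A μ c z * (μ (f (.inl ())) *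
        gw A μ e (z a) (f (.inl ())) (fun i => f (.inr i))) :=
  wt_pen h hs hb (Sum.elim z f)

omit [Fintype S] in
theorem att_ni (hab : a ≠ b) (hH : NI H) : NI (att H e a b) := by
  have h1 : ∀ v : V, ∃ w, H.Adj v w := by
    intro v
    by_cases hv : v = a
    · subst hv; exact hH v b hab
    · exact hH v a hv
  exact fun u v _ => att_noIso h1 hab u

omit [Fintype S] in
theorem pen_ni (hH : NI H) : NI (pen H e a) := by
  intro v _ _
  obtain ⟨⟨p, hp, h1⟩, ⟨q, hq, h2⟩, h3⟩ := edges_cover e (V := V ⊕ (Unit ⊕ Inn e)) (.inl a)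
    (.inr (.inl ())) (fun i => .inr (.inr i))
  have key : ∀ r ∈ edges e (V := V ⊕ (Unit ⊕ Inn e)) (.inl a) (.inr (.inl ()))
      (fun i => .inr (.inr i)), (pen H e a).Adj r.1 r.2 := fun r hr =>
    pen_adj.2 (Or.inr ⟨edges_ne e inj_pen hr, Or.inl hr⟩)
  rcases v with v | ⟨⟩ | i
  · by_cases hv : v = a
    · subst hv
      exact ⟨p.2, by rw [← h1]; exact key p hp⟩
    · obtain ⟨w, hw⟩ := hH v a hv
      exact ⟨.inl w, pen_adj.2 (Or.inl ((map_inl H _ _).2 ⟨_, _, hw, rfl, rfl⟩))⟩
  · exact ⟨q.1, by rw [← h2]; exact (key q hq).symm⟩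
  · obtain ⟨r, hr, h4 | h4⟩ := h3 i
    · exact ⟨r.2, by rw [← h4]; exact key r hr⟩
    · exact ⟨r.1, by rw [← h4]; exact (key r hr).symm⟩

end

end Vale.Agent.P050.SP
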