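import Vale.Agent.P050.R4.H153.TreeApt

/-!
# P050, series-parallel graphs: two graphs of the class `Apt`
-/

namespace Vale.Agent.P050.SP

/-- the path of length `n + 1` -/
def pa (n : ℕ) : SP := Nat.rec .edge (fun _ e => .ser .edge e) n

theorem len_pa (n : ℕ) : len (pa n) = n + 1 := by
  induction n with
  | zero => rfl
  | succ n ih => change 1 + len (pa n) = _; omega

theorem bal_pa (n : ℕ) : Balanced (pa n) := by
  induction n with
  | zero => exact .edge
  | succ n ih => exact .ser .edge ih

theorem pa_dist (n d : ℕ) (hd : d ≤ n + 1) (hp : d % 2 = (n + 1) % 2) :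
    Apt (pa n) (.dist d) :=
  .bal (bal_pa n) (by rw [len_pa]; exact hd) (by rw [len_pa]; exact hp)

theorem pa_bent (n p q : ℕ) (h : p + q = n + 1) : Apt (pa n) (.bent p q) :=
  (bal_pa n).apt.2 p q (by rw [len_pa]; exact h)

/-- two parallel paths of lengths `i + 1` and `j + 1` -/
def two (i j : ℕ) : SP := .par (pa i) (pa j)

theorem len_two (i j : ℕ) : len (two i j) = min (i + 1) (j + 1) := by
  change min (len (pa i)) (len (pa j)) = _
  rw [len_pa, len_pa]

theorem two_dist (i j d : ℕ) (hi : d ≤ i + 1) (hpi : d % 2 = (i + 1) % 2) (hj : d ≤ j + 1)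
    (hpj : d % 2 = (j + 1) % 2) : Apt (two i j) (.dist d) :=
  .par (pa_dist i d hi hpi) (pa_dist j d hj hpj)

theorem two_tight (i j : ℕ) (hj : i ≤ j) (hpj : i % 2 = j % 2) :
    Apt (two i j) (.dist (len (two i j))) := by
  rw [len_two]
  exact two_dist i j _ (by omega) (by omega) (by omega) (by omega)

/-- the triangle with sides `T(3,a)`, `T(4,b)`, `T(5,7)` -/
def tri (a b : ℕ) : SP := .par (two 3 b) (.ser (two 2 a) (two 4 6))

theorem tri_apt (a b : ℕ) (ha : 2 ≤ a) (hpa : a % 2 = 0) (hb : 3 ≤ b) (hpb : b % 2 = 1) :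
    Apt (tri a b) (.dist (len (tri a b))) := by
  have h0 : len (tri a b) = 4 := by
    change min (len (two 3 b)) (len (two 2 a) + len (two 4 6)) = 4
    rw [len_two, len_two, len_two]
    omega
  have h2 : len (two 2 a) = 3 := by rw [len_two]; omega
  rw [h0]
  refine .par (two_dist 3 b 4 (by omega) (by omega) (by omega) (by omega)) ?_
  refine .polyR (p := 3) (q := 2) (two_tight 2 a (by omega) (by omega)) ?_ (by omega)
  rw [h2]
  exact .spar (.side (pa_bent 4 3 2 rfl)) (.opp (k := 3) (d := 4) (pa_bent 6 3 4 rfl) rfl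
    (by omega))

/-- the third side of the second example: a path of length two parallel to the series composition
of two parallel paths of lengths 3, 7 and an edge -/
def sd3 : SP := .par (pa 1) (.ser (two 2 6) .edge)

/-- the second example: the triangle with sides `T(3,3)`, `T(3,3)`, `sd3` -/
def tri2 : SP := .par (.ser (two 2 2) (two 2 2)) sd3

theorem tri2_apt : Apt tri2 (.dist (len tri2)) := by
  have h0 : len tri2 = 2 := by decide
  have h1 : len (two 2 2) = 3 := by decide
  rw [h0]
  refine .par ?_ (.par (pa_dist 1 2 (by omega) rfl) ?_)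
  · refine .polyR (p := 1) (q := 2) (two_tight 2 2 le_rfl rfl) ?_ (by omega)
    rw [h1]
    exact .side (.bpar (pa_bent 2 1 2 rfl) (pa_bent 2 1 2 rfl))
  · exact .longR (two_dist 2 6 3 (by omega) rfl (by omega) rfl) .edge

/-- the third example: the triangle with sides `T(5,9)`, `T(4,6)`, `T(3,5)` -/
def tri3 : SP := .par (two 4 8) (.ser (two 3 5) (.par (pa 2) (.ser (pa 3) .edge)))

theorem tri3_apt : Apt tri3 (.dist (len tri3)) := by
  have h0 : len tri3 = 5 := by decide
  have h1 : len (two 3 5) = 4 := by decide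
  have h2 : len (pa 3) = 4 := by decide
  rw [h0]
  refine .par (two_dist 4 8 5 (by omega) (by omega) (by omega) (by omega)) ?_
  refine .polyR (p := 2) (q := 1) (two_tight 3 5 (by omega) (by omega)) ?_ (by omega)
  rw [h1]
  exact .spar (.side (pa_bent 2 2 1 rfl)) (.wideR rfl (.side (pa_bent 3 2 2 rfl)) .edge
    (by decide))

theorem tri3_simple : simple tri3 := by
  simp [simple, tri3, two, pa, direct]

theorem ex_len : len (tri 2 3) = 4 ∧ len tri2 = 2 := by decide

theorem tri2_simple : simple tri2 := by
  simp [simple, tri2, sd3, two, pa, direct]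

theorem pa_simple (n : ℕ) : simple (pa n) := by
  induction n with
  | zero => exact trivial
  | succ n ih => exact ⟨trivial, ih⟩

theorem pa_direct (n : ℕ) : ¬ direct (pa (n + 1)) := fun h => h

theorem two_simple (i j : ℕ) : simple (two (i + 1) j) :=
  ⟨pa_simple _, pa_simple _, fun h => pa_direct i h.1⟩

theorem tri_simple (a b : ℕ) : simple (tri a b) :=
  ⟨two_simple 2 b, ⟨two_simple 1 a, two_simple 3 6⟩, fun h => h.2⟩

end Vale.Agent.P050.SP
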