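import Vale.Agent.P050.R4.H153.Graph
import Vale.Agent.P050.R4.H345.Cor
import Vale.Agent.P050.R3.H987.Sid

/-!
# P050, series-parallel graphs: the theorem on graphs
-/

namespace Vale.Agent.P050.SP

open Finset Matrix Vale.Agent.P050.Ears Vale.Agent.P050.Lev

variable {V : Type} {H : SimpleGraph V} {e : SP}

theorem proper_iso (hb : bip e) (φ : H ≃g gr e) (u v : V) (h : H.Adj u v) :
    sd false e (φ u) ≠ sd false e (φ v) :=
  gr_proper hb false _ _ (φ.map_adj_iff.2 h)

theorem noIso_iso (φ : H ≃g gr e) (v : V) : ∃ u, H.Adj v u := by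
  obtain ⟨w, hw⟩ := gr_noIso e (φ v)
  refine ⟨φ.symm w, φ.map_adj_iff.1 ?_⟩
  rwa [φ.apply_symm_apply]

variable [Fintype V] [DecidableEq V]

/-- The two-sided inequality from the inequality for the kernel of the expression. -/
theorem gsid_of_kernel (hs : simple e) (hb : bip e) (φ : H ≃g gr e)
    (hK : ∀ (S : Type) [Fintype S] [DecidableEq S] (A : Matrix S S ℝ) (μ : S → ℝ)
      (c : S → Bool), Rev A μ c →
      1 ≤ ∑ x, if c x = false then ∑ y, μ x * μ y * K A μ e x y else 0) :
    GSid H (fun v => sd false e (φ v)) := by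
  classical
  refine gsid_of_rev H _ (proper_iso hb φ) (noIso_iso φ) ?_
  intro S _ _ _ A μ c h
  have h1 := hK S A μ c h
  have h2 := sum_wt h hs hb false
  have h3 : ∑ z : V → S, wt H (fun v => sd false e (φ v)) A μ c z =
      ∑ z : Bool ⊕ Inn e → S, wt (gr e) (sd false e) A μ c z := by
    have h4 := sum_iso (A := A) (μ := μ) (c := c) φ (sd false e) (fun _ => 1)
    simp only [mul_one] at h4
    exact h4.symm
  rw [h3, h2]
  exact h1

theorem gsid_iso (hs : simple e) (he : Adm e (some (len e))) (φ : H ≃g gr e) :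
    GSid H (fun v => sd false e (φ v)) :=
  gsid_of_kernel hs he.fits.1 φ fun _ _ _ _ _ _ h => Adm.final h he false

theorem sid_iso (hs : simple e) (he : Adm e (some (len e))) (φ : H ≃g gr e) {U : Type*}
    [Finite U] [Nonempty U] (G : SimpleGraph U) :
    edgeDensity G ^ Nat.card H.edgeSet ≤ homDensity H G :=
  sidorenko_of_gsid (gsid_iso hs he φ) G

end Vale.Agent.P050.SP
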