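import Vale.Agent.P050.R4.H153.Final
import Vale.Agent.P050.R4.H345.FitCor

/-!
# P050, series-parallel graphs: the theorem on graphs, class with bent parts
-/

namespace Vale.Agent.P050.SP

open Finset Matrix Vale.Agent.P050.Ears Vale.Agent.P050.Lev

variable {V : Type} {H : SimpleGraph V} {e : SP} [Fintype V] [DecidableEq V]

theorem gsid_fit (hs : simple e) (he : Fit e (.dist (len e))) (φ : H ≃g gr e) :
    GSid H (fun v => sd false e (φ v)) :=
  gsid_of_kernel hs he.fits.1 φ fun _ _ _ _ _ _ h => Fit.final h he false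

theorem sid_fit (hs : simple e) (he : Fit e (.dist (len e))) (φ : H ≃g gr e) {U : Type*}
    [Finite U] [Nonempty U] (G : SimpleGraph U) :
    edgeDensity G ^ Nat.card H.edgeSet ≤ homDensity H G :=
  sidorenko_of_gsid (gsid_fit hs he φ) G

end Vale.Agent.P050.SP
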