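import Vale.Agent.P050.R4.H153.FrDef

/-!
# P050, frames: forests
-/

namespace Vale.Agent.P050.SP

/-- The edges in the list `E` form a forest: it arises by adding leaves. -/
inductive Forest {V : Type} : Multiset (V × ℕ × V) → Prop
  | nil : Forest 0
  | leaf {u v : V} {d : ℕ} {E : Multiset (V × ℕ × V)} : u ≠ v →
      (∀ p ∈ E, p.1 ≠ v ∧ p.2.2 ≠ v) → Forest E → Forest ((u, d, v) ::ₘ E)
  | leaf' {u v : V} {d : ℕ} {E : Multiset (V × ℕ × V)} : u ≠ v →
      (∀ p ∈ E, p.1 ≠ v ∧ p.2.2 ≠ v) → Forest E → Forest ((v, d, u) ::ₘ E)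

end Vale.Agent.P050.SP
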