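import Vale.Agent.P050.R4.H153.ForDef
import Vale.Agent.P050.R4.H345.FrDer

/-!
# P050, frames: the mass of a forest
-/

namespace Vale.Agent.P050.SP

open Finset Matrix Vale.Agent.P050.Ears Vale.Agent.P050.Lev

variable {S : Type} [Fintype S] [DecidableEq S] {A : Matrix S S ℝ} {μ : S → ℝ} {c : S → Bool}
variable {V : Type} [Fintype V] [DecidableEq V] {side : V → Bool}

theorem leaf_mass (h : Rev A μ c) {u v : V} {d : ℕ} {E : Multiset (V × ℕ × V)} (huv : u ≠ v)
    (hE : ∀ p ∈ E, p.1 ≠ v ∧ p.2.2 ≠ v) (hs : side v = sh (side u) d) :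
    ∑ z, mus side μ c z * kapE A μ ((u, d, v) ::ₘ E) z = ∑ z, mus side μ c z * kapE A μ E z := by
  rw [resample_one h side v]
  refine Finset.sum_congr rfl fun z _ => ?_
  by_cases hz : c (z u) = side u
  · congr 1
    have h1 : ∀ x, (if c x = side v then μ x else 0) *
        kapE A μ ((u, d, v) ::ₘ E) (Function.update z v x) =
        ((if c x = side v then μ x else 0) * kap A μ d (z u) x) * kapE A μ E z := by
      intro x
      rw [kapE_cons, kapE_update hE, Function.update_self, Function.update_of_ne huv]
      ring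
    rw [Finset.sum_congr rfl fun x _ => h1 x, ← Finset.sum_mul,
      sum_last h d (by rw [hz, hs]), one_mul]
  · rw [mus_eq_zero hz, zero_mul, zero_mul]

/-- the law of a forest has mass one -/
theorem Forest.mass (h : Rev A μ c) {E : Multiset (V × ℕ × V)} (hF : Forest E)
    (ht : TOK side E) : ∑ z, mus side μ c z * kapE A μ E z = 1 := by
  induction hF with
  | nil =>
    simp only [kapE_zero, mul_one]
    exact mus_sum h side
  | @leaf u v d E huv hE _ ih =>
    rw [leaf_mass h huv hE (ht (u, d, v) (Multiset.mem_cons_self _ _))]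
    exact ih fun p hp => ht p (Multiset.mem_cons_of_mem hp)
  | @leaf' u v d E huv hE _ ih =>
    have h1 : side u = sh (side v) d := ht (v, d, u) (Multiset.mem_cons_self _ _)
    have h2 : side v = sh (side u) d := by rw [h1, sh_sh]
    have h3 : ∀ z : V → S, kapE A μ ((v, d, u) ::ₘ E) z = kapE A μ ((u, d, v) ::ₘ E) z := by
      intro z
      rw [kapE_cons, kapE_cons, h.kap_symm]
    simp only [h3]
    rw [leaf_mass h huv hE h2]
    exact ih fun p hp => ht p (Multiset.mem_cons_of_mem hp)

end Vale.Agent.P050.SP
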