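import Vale.Agent.P050.R4.H153.FrG
import Vale.Agent.P050.R4.H153.TreeApt

/-!
# P050, graphs made from frames with parts of the class `Apt`
-/

namespace Vale.Agent.P050.SP

open Vale.Agent.P050.Lev

theorem FrG.gsid_apt {V W : Type} [Fintype V] [DecidableEq V] {H : SimpleGraph V}
    {G : SimpleGraph W} {D : W → W → ℕ → Prop} (hG : FrG (fun e d => Apt e (.dist d)) G 0 D)
    (φ : H ≃g G) : ∃ side : V → Bool, GSid H side :=
  hG.gsid sound_apt φ

end Vale.Agent.P050.SP
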