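import Vale.Agent.P050.R4.H153.Frame

/-!
# P050, frames: cloning vertices of a recorded tree
-/

namespace Vale.Agent.P050.SP

open Finset Matrix Vale.Agent.P050.Ears Vale.Agent.P050.Lev

theorem one_sub_le_mul_log {x : ℝ} (hx : 0 ≤ x) : x - 1 ≤ x * Real.log x := by
  rcases hx.eq_or_lt with h0 | h0
  · rw [← h0]; norm_num
  · have h1 := Real.one_sub_inv_le_log_of_pos h0
    have h2 := mul_le_mul_of_nonneg_left h1 h0.le
    have h3 : x * (1 - x⁻¹) = x - 1 := by
      rw [mul_sub, mul_inv_cancel₀ h0.ne', mul_one]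
    linarith

section

variable {V N : Type} {g : N → V} {ρ : V → V ⊕ N}

theorem clone_inj (hg : ∀ n, ρ (g n) = .inr n) : Function.Injective g := fun n m hnm => by
  have h1 : (.inr n : V ⊕ N) = .inr m := by rw [← hg n, ← hg m, hnm]
  exact Sum.inr.inj h1

theorem clone_side {side : V → Bool} (hg : ∀ n, ρ (g n) = .inr n)
    (hρ : ∀ v, (∀ n, g n ≠ v) → ρ v = .inl v) (v : V) :
    Sum.elim side (fun n => side (g n)) (ρ v) = side v := by
  by_cases hv : ∃ n, g n = v
  · obtain ⟨n, rfl⟩ := hv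
    rw [hg]; rfl
  · push Not at hv
    rw [hρ v hv]; rfl

theorem clone_extend {S : Type} (hg : ∀ n, ρ (g n) = .inr n)
    (hρ : ∀ v, (∀ n, g n ≠ v) → ρ v = .inl v) (z : V → S) (y : N → S) :
    (fun v => Sum.elim z y (ρ v)) = Function.extend g y z := by
  funext v
  by_cases hv : ∃ n, g n = v
  · obtain ⟨n, rfl⟩ := hv
    rw [hg, (clone_inj hg).extend_apply]; rfl
  · rw [Function.extend_apply' _ _ _ hv]
    push Not at hv
    rw [hρ v hv]; rfl

end

section

variable {S : Type} [Fintype S] [DecidableEq S] {A : Matrix S S ℝ} {μ : S → ℝ} {c : S → Bool}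
variable {V N : Type} [Fintype V] [DecidableEq V] [Fintype N] [DecidableEq N]
variable {g : N → V} {ρ : V → V ⊕ N} {side : V → Bool} {E E₁ : Multiset (V × ℕ × V)}

/-- resampling the cloned vertices -/
theorem clone_hs (h : Rev A μ c) (hg : ∀ n, ρ (g n) = .inr n)
    (hρ : ∀ v, (∀ n, g n ≠ v) → ρ v = .inl v)
    (hE₁ : ∀ p ∈ E₁, ∀ n, p.1 ≠ g n ∧ p.2.2 ≠ g n) (G : (V → S) → ℝ)
    (hG : ∀ z z' : V → S, (∀ v, (∀ n, g n ≠ v) → z v = z' v) → G z = G z') :
    ∑ z, mus side μ c z * kapE A μ (E + E₁) z * G z =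
      ∑ z, mus side μ c z * kapE A μ E₁ z *
        zw A μ c (fun n => side (g n)) (E.map (emap ρ)) z * G z := by
  have hi := clone_inj hg
  have h1 := resample h side hi fun z => kapE A μ (E + E₁) z * G z
  have off : ∀ (z : V → S) (y : N → S) (v : V), (∀ n, g n ≠ v) →
      Function.extend g y z v = z v := fun z y v hv =>
    Function.extend_apply' _ _ _ fun ⟨n, hn⟩ => hv n hn
  calc ∑ z, mus side μ c z * kapE A μ (E + E₁) z * G z
      = ∑ z, mus side μ c z * (kapE A μ (E + E₁) z * G z) :=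
        Finset.sum_congr rfl fun z _ => by ring
    _ = _ := h1
    _ = _ := by
        refine Finset.sum_congr rfl fun z _ => ?_
        unfold zw
        rw [Finset.mul_sum, Finset.mul_sum, Finset.sum_mul]
        refine Finset.sum_congr rfl fun y _ => ?_
        have e1 : kapE A μ E₁ (Function.extend g y z) = kapE A μ E₁ z :=
          kapE_congr fun p hp => ⟨off z y _ fun n hn => (hE₁ p hp n).1 hn.symm,
            off z y _ fun n hn => (hE₁ p hp n).2 hn.symm⟩
        have e2 : G (Function.extend g y z) = G z := hG _ _ fun v hv => off z y v hv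
        unfold nw
        rw [kapE_add, e1, e2, kapE_map, clone_extend hg hρ]
        ring

theorem clone_ends {U : Set V} (hg : ∀ n, ρ (g n) = .inr n)
    (hρ : ∀ v, (∀ n, g n ≠ v) → ρ v = .inl v) (v : V) (hv : .inl v ∈ ρ '' U) :
    v ∈ U ∧ ∀ n, g n ≠ v := by
  obtain ⟨u, hu, h1⟩ := hv
  by_cases hn : ∃ n, g n = u
  · obtain ⟨n, rfl⟩ := hn
    rw [hg] at h1
    exact absurd h1 (by simp)
  · push Not at hn
    rw [hρ u hn] at h1
    obtain rfl : u = v := Sum.inl.inj h1
    exact ⟨hu, hn⟩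

variable {P : (V → S) → ℝ} {U : Set V}

theorem clone_mem (hE : ∀ p ∈ E, p.1 ∈ U ∧ p.2.2 ∈ U) :
    ∀ p ∈ E.map (emap ρ), (∀ v, p.1 = .inl v → .inl v ∈ ρ '' U) ∧
      ∀ v, p.2.2 = .inl v → .inl v ∈ ρ '' U := by
  intro p hp
  obtain ⟨q, hq, rfl⟩ := Multiset.mem_map.1 hp
  exact ⟨fun v hv => hv ▸ ⟨q.1, (hE q hq).1, rfl⟩, fun v hv => hv ▸ ⟨q.2.2, (hE q hq).2, rfl⟩⟩

theorem clone_rec (h : Rev A μ c) (hg : ∀ n, ρ (g n) = .inr n)
    (hρ : ∀ v, (∀ n, g n ≠ v) → ρ v = .inl v) (hE : ∀ p ∈ E, p.1 ∈ U ∧ p.2.2 ∈ U)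
    (hm : MargT A μ c side P (U, E)) (G : (V → S) → ℝ)
    (hG : ∀ z z' : V → S, (∀ v, .inl v ∈ ρ '' U → z v = z' v) → G z = G z') :
    ∑ z, P z * G z = ∑ z, mus side μ c z *
      (zw A μ c (fun n => side (g n)) (E.map (emap ρ)) z * G z) := by
  rw [hm G fun z z' hz => hG z z' fun v hv => hz v (clone_ends hg hρ v hv).1]
  have h1 := clone_hs (side := side) (E := E) (E₁ := 0) h hg hρ (by simp) G fun z z' hz =>
    hG z z' fun v hv => hz v (clone_ends hg hρ v hv).2
  rw [add_zero] at h1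
  rw [h1]
  refine Finset.sum_congr rfl fun z _ => ?_
  rw [kapE_zero]
  ring

theorem clone_zw_ne (h : Rev A μ c) (hg : ∀ n, ρ (g n) = .inr n)
    (hρ : ∀ v, (∀ n, g n ≠ v) → ρ v = .inl v) (hE : ∀ p ∈ E, p.1 ∈ U ∧ p.2.2 ∈ U)
    (hP : ∀ z, 0 ≤ P z) (hm : MargT A μ c side P (U, E)) (z : V → S) (hz : P z ≠ 0) :
    zw A μ c (fun n => side (g n)) (E.map (emap ρ)) z ≠ 0 := by
  intro h0
  have dz : ∀ z z' : V → S, (∀ v, .inl v ∈ ρ '' U → z v = z' v) →
      zw A μ c (fun n => side (g n)) (E.map (emap ρ)) z =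
        zw A μ c (fun n => side (g n)) (E.map (emap ρ)) z' := fun z z' hz =>
    Finset.sum_congr rfl fun y _ => nw_dep (clone_mem hE) z z' hz y
  have h1 := clone_rec h hg hρ hE hm
    (fun z => if zw A μ c (fun n => side (g n)) (E.map (emap ρ)) z = 0 then 1 else 0)
    (fun z z' hz => by rw [dz z z' hz])
  have h2 : ∑ z, mus side μ c z * (zw A μ c (fun n => side (g n)) (E.map (emap ρ)) z *
      (if zw A μ c (fun n => side (g n)) (E.map (emap ρ)) z = 0 then (1 : ℝ) else 0)) = 0 := by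
    refine Finset.sum_eq_zero fun z _ => ?_
    split_ifs with h3
    · rw [h3]; ring
    · ring
  rw [h2] at h1
  have h4 := (Finset.sum_eq_zero_iff_of_nonneg fun z' _ => mul_nonneg (hP z')
    (by split_ifs <;> norm_num)).1 h1 z (mem_univ z)
  rw [if_pos h0, mul_one] at h4
  exact hz h4

theorem clone_gain (h : Rev A μ c) (hg : ∀ n, ρ (g n) = .inr n)
    (hρ : ∀ v, (∀ n, g n ≠ v) → ρ v = .inl v) (hE : ∀ p ∈ E, p.1 ∈ U ∧ p.2.2 ∈ U)
    (hs : ∑ z, P z = 1) (hm : MargT A μ c side P (U, E)) :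
    0 ≤ ∑ z, P z * Real.log (zw A μ c (fun n => side (g n)) (E.map (emap ρ)) z) := by
  have dz : ∀ z z' : V → S, (∀ v, .inl v ∈ ρ '' U → z v = z' v) →
      zw A μ c (fun n => side (g n)) (E.map (emap ρ)) z =
        zw A μ c (fun n => side (g n)) (E.map (emap ρ)) z' := fun z z' hz =>
    Finset.sum_congr rfl fun y _ => nw_dep (clone_mem hE) z z' hz y
  rw [clone_rec h hg hρ hE hm _ fun z z' hz => by rw [dz z z' hz]]
  have h1 := clone_rec h hg hρ hE hm (fun _ => 1) fun _ _ _ => rfl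
  simp only [mul_one, hs] at h1
  have h2 : ∑ z, mus side μ c z *
      (zw A μ c (fun n => side (g n)) (E.map (emap ρ)) z - 1) = 0 := by
    simp only [mul_sub, mul_one, Finset.sum_sub_distrib]
    rw [← h1, mus_sum h, sub_self]
  rw [← h2]
  exact Finset.sum_le_sum fun z _ => mul_le_mul_of_nonneg_left
    (one_sub_le_mul_log (zw_nonneg h z)) (mus_nonneg h side z)

end

/-- The vertices `g n` of a recorded tree are cloned. -/
theorem FOK.clone {V N : Type} {L : Multiset (V × ℕ × V)}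
    {R : Set (Set V × Multiset (V × ℕ × V))} {iF : Fintype V} {iD : DecidableEq V}
    {side : V → Bool} {U : Set V} {E : Multiset (V × ℕ × V)} {g : N → V} {ρ : V → V ⊕ N}
    {iN : Fintype N} {iE : DecidableEq N} (hT : FOK L R iF iD side) (hr : (U, E) ∈ R)
    (hE : ∀ p ∈ E, p.1 ∈ U ∧ p.2.2 ∈ U) (hg : ∀ n, ρ (g n) = .inr n)
    (hρ : ∀ v, (∀ n, g n ≠ v) → ρ v = .inl v) :
    FOK (L.map (emap .inl) + E.map (emap ρ)) (cloneT R g ρ E) inferInstance inferInstance
      (Sum.elim side fun n => side (g n)) := by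
  have tm : ∀ E : Multiset (V × ℕ × V), TOK side E →
      TOK (Sum.elim side fun n => side (g n)) (E.map (emap ρ)) := by
    intro E hE p hp
    obtain ⟨q, hq, rfl⟩ := Multiset.mem_map.1 hp
    change Sum.elim side _ (ρ q.2.2) = sh (Sum.elim side _ (ρ q.1)) q.2.1
    rw [clone_side hg hρ, clone_side hg hρ]
    exact hE q hq
  have tl : ∀ E : Multiset (V × ℕ × V), TOK side E →
      TOK (Sum.elim side fun n => side (g n)) (E.map (emap .inl)) := by
    intro E hE p hp
    obtain ⟨q, hq, rfl⟩ := Multiset.mem_map.1 hp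
    exact hE q hq
  refine ⟨?_, ?_, fun S _ _ A μ c h => ?_⟩
  · intro p hp
    rcases Multiset.mem_add.1 hp with hp | hp
    · exact tl L hT.virt p hp
    · exact tm E (hT.rok _ hr) p hp
  · rintro r (⟨r₀, h0, rfl⟩ | ⟨U', E', h0, _, _, rfl⟩)
    · exact tl _ (hT.rok r₀ h0)
    · exact tm _ (hT.rok _ h0)
  · obtain ⟨P, hP, hM⟩ := hT.law S A μ c h
    have hm := hM _ hr
    have hZ := clone_zw_ne h hg hρ hE hP.nonneg hm
    refine ⟨extP A μ c (fun n => side (g n)) (E.map (emap ρ)) P, hP.ext h (ℓ := fun _ => 1)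
      (fun z => by rw [one_mul]) hZ ?_, ?_⟩
    · simp only [Real.log_one, mul_zero, Finset.sum_const_zero]
      exact clone_gain h hg hρ hE hP.sum hm
    · rintro r (⟨r₀, h0, rfl⟩ | ⟨U', E', h0, h1, h2, rfl⟩)
      · exact (hM r₀ h0).ext_old h hZ
      · refine MargT.ext_new (E₁ := E') h (hM _ h0) (fun v hv => (clone_ends hg hρ v hv).1)
          (clone_mem h1) (fun z y => ?_) fun G hG => ?_
        · rw [Multiset.map_add, kapE_add, mul_comm]
          congr 1
          rw [kapE_map]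
          exact kapE_congr fun p hp => ⟨by rw [hρ _ fun n hn => (h2 p hp n).1 hn.symm]; rfl,
            by rw [hρ _ fun n hn => (h2 p hp n).2 hn.symm]; rfl⟩
        · exact clone_hs h hg hρ h2 G fun z z' hz => hG z z' fun v hv =>
            hz v (clone_ends hg hρ v hv).2

end Vale.Agent.P050.SP
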