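import Vale.Agent.P050.R4.H153.TreeDef

/-!
# P050, frames: graphs with edge lengths built by cloning parts of trees
-/

namespace Vale.Agent.P050.SP

/-- An edge `(u, d, v)` has the ends `u`, `v` and the length `d`. The ends are renamed. -/
def emap {V W : Type} (f : V → W) (p : V × ℕ × V) : W × ℕ × W := (f p.1, p.2.1, f p.2.2)

/-- A record `(U, E)`: `E` is the set of edges of a tree on the set `U` of vertices. The vertices
are renamed. -/
def tmap {V W : Type} (f : V → W) (r : Set V × Multiset (V × ℕ × V)) :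
    Set W × Multiset (W × ℕ × W) := (f '' r.1, r.2.map (emap f))

/-- `TDer r r'`: the record `r'` arises from the record `r` by deleting leaves and forgetting
vertices of degree two (their two edges are replaced by one, the lengths are added). -/
inductive TDer {V : Type} : Set V × Multiset (V × ℕ × V) → Set V × Multiset (V × ℕ × V) → Prop
  | refl (r : Set V × Multiset (V × ℕ × V)) : TDer r r
  | trans {r r' r'' : Set V × Multiset (V × ℕ × V)} : TDer r r' → TDer r' r'' → TDer r r''
  | flip {U : Set V} {u v : V} {d : ℕ} {E : Multiset (V × ℕ × V)} :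
      TDer (U, (u, d, v) ::ₘ E) (U, (v, d, u) ::ₘ E)
  | prune {U : Set V} {u v : V} {d : ℕ} {E : Multiset (V × ℕ × V)} : u ≠ v →
      (∀ p ∈ E, p.1 ≠ v ∧ p.2.2 ≠ v) → TDer (U, (u, d, v) ::ₘ E) (U \ {v}, E)
  | smooth {U : Set V} {u v w : V} {d d' : ℕ} {E : Multiset (V × ℕ × V)} : u ≠ v → w ≠ v →
      (∀ p ∈ E, p.1 ≠ v ∧ p.2.2 ≠ v) →
      TDer (U, (u, d, v) ::ₘ (v, d', w) ::ₘ E) (U \ {v}, (u, d + d', w) ::ₘ E)

/-- the old records -/
def oldT {V : Type} (W : Type) (R : Set (Set V × Multiset (V × ℕ × V))) :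
    Set (Set (V ⊕ W) × Multiset ((V ⊕ W) × ℕ × (V ⊕ W))) :=
  {r | ∃ r₀ ∈ R, r = tmap .inl r₀}

/-- the records after adding an edge of length `d` from `a` to a new vertex: the old ones, and
those which contain `a`, extended by this edge -/
def penT {V : Type} (R : Set (Set V × Multiset (V × ℕ × V))) (a : V) (d : ℕ) :
    Set (Set (V ⊕ Unit) × Multiset ((V ⊕ Unit) × ℕ × (V ⊕ Unit))) :=
  oldT Unit R ∪ {r | ∃ U E, (U, E) ∈ R ∧ a ∈ U ∧
    r = (Sum.inl '' U ∪ {.inr ()}, (.inl a, d, .inr ()) ::ₘ E.map (emap .inl))}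

/-- the records after subdividing a new edge parallel to `(u, d + d', w)`: the old ones, and those
which contain this edge, where it is replaced by the two new edges -/
def subT {V : Type} (R : Set (Set V × Multiset (V × ℕ × V))) (u : V) (d d' : ℕ) (w : V) :
    Set (Set (V ⊕ Unit) × Multiset ((V ⊕ Unit) × ℕ × (V ⊕ Unit))) :=
  oldT Unit R ∪ {r | ∃ U E, (U, (u, d + d', w) ::ₘ E) ∈ R ∧ u ∈ U ∧ w ∈ U ∧
    r = (Sum.inl '' U ∪ {.inr ()},
      (.inl u, d, .inr ()) ::ₘ (.inr (), d', .inl w) ::ₘ E.map (emap .inl))}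

/-- the records after cloning the vertices `g n` of the tree `E`; `ρ` sends `g n` to its clone and
every other vertex to itself: the old ones, and the images under `ρ` of those records which contain
`E` and whose other edges have no end `g n` -/
def cloneT {V N : Type} (R : Set (Set V × Multiset (V × ℕ × V))) (g : N → V) (ρ : V → V ⊕ N)
    (E : Multiset (V × ℕ × V)) : Set (Set (V ⊕ N) × Multiset ((V ⊕ N) × ℕ × (V ⊕ N))) :=
  oldT N R ∪ {r | ∃ U E', (U, E + E') ∈ R ∧ (∀ p ∈ E, p.1 ∈ U ∧ p.2.2 ∈ U) ∧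
    (∀ p ∈ E', ∀ n, p.1 ≠ g n ∧ p.2.2 ≠ g n) ∧ r = tmap ρ (U, E + E')}

/-- `Frame L R`: a graph with positive edge lengths; `L` is the list of its edges and `R` is a set
of records. -/
inductive Frame : {V : Type} → Multiset (V × ℕ × V) → Set (Set V × Multiset (V × ℕ × V)) → Prop
  /-- one vertex -/
  | point : Frame (V := Unit) 0 {(Set.univ, 0)}
  /-- other records -/
  | weak {V : Type} {L : Multiset (V × ℕ × V)} {R R' : Set (Set V × Multiset (V × ℕ × V))} :
      Frame L R → (∀ r' ∈ R', ∃ r ∈ R, TDer r r') → Frame L R'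
  /-- a new edge at a recorded vertex `a` -/
  | pen {V : Type} {L : Multiset (V × ℕ × V)} {R : Set (Set V × Multiset (V × ℕ × V))}
      {U : Set V} {E : Multiset (V × ℕ × V)} {a : V} {d : ℕ} : Frame L R → (U, E) ∈ R → a ∈ U →
      0 < d → Frame ((.inl a, d, .inr ()) ::ₘ L.map (emap .inl)) (penT R a d)
  /-- the vertices `g n` of a recorded tree are cloned, with all edges of the tree -/
  | clone {V N : Type} {L : Multiset (V × ℕ × V)} {R : Set (Set V × Multiset (V × ℕ × V))}
      {U : Set V} {E : Multiset (V × ℕ × V)} {g : N → V} {ρ : V → V ⊕ N} : Frame L R →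
      (U, E) ∈ R → (∀ p ∈ E, p.1 ∈ U ∧ p.2.2 ∈ U) → (∀ n, ρ (g n) = .inr n) →
      (∀ v, (∀ n, g n ≠ v) → ρ v = .inl v) →
      Frame (L.map (emap .inl) + E.map (emap ρ)) (cloneT R g ρ E)
  /-- an edge is subdivided -/
  | sub {V : Type} {L : Multiset (V × ℕ × V)} {R : Set (Set V × Multiset (V × ℕ × V))}
      {u w : V} {d d' : ℕ} : Frame ((u, d + d', w) ::ₘ L) R → 0 < d → 0 < d' →
      Frame ((.inl u, d, .inr ()) ::ₘ (.inr (), d', .inl w) ::ₘ L.map (emap .inl))
        (subT R u d d' w)

/-- Graphs made from frames. `FrG C H L D`: the edges of the frame in the list `L` are still to be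
replaced; `D u v d`: `u` and `v` are vertices of the frame at distance `d` on a record. -/
inductive FrG (C : SP → ℕ → Prop) : {V : Type} → SimpleGraph V → Multiset (V × ℕ × V) →
    (V → V → ℕ → Prop) → Prop
  /-- the frame -/
  | frame {V : Type} {L : Multiset (V × ℕ × V)} {R : Set (Set V × Multiset (V × ℕ × V))} :
      Frame L R → FrG C (⊥ : SimpleGraph V) L fun u v d => ({u, v}, {(u, d, v)}) ∈ R
  /-- an edge of the frame is replaced by a tight part of its length -/
  | real {V : Type} {H : SimpleGraph V} {L : Multiset (V × ℕ × V)} {D : V → V → ℕ → Prop}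
      {e : SP} {u v : V} : FrG C H ((u, len e, v) ::ₘ L) D → D u v (len e) → u ≠ v →
      simple e → ¬ (direct e ∧ H.Adj u v) → C e (len e) →
      FrG C (att H e u v) (L.map (emap .inl)) (attD e D)
  /-- a part is put between two vertices at distance `d` on a record -/
  | att {V : Type} {H : SimpleGraph V} {L : Multiset (V × ℕ × V)} {D : V → V → ℕ → Prop}
      {e : SP} {u v : V} {d : ℕ} : FrG C H L D → D u v d → u ≠ v → simple e →
      ¬ (direct e ∧ H.Adj u v) → C e d → FrG C (att H e u v) (L.map (emap .inl)) (attD e D)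

end Vale.Agent.P050.SP
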