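import Vale.Agent.P050.R4.H153.FrSem

/-!
# P050, frames: attaching parts to a frame
-/

namespace Vale.Agent.P050.SP

open Finset Matrix Vale.Agent.P050.Ears Vale.Agent.P050.Lev

variable {S : Type} [Fintype S] [DecidableEq S] {A : Matrix S S ℝ} {μ : S → ℝ} {c : S → Bool}
variable {V : Type} [Fintype V] [DecidableEq V] {H : SimpleGraph V} {e : SP} {a b : V}
variable {side : V → Bool}

/-- A law of the maps of the graph `H` together with the edges in the list `L`, with nonnegative
entropy balance. -/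
structure LawV (H : SimpleGraph V) (L : Multiset (V × ℕ × V)) (side : V → Bool)
    (A : Matrix S S ℝ) (μ : S → ℝ) (c : S → Bool) (P : (V → S) → ℝ) : Prop where
  nonneg : ∀ z, 0 ≤ P z
  sum : ∑ z, P z = 1
  supp : ∀ z, 0 < P z → 0 < wt H side A μ c z * kapE A μ L z
  ent : 0 ≤ ∑ z, P z * (Real.log (wt H side A μ c z * kapE A μ L z) - Real.log (P z))

theorem LawV.lawOn {P : (V → S) → ℝ} (hP : LawV H 0 side A μ c P) : LawOn H side A μ c P := by
  have h1 : ∀ z : V → S, wt H side A μ c z * kapE A μ 0 z = wt H side A μ c z := fun z => by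
    rw [kapE_zero, mul_one]
  refine ⟨hP.nonneg, hP.sum, fun z hz => ?_, ?_⟩
  · have := hP.supp z hz
    rwa [h1] at this
  · have := hP.ent
    simp only [h1] at this
    exact this

/-- the graph without edges -/
theorem wt_bot (side : V → Bool) (z : V → S) :
    wt (⊥ : SimpleGraph V) side A μ c z = mus side μ c z := by
  unfold wt mus
  have h1 : sideEdges (⊥ : SimpleGraph V) side = ∅ := by
    classical
    ext p
    simp [sideEdges]
  rw [h1, Finset.prod_empty, mul_one]
  by_cases h2 : ∀ v, c (z v) = side v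
  · rw [if_pos h2]
    exact Finset.prod_congr rfl fun v _ => by rw [if_pos (h2 v)]
  · rw [if_neg h2]
    push Not at h2
    obtain ⟨v, hv⟩ := h2
    exact (Finset.prod_eq_zero (mem_univ v) (if_neg hv)).symm

theorem LawF.lawV {L : Multiset (V × ℕ × V)} {P : (V → S) → ℝ} (hP : LawF L side A μ c P) :
    LawV ⊥ L side A μ c P :=
  ⟨hP.nonneg, hP.sum, fun z hz => by rw [wt_bot]; exact hP.supp z hz, by
    simp only [wt_bot]; exact hP.ent⟩

/-- Attaching a part. The factor `ℓ` of the old weight is dropped. -/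
theorem LawV.att (h : Rev A μ c) (hs : simple e) (hb : bip e) (hab : a ≠ b)
    (hd : ¬ (direct e ∧ H.Adj a b)) (hside : side b = xor (side a) (decide (len e % 2 = 1)))
    {L L₂ : Multiset (V × ℕ × V)} {ℓ : (V → S) → ℝ}
    (hL : ∀ z, kapE A μ L z = ℓ z * kapE A μ L₂ z) {P : (V → S) → ℝ}
    (hP : LawV H L side A μ c P) (pK : ∀ z, 0 < P z → 0 < K A μ e (z a) (z b))
    (hK : ∑ z, P z * Real.log (ℓ z) ≤ ∑ z, P z * Real.log (K A μ e (z a) (z b))) :
    LawV (SP.att H e a b) (L₂.map (emap .inl)) (attSide side e a) A μ c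
      (attP A μ e a b P) := by
  have pK' : ∀ z, P z ≠ 0 → K A μ e (z a) (z b) ≠ 0 := fun z hz =>
    (pK z (lt_of_le_of_ne (hP.nonneg z) hz.symm)).ne'
  have pos : ∀ z, 0 < P z → wt H side A μ c z ≠ 0 ∧ ℓ z ≠ 0 ∧ kapE A μ L₂ z ≠ 0 := by
    intro z hz
    have h1 := hP.supp z hz
    rw [hL z] at h1
    refine ⟨fun h0 => ?_, fun h0 => ?_, fun h0 => ?_⟩ <;>
      · rw [h0] at h1; simp at h1
  have split : ∀ z : V ⊕ Inn e → S, wt (SP.att H e a b) (attSide side e a) A μ c z *
      kapE A μ (L₂.map (emap (Sum.inl : V → V ⊕ Inn e))) z =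
      wt H side A μ c (fun v => z (.inl v)) * kapE A μ L₂ (fun v => z (.inl v)) *
        inW A μ e (z (.inl a)) (z (.inl b)) (fun i => z (.inr i)) := by
    intro z
    have e1 : wt (SP.att H e a b) (attSide side e a) A μ c z =
        wt H side A μ c (fun v => z (.inl v)) *
          inW A μ e (z (.inl a)) (z (.inl b)) (fun i => z (.inr i)) :=
      wt_att h hs hb hab hd hside z
    rw [e1, kapE_map]
    ring
  refine ⟨fun z => ?_, ?_, fun z hz => ?_, ?_⟩
  · exact mul_nonneg (hP.nonneg _) (div_nonneg (inW_nonneg h _ _ _ _) (K_nonneg h e _ _))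
  · have h1 := attP_marg (A := A) (μ := μ) (e := e) (a := a) (b := b) pK' (fun _ => 1)
    simp only [mul_one] at h1
    rw [h1, hP.sum]
  · obtain ⟨h1, h2, _⟩ := attP_pos h hP.nonneg hz
    obtain ⟨n1, _, n3⟩ := pos _ h1
    rw [split]
    exact mul_pos (mul_pos (lt_of_le_of_ne (wt_nonneg h _) n1.symm)
      (lt_of_le_of_ne (kapE_nonneg h _ _) n3.symm)) h2
  · have h1 := attP_marg (A := A) (μ := μ) (e := e) (a := a) (b := b) pK' (fun z =>
      (Real.log (wt H side A μ c z * kapE A μ L z) - Real.log (P z)) - Real.log (ℓ z) +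
        Real.log (K A μ e (z a) (z b)))
    have h2 : ∑ z : V ⊕ Inn e → S, attP A μ e a b P z *
        (Real.log (wt (SP.att H e a b) (attSide side e a) A μ c z *
          kapE A μ (L₂.map (emap (Sum.inl : V → V ⊕ Inn e))) z) -
          Real.log (attP A μ e a b P z)) =
        ∑ z : V ⊕ Inn e → S, attP A μ e a b P z *
          ((Real.log (wt H side A μ c (fun v => z (.inl v)) *
            kapE A μ L (fun v => z (.inl v))) - Real.log (P (fun v => z (.inl v)))) -
            Real.log (ℓ (fun v => z (.inl v))) +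
            Real.log (K A μ e (z (.inl a)) (z (.inl b)))) := by
      refine Finset.sum_congr rfl fun z _ => ?_
      have hn : 0 ≤ attP A μ e a b P z :=
        mul_nonneg (hP.nonneg _) (div_nonneg (inW_nonneg h _ _ _ _) (K_nonneg h e _ _))
      rcases hn.eq_or_lt with h0 | h0
      · rw [← h0, zero_mul, zero_mul]
      · obtain ⟨p1, p2, p3⟩ := attP_pos h hP.nonneg h0
        obtain ⟨n1, n2, n3⟩ := pos _ p1
        congr 1
        rw [split, hL, Real.log_mul (mul_ne_zero n1 n3) p2.ne', Real.log_mul n1 n3,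
          Real.log_mul n1 (mul_ne_zero n2 n3), Real.log_mul n2 n3]
        unfold attP
        rw [Real.log_mul p1.ne' (div_pos p2 p3).ne', Real.log_div p2.ne' p3.ne']
        ring
    rw [h2, h1]
    have h3 : ∑ z, P z * ((Real.log (wt H side A μ c z * kapE A μ L z) - Real.log (P z)) -
        Real.log (ℓ z) + Real.log (K A μ e (z a) (z b))) =
        ∑ z, P z * (Real.log (wt H side A μ c z * kapE A μ L z) - Real.log (P z)) -
          ∑ z, P z * Real.log (ℓ z) + ∑ z, P z * Real.log (K A μ e (z a) (z b)) := by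
      rw [← Finset.sum_sub_distrib, ← Finset.sum_add_distrib]
      exact Finset.sum_congr rfl fun z _ => by ring
    rw [h3]
    have := hP.ent
    linarith

/-- the inductive statement -/
structure GOK {V : Type} (H : SimpleGraph V) (L : Multiset (V × ℕ × V))
    (D : V → V → ℕ → Prop) (iF : Fintype V) (iD : DecidableEq V) (side : V → Bool) : Prop where
  proper : ∀ u v, H.Adj u v → side u ≠ side v
  dist : ∀ u v n, D u v n → side v = sh (side u) n
  law : ∀ (S : Type) [Fintype S] [DecidableEq S] (A : Matrix S S ℝ) (μ : S → ℝ) (c : S → Bool),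
    Rev A μ c → ∃ P : (V → S) → ℝ, LawV H L side A μ c P ∧
      ∀ u v n, D u v n → u ≠ v → MargD A μ c P u v n (side u)

theorem attD_old {V : Type} {e : SP} {D : V → V → ℕ → Prop} {u v : V ⊕ Inn e} {n : ℕ}
    (h : attD e D u v n) : ∃ u' v', u = .inl u' ∧ v = .inl v' ∧ D u' v' n := by
  rcases u with u | u <;> rcases v with v | v
  · exact ⟨u, v, rfl, rfl, h⟩
  · exact h.elim
  · exact h.elim
  · exact h.elim

/-- a part between two vertices of the frame -/
theorem GOK.att {V : Type} {H : SimpleGraph V} {L : Multiset (V × ℕ × V)}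
    {D : V → V → ℕ → Prop} {iF : Fintype V} {iD : DecidableEq V} {side : V → Bool} {e : SP}
    {a b : V} {d : ℕ} {C : SP → ℕ → Prop} (hC : Sound C) (hT : GOK H L D iF iD side)
    (hD : D a b d) (hab : a ≠ b) (hs : simple e) (hd : ¬ (direct e ∧ H.Adj a b))
    (he : C e d) :
    GOK (SP.att H e a b) (L.map (emap .inl)) (attD e D) inferInstance inferInstance
      (attSide side e a) := by
  obtain ⟨hb, hle, hpar, hsem⟩ := hC e d he
  have hside : side b = xor (side a) (decide (len e % 2 = 1)) := by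
    rw [hT.dist a b d hD]
    unfold sh
    rw [hpar]
  refine ⟨fun u v => att_proper hT.proper hb hside u v, fun u v n hn => ?_,
    fun S _ _ A μ c h => ?_⟩
  · obtain ⟨u, v, rfl, rfl, hn⟩ := attD_old hn
    exact hT.dist u v n hn
  · obtain ⟨P, hP, hM⟩ := hT.law S A μ c h
    have hg : GoodK A μ c (len e) d (K A μ e) := hsem S A μ c h
    have pK : ∀ z, 0 < P z → 0 < K A μ e (z a) (z b) := fun z hz =>
      (K_pos h e hb).mono h hle hpar _ _ ((hM a b d hD hab).pow_pos h hP.nonneg hz)
    have pK' : ∀ z, P z ≠ 0 → K A μ e (z a) (z b) ≠ 0 := fun z hz =>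
      (pK z (lt_of_le_of_ne (hP.nonneg z) hz.symm)).ne'
    refine ⟨attP A μ e a b P, hP.att h hs hb hab hd hside (ℓ := fun _ => 1)
      (fun z => by rw [one_mul]) pK ?_, fun u v n hn huv => ?_⟩
    · simp only [Real.log_one, mul_zero, Finset.sum_const_zero]
      rw [hM a b d hD hab fun x y => Real.log (K A μ e x y)]
      exact hg.nonneg h (side a)
    · obtain ⟨u, v, rfl, rfl, hn⟩ := attD_old hn
      exact (hM u v n hn fun h0 => huv (by rw [h0])).attP pK'

/-- an edge of the frame is replaced by a tight part -/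
theorem GOK.real {V : Type} {H : SimpleGraph V} {L : Multiset (V × ℕ × V)}
    {D : V → V → ℕ → Prop} {iF : Fintype V} {iD : DecidableEq V} {side : V → Bool} {e : SP}
    {a b : V} {C : SP → ℕ → Prop} (hC : Sound C)
    (hT : GOK H ((a, len e, b) ::ₘ L) D iF iD side)
    (hD : D a b (len e)) (hab : a ≠ b) (hs : simple e) (hd : ¬ (direct e ∧ H.Adj a b))
    (he : C e (len e)) :
    GOK (SP.att H e a b) (L.map (emap .inl)) (attD e D) inferInstance inferInstance
      (attSide side e a) := by
  obtain ⟨hb, hle, hpar, hsem⟩ := hC e (len e) he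
  have hside : side b = xor (side a) (decide (len e % 2 = 1)) := hT.dist a b _ hD
  refine ⟨fun u v => att_proper hT.proper hb hside u v, fun u v n hn => ?_,
    fun S _ _ A μ c h => ?_⟩
  · obtain ⟨u, v, rfl, rfl, hn⟩ := attD_old hn
    exact hT.dist u v n hn
  · obtain ⟨P, hP, hM⟩ := hT.law S A μ c h
    have hg : GoodK A μ c (len e) (len e) (K A μ e) := hsem S A μ c h
    have pK : ∀ z, 0 < P z → 0 < K A μ e (z a) (z b) := fun z hz =>
      (K_pos h e hb) _ _ ((hM a b _ hD hab).pow_pos h hP.nonneg hz)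
    have pK' : ∀ z, P z ≠ 0 → K A μ e (z a) (z b) ≠ 0 := fun z hz =>
      (pK z (lt_of_le_of_ne (hP.nonneg z) hz.symm)).ne'
    refine ⟨attP A μ e a b P, hP.att h hs hb hab hd hside
      (ℓ := fun z => kap A μ (len e) (z a) (z b)) (fun z => kapE_cons _ _ _ _ _) pK ?_,
      fun u v n hn huv => ?_⟩
    · rw [hM a b _ hD hab fun x y => Real.log (K A μ e x y),
        hM a b _ hD hab fun x y => Real.log (kap A μ (len e) x y)]
      have h1 := hg (side a)
      rw [if_pos rfl, J] at h1
      exact h1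
    · obtain ⟨u, v, rfl, rfl, hn⟩ := attD_old hn
      exact (hM u v n hn fun h0 => huv (by rw [h0])).attP pK'

end Vale.Agent.P050.SP
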