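import Vale.Agent.P050.R4.H153.Frame

/-!
# P050, frames: new edges and subdivided edges
-/

namespace Vale.Agent.P050.SP

open Finset Matrix Vale.Agent.P050.Ears Vale.Agent.P050.Lev

section

variable {S : Type} [Fintype S] [DecidableEq S] {A : Matrix S S ℝ} {μ : S → ℝ} {c : S → Bool}
variable {V : Type} [Fintype V] [DecidableEq V] {side : V → Bool}

theorem mus_unit (s : Bool) (x : S) :
    mus (fun _ : Unit => s) μ c (fun _ => x) = if c x = s then μ x else 0 := by
  unfold mus
  rw [Fintype.prod_unique]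

theorem zw_pen (h : Rev A μ c) {a : V} (d : ℕ) {z : V → S} (hz : mus side μ c z ≠ 0) :
    zw A μ c (fun _ : Unit => sh (side a) d) {(.inl a, d, .inr ())} z = 1 := by
  unfold zw
  rw [sum_unit, ← kap_row h (mus_side hz a) d]
  refine Finset.sum_congr rfl fun x _ => ?_
  unfold nw
  rw [mus_unit]
  simp [kapE]

theorem zw_sub (h : Rev A μ c) {u w : V} (d d' : ℕ) {z : V → S} (hz : mus side μ c z ≠ 0) :
    zw A μ c (fun _ : Unit => sh (side u) d) {(.inl u, d, .inr ()), (.inr (), d', .inl w)} z =
      kap A μ (d + d') (z u) (z w) := by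
  unfold zw
  rw [sum_unit, ← kap_mid h (mus_side hz u) d d']
  refine Finset.sum_congr rfl fun x _ => ?_
  unfold nw
  rw [mus_unit]
  simp [kapE]

end

variable {V : Type} {L : Multiset (V × ℕ × V)} {R : Set (Set V × Multiset (V × ℕ × V))}
variable {iF : Fintype V} {iD : DecidableEq V} {side : V → Bool} {U : Set V}
variable {E : Multiset (V × ℕ × V)}

theorem TOK.old {N : Type} {sN : N → Bool} (hE : TOK side E) :
    TOK (Sum.elim side sN) (E.map (emap .inl)) := by
  intro p hp
  obtain ⟨q, hq, rfl⟩ := Multiset.mem_map.1 hp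
  exact hE q hq

/-- a new edge -/
theorem FOK.pen {a : V} {d : ℕ} (hT : FOK L R iF iD side) :
    FOK ((.inl a, d, .inr ()) ::ₘ L.map (emap .inl)) (penT R a d) inferInstance inferInstance
      (Sum.elim side fun _ => sh (side a) d) := by
  have tk : ∀ E : Multiset (V × ℕ × V), TOK side E →
      TOK (Sum.elim side fun _ : Unit => sh (side a) d)
        ((.inl a, d, .inr ()) ::ₘ E.map (emap .inl)) := by
    intro E hE p hp
    rcases Multiset.mem_cons.1 hp with rfl | hp
    · rfl
    · exact TOK.old hE p hp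
  refine ⟨tk L hT.virt, ?_, fun S _ _ A μ c h => ?_⟩
  · rintro r (⟨r₀, h0, rfl⟩ | ⟨U', E', h0, _, rfl⟩)
    · exact TOK.old (hT.rok r₀ h0)
    · exact tk _ (hT.rok _ h0)
  · obtain ⟨P, hP, hM⟩ := hT.law S A μ c h
    have h1 : ∀ z, P z ≠ 0 →
        zw A μ c (fun _ : Unit => sh (side a) d) {(.inl a, d, .inr ())} z = 1 := fun z hz =>
      zw_pen h d (hP.mus_ne hz)
    have hZ : ∀ z, P z ≠ 0 →
        zw A μ c (fun _ : Unit => sh (side a) d) {(.inl a, d, .inr ())} z ≠ 0 := fun z hz => by
      rw [h1 z hz]; exact one_ne_zero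
    have hl := hP.ext (L₂ := L) h (ℓ := fun _ => 1) (fun z => by rw [one_mul]) hZ (by
      refine Finset.sum_le_sum fun z _ => ?_
      by_cases hz : P z = 0
      · rw [hz, zero_mul, zero_mul]
      · rw [h1 z hz])
    rw [add_comm, Multiset.singleton_add] at hl
    refine ⟨_, hl, ?_⟩
    rintro r (⟨r₀, h0, rfl⟩ | ⟨U', E', h0, h2, rfl⟩)
    · exact (hM r₀ h0).ext_old h hZ
    · refine MargT.ext_new (E₁ := E') h (hM _ h0) (fun v hv => ?_) (fun p hp => ?_)
        (fun z y => ?_) fun G _ => ?_
      · rcases hv with ⟨w, hw, h3⟩ | h3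
        · rwa [← Sum.inl.inj h3]
        · exact absurd h3 (by simp)
      · rw [Multiset.mem_singleton.1 hp]
        refine ⟨fun v hv => ?_, fun v hv => absurd hv (by simp)⟩
        rw [← hv]
        exact Or.inl ⟨a, h2, rfl⟩
      · rw [kapE_cons, kapE_map]
        simp only [Sum.elim_inl, kapE, Multiset.map_singleton, Multiset.prod_singleton]
        rw [mul_comm]
      · refine Finset.sum_congr rfl fun z _ => ?_
        by_cases hz : mus side μ c z = 0
        · rw [hz]; ring
        · rw [zw_pen h d hz, mul_one]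

/-- an edge is subdivided -/
theorem FOK.sub {u w : V} {d d' : ℕ} (hT : FOK ((u, d + d', w) ::ₘ L) R iF iD side) :
    FOK ((.inl u, d, .inr ()) ::ₘ (.inr (), d', .inl w) ::ₘ L.map (emap .inl))
      (subT R u d d' w) inferInstance inferInstance (Sum.elim side fun _ => sh (side u) d) := by
  have hw : side w = sh (side u) (d + d') := hT.virt (u, d + d', w) (Multiset.mem_cons_self _ _)
  have tk : ∀ E : Multiset (V × ℕ × V), TOK side E →
      TOK (Sum.elim side fun _ : Unit => sh (side u) d)
        ((.inl u, d, .inr ()) ::ₘ (.inr (), d', .inl w) ::ₘ E.map (emap .inl)) := by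
    intro E hE p hp
    rcases Multiset.mem_cons.1 hp with rfl | hp
    · rfl
    · rcases Multiset.mem_cons.1 hp with rfl | hp
      · change side w = sh (sh (side u) d) d'
        rw [sh_add, hw]
      · exact TOK.old hE p hp
  refine ⟨tk L fun p hp => hT.virt p (Multiset.mem_cons_of_mem hp), ?_, fun S _ _ A μ c h => ?_⟩
  · rintro r (⟨r₀, h0, rfl⟩ | ⟨U', E', h0, _, _, rfl⟩)
    · exact TOK.old (hT.rok r₀ h0)
    · exact tk _ fun p hp => hT.rok _ h0 p (Multiset.mem_cons_of_mem hp)
  · obtain ⟨P, hP, hM⟩ := hT.law S A μ c h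
    have h1 : ∀ z, P z ≠ 0 → zw A μ c (fun _ : Unit => sh (side u) d)
        {(.inl u, d, .inr ()), (.inr (), d', .inl w)} z = kap A μ (d + d') (z u) (z w) :=
      fun z hz => zw_sub h d d' (hP.mus_ne hz)
    have hZ : ∀ z, P z ≠ 0 → zw A μ c (fun _ : Unit => sh (side u) d)
        {(.inl u, d, .inr ()), (.inr (), d', .inl w)} z ≠ 0 := fun z hz => by
      rw [h1 z hz]
      intro h0
      have h2 := hP.supp z (lt_of_le_of_ne (hP.nonneg z) hz.symm)
      rw [kapE_cons, h0, zero_mul, mul_zero] at h2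
      exact lt_irrefl _ h2
    have hl := hP.ext (L₂ := L) h (ℓ := fun z => kap A μ (d + d') (z u) (z w))
      (fun z => kapE_cons _ _ _ _ _) hZ (by
      refine Finset.sum_le_sum fun z _ => ?_
      by_cases hz : P z = 0
      · rw [hz, zero_mul, zero_mul]
      · rw [h1 z hz])
    have e1 : L.map (emap (Sum.inl : V → V ⊕ Unit)) +
        {(.inl u, d, .inr ()), (.inr (), d', .inl w)} =
        (.inl u, d, .inr ()) ::ₘ (.inr (), d', .inl w) ::ₘ L.map (emap .inl) := by
      rw [add_comm, Multiset.insert_eq_cons, Multiset.cons_add, Multiset.singleton_add]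
    rw [e1] at hl
    refine ⟨_, hl, ?_⟩
    rintro r (⟨r₀, h0, rfl⟩ | ⟨U', E', h0, h2, h3, rfl⟩)
    · exact (hM r₀ h0).ext_old h hZ
    · refine MargT.ext_new (E₁ := E') h (hM _ h0) (fun v hv => ?_) (fun p hp => ?_)
        (fun z y => ?_) fun G _ => ?_
      · rcases hv with ⟨w, hw, h3⟩ | h3
        · rwa [← Sum.inl.inj h3]
        · exact absurd h3 (by simp)
      · rcases Multiset.mem_cons.1 hp with rfl | hp
        · refine ⟨fun v hv => ?_, fun v hv => absurd hv (by simp)⟩
          rw [← hv]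
          exact Or.inl ⟨u, h2, rfl⟩
        · rw [Multiset.mem_singleton.1 hp]
          refine ⟨fun v hv => absurd hv (by simp), fun v hv => ?_⟩
          rw [← hv]
          exact Or.inl ⟨w, h3, rfl⟩
      · rw [kapE_cons, kapE_cons, kapE_map]
        have e2 : kapE A μ ({(.inl u, d, .inr ()), (.inr (), d', .inl w)} :
            Multiset ((V ⊕ Unit) × ℕ × (V ⊕ Unit))) (Sum.elim z y) =
            kap A μ d (z u) (y ()) * kap A μ d' (y ()) (z w) := by
          simp [kapE]
        rw [e2]
        simp only [Sum.elim_inl, Sum.elim_inr]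
        ring
      · refine Finset.sum_congr rfl fun z _ => ?_
        by_cases hz : mus side μ c z = 0
        · rw [hz]; ring
        · rw [zw_sub h d d' hz, kapE_cons]
          ring

end Vale.Agent.P050.SP
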