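import Vale.Agent.P050.R4.H153.FrClone
import Vale.Agent.P050.R4.H153.FrStep
import Vale.Agent.P050.R4.H153.FrReal
import Vale.Agent.P050.R4.H345.FrDer
import Vale.Agent.P050.R4.H859.Iso

/-!
# P050, graphs made from frames: the theorem
-/

namespace Vale.Agent.P050.SP

open Finset Matrix Vale.Agent.P050.Ears Vale.Agent.P050.Lev

theorem FOK.point : FOK (V := Unit) 0 {(Set.univ, 0)} inferInstance inferInstance
    fun _ => false := by
  refine ⟨fun p hp => absurd hp (Multiset.notMem_zero p), fun r hr => ?_,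
    fun S _ _ A μ c h => ?_⟩
  · rw [Set.mem_singleton_iff.1 hr]
    exact fun p hp => absurd hp (Multiset.notMem_zero p)
  · refine ⟨mus (fun _ => false) μ c, ⟨mus_nonneg h _, mus_sum h _, fun z hz => ?_, ?_⟩,
      fun r hr => ?_⟩
    · rw [kapE_zero, mul_one]; exact hz
    · simp only [kapE_zero, mul_one, sub_self, mul_zero, Finset.sum_const_zero]
      exact le_rfl
    · rw [Set.mem_singleton_iff.1 hr]
      intro F _
      simp only [kapE_zero, mul_one]

theorem FOK.weak {V : Type} {L : Multiset (V × ℕ × V)}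
    {R R' : Set (Set V × Multiset (V × ℕ × V))} {iF : Fintype V} {iD : DecidableEq V}
    {side : V → Bool} (hT : FOK L R iF iD side) (hd : ∀ r' ∈ R', ∃ r ∈ R, TDer r r') :
    FOK L R' iF iD side := by
  refine ⟨hT.virt, fun r' hr' => ?_, fun S _ _ A μ c h => ?_⟩
  · obtain ⟨r, hr, t⟩ := hd r' hr'
    exact t.tok (hT.rok r hr)
  · obtain ⟨P, hP, hM⟩ := hT.law S A μ c h
    refine ⟨P, hP, fun r' hr' => ?_⟩
    obtain ⟨r, hr, t⟩ := hd r' hr'
    exact t.margT h (hT.rok r hr) (hM r hr)

theorem Frame.ok {V : Type} {L : Multiset (V × ℕ × V)}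
    {R : Set (Set V × Multiset (V × ℕ × V))} (hF : Frame L R) :
    ∃ (iF : Fintype V) (iD : DecidableEq V) (side : V → Bool), FOK L R iF iD side := by
  induction hF with
  | point => exact ⟨inferInstance, inferInstance, _, FOK.point⟩
  | weak _ hd ih =>
    obtain ⟨iF, iD, side, hT⟩ := ih
    exact ⟨iF, iD, side, hT.weak hd⟩
  | pen _ _ _ _ ih =>
    obtain ⟨iF, iD, side, hT⟩ := ih
    exact ⟨inferInstance, inferInstance, _, hT.pen⟩
  | @clone V N L R U E g ρ _ hr hE hg hρ ih =>
    obtain ⟨iF, iD, side, hT⟩ := ih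
    classical
    letI iN : Fintype N := Fintype.ofInjective g (clone_inj hg)
    exact ⟨inferInstance, inferInstance, _, hT.clone hr hE hg hρ⟩
  | sub _ _ _ ih =>
    obtain ⟨iF, iD, side, hT⟩ := ih
    exact ⟨inferInstance, inferInstance, _, hT.sub⟩

theorem FrG.gok {C : SP → ℕ → Prop} (hC : Sound C) {V : Type} {H : SimpleGraph V}
    {L : Multiset (V × ℕ × V)} {D : V → V → ℕ → Prop} (hG : FrG C H L D) :
    ∃ (iF : Fintype V) (iD : DecidableEq V) (side : V → Bool), GOK H L D iF iD side := by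
  induction hG with
  | frame hF =>
    obtain ⟨iF, iD, side, hT⟩ := hF.ok
    refine ⟨iF, iD, side, fun u v h => absurd h (by simp), fun u v n hn => ?_,
      fun S _ _ A μ c h => ?_⟩
    · exact hT.rok _ hn (u, n, v) (Multiset.mem_singleton_self _)
    · obtain ⟨P, hP, hM⟩ := hT.law S A μ c h
      exact ⟨P, hP.lawV, fun u v n hn huv => MargT.two h huv
        (hT.rok _ hn (u, n, v) (Multiset.mem_singleton_self _)) (hM _ hn)⟩
  | real _ hD hab hs hd he ih =>
    obtain ⟨iF, iD, side, hT⟩ := ih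
    exact ⟨inferInstance, inferInstance, _, hT.real hC hD hab hs hd he⟩
  | att _ hD hab hs hd he ih =>
    obtain ⟨iF, iD, side, hT⟩ := ih
    exact ⟨inferInstance, inferInstance, _, hT.att hC hD hab hs hd he⟩

/-- The theorem on graphs made from frames. -/
theorem FrG.gsid {C : SP → ℕ → Prop} (hC : Sound C) {V W : Type} [Fintype V] [DecidableEq V]
    {H : SimpleGraph V} {G : SimpleGraph W} {D : W → W → ℕ → Prop} (hG : FrG C G 0 D)
    (φ : H ≃g G) : ∃ side : V → Bool, GSid H side := by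
  classical
  obtain ⟨iF, iD, side, hT⟩ := hG.gok hC
  refine ⟨fun v => side (φ v), gsid_of_rev_iso H _ (fun u v huv => hT.proper _ _
    (φ.map_adj_iff.2 huv)) ?_⟩
  intro S _ _ _ A μ c hR
  obtain ⟨P, hP, _⟩ := hT.law S A μ c hR
  have h1 := hP.lawOn.one_le hR
  have h4 := sum_iso (A := A) (μ := μ) (c := c) φ side (fun _ => 1)
  simp only [mul_one] at h4
  have h5 : ∑ z, wt H (fun v => side (φ v)) A μ c z = ∑ z, wt G side A μ c z := h4.symm
  rw [h5]
  exact h1

theorem FrG.sid {C : SP → ℕ → Prop} (hC : Sound C) {V W : Type} [Fintype V] [DecidableEq V]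
    {H : SimpleGraph V} {G : SimpleGraph W} {D : W → W → ℕ → Prop} (hG : FrG C G 0 D)
    (φ : H ≃g G) {U : Type*} [Finite U] [Nonempty U] (T : SimpleGraph U) :
    edgeDensity T ^ Nat.card H.edgeSet ≤ homDensity H T := by
  obtain ⟨side, hs⟩ := hG.gsid hC φ
  exact sidorenko_of_gsid hs T

end Vale.Agent.P050.SP
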