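import Vale.Agent.P050.R4.H859.Def

/-!
# P050, series-parallel graphs: the graph of an expression
-/

namespace Vale.Agent.P050.SP

/-- the vertices of the graph of an expression that are not terminals -/
def Inn : SP → Type
  | .edge => Empty
  | .ser a b => Unit ⊕ (Inn a ⊕ Inn b)
  | .par a b => Inn a ⊕ Inn b
  | .hang a b => Inn a ⊕ (Unit ⊕ Inn b)
  | .hangR a b => Inn a ⊕ (Unit ⊕ Inn b)

/-- The edges of an expression, when its terminals are placed at `x` and `y` and its inner
vertices at `f`. -/
def edges : (e : SP) → {V : Type} → V → V → (Inn e → V) → List (V × V)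
  | .edge, _, x, y, _ => [(x, y)]
  | .ser a b, _, x, y, f =>
    edges a x (f (.inl ())) (fun i => f (.inr (.inl i))) ++
      edges b (f (.inl ())) y (fun i => f (.inr (.inr i)))
  | .par a b, _, x, y, f =>
    edges a x y (fun i => f (.inl i)) ++ edges b x y (fun i => f (.inr i))
  | .hang a b, _, x, y, f =>
    edges a x y (fun i => f (.inl i)) ++
      edges b x (f (.inr (.inl ()))) (fun i => f (.inr (.inr i)))
  | .hangR a b, _, x, y, f =>
    edges a x y (fun i => f (.inl i)) ++
      edges b y (f (.inr (.inl ()))) (fun i => f (.inr (.inr i)))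

/-- The graph of an expression: its vertices are the two terminals `inl false`, `inl true` and
the inner vertices. -/
def gr (e : SP) : SimpleGraph (Bool ⊕ Inn e) :=
  SimpleGraph.fromRel fun u v => (u, v) ∈ edges e (.inl false) (.inl true) .inr

end Vale.Agent.P050.SP
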