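import Vale.Agent.P050.R3.H149.Ops
import Vale.Agent.P050.R4.H153.GDef

/-!
# P050, series-parallel graphs: the number of maps of the graph of an expression
-/

namespace Vale.Agent.P050.SP

open Finset Matrix Vale.Agent.P050.Ears Vale.Agent.P050.Lev

instance instFintypeInn : (e : SP) → Fintype (Inn e)
  | .edge => inferInstanceAs (Fintype Empty)
  | .ser a b =>
    letI := instFintypeInn a
    letI := instFintypeInn b
    inferInstanceAs (Fintype (Unit ⊕ (Inn a ⊕ Inn b)))
  | .par a b =>
    letI := instFintypeInn a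
    letI := instFintypeInn b
    inferInstanceAs (Fintype (Inn a ⊕ Inn b))
  | .hang a b =>
    letI := instFintypeInn a
    letI := instFintypeInn b
    inferInstanceAs (Fintype (Inn a ⊕ (Unit ⊕ Inn b)))
  | .hangR a b =>
    letI := instFintypeInn a
    letI := instFintypeInn b
    inferInstanceAs (Fintype (Inn a ⊕ (Unit ⊕ Inn b)))

instance instDecidableEqInn : (e : SP) → DecidableEq (Inn e)
  | .edge => inferInstanceAs (DecidableEq Empty)
  | .ser a b =>
    letI := instDecidableEqInn a
    letI := instDecidableEqInn b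
    inferInstanceAs (DecidableEq (Unit ⊕ (Inn a ⊕ Inn b)))
  | .par a b =>
    letI := instDecidableEqInn a
    letI := instDecidableEqInn b
    inferInstanceAs (DecidableEq (Inn a ⊕ Inn b))
  | .hang a b =>
    letI := instDecidableEqInn a
    letI := instDecidableEqInn b
    inferInstanceAs (DecidableEq (Inn a ⊕ (Unit ⊕ Inn b)))
  | .hangR a b =>
    letI := instDecidableEqInn a
    letI := instDecidableEqInn b
    inferInstanceAs (DecidableEq (Inn a ⊕ (Unit ⊕ Inn b)))

/-- the sides of the inner vertices, when the first terminal has side `s` -/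
def sdi : (e : SP) → Bool → Inn e → Bool
  | .edge, _, i => i.elim
  | .ser a b, s, i =>
    match i with
    | .inl _ => xor s (decide (len a % 2 = 1))
    | .inr (.inl i) => sdi a s i
    | .inr (.inr i) => sdi b (xor s (decide (len a % 2 = 1))) i
  | .par a b, s, i =>
    match i with
    | .inl i => sdi a s i
    | .inr i => sdi b s i
  | .hang a b, s, i =>
    match i with
    | .inl i => sdi a s i
    | .inr (.inl _) => xor s (decide (len b % 2 = 1))
    | .inr (.inr i) => sdi b s i
  | .hangR a b, s, i =>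
    match i with
    | .inl i => sdi a s i
    | .inr (.inl _) => xor (xor s (decide (len a % 2 = 1))) (decide (len b % 2 = 1))
    | .inr (.inr i) => sdi b (xor s (decide (len a % 2 = 1))) i

/-- the sides of the vertices, when the first terminal has side `s` -/
def sd (s : Bool) (e : SP) : Bool ⊕ Inn e → Bool
  | .inl false => s
  | .inl true => xor s (decide (len e % 2 = 1))
  | .inr i => sdi e s i

section kernel

variable {S : Type} [Fintype S] {A : Matrix S S ℝ} {μ : S → ℝ} {c : S → Bool}

/-- the product of the edge weights -/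
noncomputable def ew (A : Matrix S S ℝ) (μ : S → ℝ) (l : List (S × S)) : ℝ :=
  (l.map fun p => A p.1 p.2 / μ p.2).prod

omit [Fintype S] in
theorem ew_append (l l' : List (S × S)) : ew A μ (l ++ l') = ew A μ l * ew A μ l' := by
  simp [ew]

omit [Fintype S] in
theorem ew_ser (a b : SP) (x y : S) (z : Inn (.ser a b) → S) :
    ew A μ (edges (.ser a b) x y z) =
      ew A μ (edges a x (z (.inl ())) (fun i => z (.inr (.inl i)))) *
        ew A μ (edges b (z (.inl ())) y (fun i => z (.inr (.inr i)))) :=
  ew_append _ _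

omit [Fintype S] in
theorem ew_par (a b : SP) (x y : S) (z : Inn (.par a b) → S) :
    ew A μ (edges (.par a b) x y z) =
      ew A μ (edges a x y (fun i => z (.inl i))) *
        ew A μ (edges b x y (fun i => z (.inr i))) :=
  ew_append _ _

omit [Fintype S] in
theorem ew_hang (a b : SP) (x y : S) (z : Inn (.hang a b) → S) :
    ew A μ (edges (.hang a b) x y z) =
      ew A μ (edges a x y (fun i => z (.inl i))) *
        ew A μ (edges b x (z (.inr (.inl ()))) (fun i => z (.inr (.inr i)))) :=
  ew_append _ _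

omit [Fintype S] in
theorem ew_hangR (a b : SP) (x y : S) (z : Inn (.hangR a b) → S) :
    ew A μ (edges (.hangR a b) x y z) =
      ew A μ (edges a x y (fun i => z (.inl i))) *
        ew A μ (edges b y (z (.inr (.inl ()))) (fun i => z (.inr (.inr i)))) :=
  ew_append _ _

theorem sum_edges (A : Matrix S S ℝ) (μ : S → ℝ) : ∀ (e : SP) (x y : S),
    ∑ z : Inn e → S, (∏ i, μ (z i)) * ew A μ (edges e x y z) = K A μ e x y
  | .edge, x, y => by
    have : Subsingleton (Inn .edge → S) := inferInstanceAs (Subsingleton (Empty → S))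
    have hE : IsEmpty (Inn .edge) := inferInstanceAs (IsEmpty Empty)
    have : Unique (Inn .edge → S) := Pi.uniqueOfIsEmpty _
    rw [Fintype.sum_unique]
    simp [edges, ew, K]
  | .ser a b, x, y => by
    have h : ∀ F : (Unit ⊕ (Inn a ⊕ Inn b) → S) → ℝ, ∑ z, F z =
        ∑ w : S, ∑ z1 : Inn a → S, ∑ z2 : Inn b → S,
          F (Sum.elim (fun _ => w) (Sum.elim z1 z2)) := by
      intro F
      rw [← (Equiv.sumArrowEquivProdArrow Unit (Inn a ⊕ Inn b) S).symm.sum_comp,
        Fintype.sum_prod_type, ← (Equiv.funUnique Unit S).symm.sum_comp]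
      refine Finset.sum_congr rfl fun w _ => ?_
      rw [← (Equiv.sumArrowEquivProdArrow (Inn a) (Inn b) S).symm.sum_comp,
        Fintype.sum_prod_type]
      rfl
    refine (h (fun z => (∏ i, μ (z i)) * ew A μ (edges (.ser a b) x y z))).trans ?_
    rw [K]
    refine Finset.sum_congr rfl fun w _ => ?_
    rw [← sum_edges A μ a x w, ← sum_edges A μ b w y, mul_assoc, Finset.sum_mul_sum,
      Finset.mul_sum]
    refine Finset.sum_congr rfl fun z1 _ => ?_
    rw [Finset.mul_sum]
    refine Finset.sum_congr rfl fun z2 _ => ?_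
    refine (congrArg₂ (· * ·) ((Fintype.prod_sum_type _).trans (congrArg₂ (· * ·)
      (Fintype.prod_unique _) (Fintype.prod_sum_type _))) (ew_ser a b x y _)).trans ?_
    simp only [Sum.elim_inl, Sum.elim_inr]
    ring
  | .par a b, x, y => by
    have h : ∀ F : (Inn a ⊕ Inn b → S) → ℝ, ∑ z, F z =
        ∑ z1 : Inn a → S, ∑ z2 : Inn b → S, F (Sum.elim z1 z2) := by
      intro F
      rw [← (Equiv.sumArrowEquivProdArrow (Inn a) (Inn b) S).symm.sum_comp,
        Fintype.sum_prod_type]
      rfl
    refine (h (fun z => (∏ i, μ (z i)) * ew A μ (edges (.par a b) x y z))).trans ?_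
    rw [K, ← sum_edges A μ a x y, ← sum_edges A μ b x y, Finset.sum_mul_sum]
    refine Finset.sum_congr rfl fun z1 _ => ?_
    refine Finset.sum_congr rfl fun z2 _ => ?_
    refine (congrArg₂ (· * ·) (Fintype.prod_sum_type _) (ew_par a b x y _)).trans ?_
    simp only [Sum.elim_inl, Sum.elim_inr]
    ring
  | .hang a b, x, y => by
    have h : ∀ F : (Inn a ⊕ (Unit ⊕ Inn b) → S) → ℝ, ∑ z, F z =
        ∑ z1 : Inn a → S, ∑ w : S, ∑ z2 : Inn b → S,
          F (Sum.elim z1 (Sum.elim (fun _ => w) z2)) := by
      intro F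
      rw [← (Equiv.sumArrowEquivProdArrow (Inn a) (Unit ⊕ Inn b) S).symm.sum_comp,
        Fintype.sum_prod_type]
      refine Finset.sum_congr rfl fun z1 _ => ?_
      rw [← (Equiv.sumArrowEquivProdArrow Unit (Inn b) S).symm.sum_comp,
        Fintype.sum_prod_type, ← (Equiv.funUnique Unit S).symm.sum_comp]
      rfl
    refine (h (fun z => (∏ i, μ (z i)) * ew A μ (edges (.hang a b) x y z))).trans ?_
    rw [K, ← sum_edges A μ a x y, Finset.sum_mul_sum]
    refine Finset.sum_congr rfl fun z1 _ => ?_
    refine Finset.sum_congr rfl fun w _ => ?_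
    rw [← sum_edges A μ b x w, Finset.mul_sum, Finset.mul_sum]
    refine Finset.sum_congr rfl fun z2 _ => ?_
    refine (congrArg₂ (· * ·) ((Fintype.prod_sum_type _).trans (congrArg₂ (· * ·) rfl
      ((Fintype.prod_sum_type _).trans (congrArg₂ (· * ·) (Fintype.prod_unique _) rfl))))
      (ew_hang a b x y _)).trans ?_
    simp only [Sum.elim_inl, Sum.elim_inr]
    ring
  | .hangR a b, x, y => by
    have h : ∀ F : (Inn a ⊕ (Unit ⊕ Inn b) → S) → ℝ, ∑ z, F z =
        ∑ z1 : Inn a → S, ∑ w : S, ∑ z2 : Inn b → S,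
          F (Sum.elim z1 (Sum.elim (fun _ => w) z2)) := by
      intro F
      rw [← (Equiv.sumArrowEquivProdArrow (Inn a) (Unit ⊕ Inn b) S).symm.sum_comp,
        Fintype.sum_prod_type]
      refine Finset.sum_congr rfl fun z1 _ => ?_
      rw [← (Equiv.sumArrowEquivProdArrow Unit (Inn b) S).symm.sum_comp,
        Fintype.sum_prod_type, ← (Equiv.funUnique Unit S).symm.sum_comp]
      rfl
    refine (h (fun z => (∏ i, μ (z i)) * ew A μ (edges (.hangR a b) x y z))).trans ?_
    rw [K, ← sum_edges A μ a x y, Finset.sum_mul_sum]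
    refine Finset.sum_congr rfl fun z1 _ => ?_
    refine Finset.sum_congr rfl fun w _ => ?_
    rw [← sum_edges A μ b y w, Finset.mul_sum, Finset.mul_sum]
    refine Finset.sum_congr rfl fun z2 _ => ?_
    refine (congrArg₂ (· * ·) ((Fintype.prod_sum_type _).trans (congrArg₂ (· * ·) rfl
      ((Fintype.prod_sum_type _).trans (congrArg₂ (· * ·) (Fintype.prod_unique _) rfl))))
      (ew_hangR a b x y _)).trans ?_
    simp only [Sum.elim_inl, Sum.elim_inr]
    ring

/-- a map with nonzero weight respects the sides -/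
theorem side_of_ne (h : Rev A μ c) : ∀ (e : SP), bip e → ∀ (x y : S) (z : Inn e → S),
    ew A μ (edges e x y z) ≠ 0 →
      c y = xor (c x) (decide (len e % 2 = 1)) ∧ ∀ i, c (z i) = sdi e (c x) i
  | .edge, _, x, y, z, hz => by
    have h1 : A x y ≠ 0 := by
      intro h2
      apply hz
      simp [edges, ew, h2]
    have h2 : c x ≠ c y := fun h3 => h1 (h.alt _ _ h3)
    refine ⟨?_, fun i => i.elim⟩
    cases hx : c x <;> cases hy : c y <;> simp_all [len]
  | .ser a b, hb, x, y, z, hz => by
    rw [edges, ew_append] at hz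
    obtain ⟨h1, h2⟩ := side_of_ne h a hb.1 _ _ _ (left_ne_zero_of_mul hz)
    obtain ⟨h3, h4⟩ := side_of_ne h b hb.2 _ _ _ (right_ne_zero_of_mul hz)
    refine ⟨?_, ?_⟩
    · rw [h3, h1]
      have h5 : decide (len (.ser a b) % 2 = 1) =
          xor (decide (len a % 2 = 1)) (decide (len b % 2 = 1)) := by
        simp only [len]
        rcases Nat.mod_two_eq_zero_or_one (len a) with ha | ha <;>
          rcases Nat.mod_two_eq_zero_or_one (len b) with hb' | hb' <;>
          simp [Nat.add_mod, ha, hb']
      rw [h5, Bool.xor_assoc]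
    · rintro (⟨⟩ | i | i)
      · exact h1
      · exact h2 i
      · refine (h4 i).trans ?_
        rw [h1]
        rfl
  | .par a b, hb, x, y, z, hz => by
    rw [edges, ew_append] at hz
    obtain ⟨h1, h2⟩ := side_of_ne h a hb.1 _ _ _ (left_ne_zero_of_mul hz)
    obtain ⟨h3, h4⟩ := side_of_ne h b hb.2.1 _ _ _ (right_ne_zero_of_mul hz)
    refine ⟨?_, ?_⟩
    · rw [h1]
      have h5 : len (.par a b) % 2 = len a % 2 := by
        have := hb.2.2
        simp only [len]
        omega
      rw [h5]
    · rintro (i | i)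
      · exact h2 i
      · exact h4 i
  | .hang a b, hb, x, y, z, hz => by
    rw [ew_hang] at hz
    obtain ⟨h1, h2⟩ := side_of_ne h a hb.1 _ _ _ (left_ne_zero_of_mul hz)
    obtain ⟨h3, h4⟩ := side_of_ne h b hb.2 _ _ _ (right_ne_zero_of_mul hz)
    refine ⟨h1, ?_⟩
    rintro (i | ⟨⟩ | i)
    · exact h2 i
    · exact h3
    · exact h4 i
  | .hangR a b, hb, x, y, z, hz => by
    rw [ew_hangR] at hz
    obtain ⟨h1, h2⟩ := side_of_ne h a hb.1 _ _ _ (left_ne_zero_of_mul hz)
    obtain ⟨h3, h4⟩ := side_of_ne h b hb.2 _ _ _ (right_ne_zero_of_mul hz)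
    refine ⟨h1, ?_⟩
    rintro (i | ⟨⟩ | i)
    · exact h2 i
    · refine h3.trans ?_
      rw [h1]
      rfl
    · refine (h4 i).trans ?_
      rw [h1]
      rfl

end kernel

/-! ### the list of the edges -/

section list

variable {V : Type}

/-- the terminals and the inner vertices are placed injectively -/
structure Inj {I : Type} (x y : V) (f : I → V) : Prop where
  ne : x ≠ y
  left : ∀ i, f i ≠ x
  right : ∀ i, f i ≠ y
  inj : Function.Injective f

theorem Inj.serL {a b : SP} {x y : V} {f : Inn (.ser a b) → V} (h : Inj x y f) :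
    Inj x (f (.inl ())) (fun i : Inn a => f (.inr (.inl i))) where
  ne := (h.left _).symm
  left _ := h.left _
  right i h1 := by
    have := h.inj h1
    cases this
  inj i j h1 := by
    have := h.inj h1
    injection this with this
    injection this

theorem Inj.serR {a b : SP} {x y : V} {f : Inn (.ser a b) → V} (h : Inj x y f) :
    Inj (f (.inl ())) y (fun i : Inn b => f (.inr (.inr i))) where
  ne := h.right _
  left i h1 := by
    have := h.inj h1
    cases this
  right _ := h.right _
  inj i j h1 := by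
    have := h.inj h1
    injection this with this
    injection this

theorem Inj.parL {a b : SP} {x y : V} {f : Inn (.par a b) → V} (h : Inj x y f) :
    Inj x y (fun i : Inn a => f (.inl i)) where
  ne := h.ne
  left _ := h.left _
  right _ := h.right _
  inj i j h1 := by
    have := h.inj h1
    injection this

theorem Inj.parR {a b : SP} {x y : V} {f : Inn (.par a b) → V} (h : Inj x y f) :
    Inj x y (fun i : Inn b => f (.inr i)) where
  ne := h.ne
  left _ := h.left _
  right _ := h.right _
  inj i j h1 := by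
    have := h.inj h1
    injection this

theorem Inj.hangL {a b : SP} {x y : V} {f : Inn (.hang a b) → V} (h : Inj x y f) :
    Inj x y (fun i : Inn a => f (.inl i)) where
  ne := h.ne
  left _ := h.left _
  right _ := h.right _
  inj i j h1 := by
    have := h.inj h1
    injection this

theorem Inj.hangR {a b : SP} {x y : V} {f : Inn (.hang a b) → V} (h : Inj x y f) :
    Inj x (f (.inr (.inl ()))) (fun i : Inn b => f (.inr (.inr i))) where
  ne := (h.left _).symm
  left _ := h.left _
  right i h1 := by
    have := h.inj h1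
    cases this
  inj i j h1 := by
    have := h.inj h1
    injection this with this
    injection this

theorem Inj.hangRL {a b : SP} {x y : V} {f : Inn (.hangR a b) → V} (h : Inj x y f) :
    Inj x y (fun i : Inn a => f (.inl i)) where
  ne := h.ne
  left _ := h.left _
  right _ := h.right _
  inj i j h1 := by
    have := h.inj h1
    injection this

theorem Inj.hangRR {a b : SP} {x y : V} {f : Inn (.hangR a b) → V} (h : Inj x y f) :
    Inj y (f (.inr (.inl ()))) (fun i : Inn b => f (.inr (.inr i))) where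
  ne := (h.right _).symm
  left _ := h.right _
  right i h1 := by
    have := h.inj h1
    cases this
  inj i j h1 := by
    have := h.inj h1
    injection this with this
    injection this

/-- the places of the vertices of an expression -/
def At {I : Type} (x y : V) (f : I → V) (v : V) : Prop := v = x ∨ v = y ∨ ∃ i, v = f i

theorem edges_at : ∀ (e : SP) {x y : V} {f : Inn e → V} {p : V × V}, p ∈ edges e x y f →
    At x y f p.1 ∧ At x y f p.2
  | .edge, x, y, f, p, hp => by
    simp only [edges, List.mem_singleton] at hp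
    subst hp
    exact ⟨Or.inl rfl, Or.inr (Or.inl rfl)⟩
  | .ser a b, x, y, f, p, hp => by
    simp only [edges, List.mem_append] at hp
    have h1 : ∀ v, At x (f (.inl ())) (fun i : Inn a => f (.inr (.inl i))) v → At x y f v := by
      rintro v (h | h | ⟨i, h⟩)
      · exact Or.inl h
      · exact Or.inr (Or.inr ⟨_, h⟩)
      · exact Or.inr (Or.inr ⟨_, h⟩)
    have h2 : ∀ v, At (f (.inl ())) y (fun i : Inn b => f (.inr (.inr i))) v → At x y f v := by
      rintro v (h | h | ⟨i, h⟩)
      · exact Or.inr (Or.inr ⟨_, h⟩)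
      · exact Or.inr (Or.inl h)
      · exact Or.inr (Or.inr ⟨_, h⟩)
    rcases hp with hp | hp
    · exact ⟨h1 _ (edges_at a hp).1, h1 _ (edges_at a hp).2⟩
    · exact ⟨h2 _ (edges_at b hp).1, h2 _ (edges_at b hp).2⟩
  | .par a b, x, y, f, p, hp => by
    simp only [edges, List.mem_append] at hp
    have h1 : ∀ v, At x y (fun i : Inn a => f (.inl i)) v → At x y f v := by
      rintro v (h | h | ⟨i, h⟩)
      · exact Or.inl h
      · exact Or.inr (Or.inl h)
      · exact Or.inr (Or.inr ⟨_, h⟩)
    have h2 : ∀ v, At x y (fun i : Inn b => f (.inr i)) v → At x y f v := by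
      rintro v (h | h | ⟨i, h⟩)
      · exact Or.inl h
      · exact Or.inr (Or.inl h)
      · exact Or.inr (Or.inr ⟨_, h⟩)
    rcases hp with hp | hp
    · exact ⟨h1 _ (edges_at a hp).1, h1 _ (edges_at a hp).2⟩
    · exact ⟨h2 _ (edges_at b hp).1, h2 _ (edges_at b hp).2⟩
  | .hang a b, x, y, f, p, hp => by
    simp only [edges, List.mem_append] at hp
    have h1 : ∀ v, At x y (fun i : Inn a => f (.inl i)) v → At x y f v := by
      rintro v (h | h | ⟨i, h⟩)
      · exact Or.inl h
      · exact Or.inr (Or.inl h)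
      · exact Or.inr (Or.inr ⟨_, h⟩)
    have h2 : ∀ v, At x (f (.inr (.inl ()))) (fun i : Inn b => f (.inr (.inr i))) v →
        At x y f v := by
      rintro v (h | h | ⟨i, h⟩)
      · exact Or.inl h
      · exact Or.inr (Or.inr ⟨_, h⟩)
      · exact Or.inr (Or.inr ⟨_, h⟩)
    rcases hp with hp | hp
    · exact ⟨h1 _ (edges_at a hp).1, h1 _ (edges_at a hp).2⟩
    · exact ⟨h2 _ (edges_at b hp).1, h2 _ (edges_at b hp).2⟩
  | .hangR a b, x, y, f, p, hp => by
    simp only [edges, List.mem_append] at hp
    have h1 : ∀ v, At x y (fun i : Inn a => f (.inl i)) v → At x y f v := by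
      rintro v (h | h | ⟨i, h⟩)
      · exact Or.inl h
      · exact Or.inr (Or.inl h)
      · exact Or.inr (Or.inr ⟨_, h⟩)
    have h2 : ∀ v, At y (f (.inr (.inl ()))) (fun i : Inn b => f (.inr (.inr i))) v →
        At x y f v := by
      rintro v (h | h | ⟨i, h⟩)
      · exact Or.inr (Or.inl h)
      · exact Or.inr (Or.inr ⟨_, h⟩)
      · exact Or.inr (Or.inr ⟨_, h⟩)
    rcases hp with hp | hp
    · exact ⟨h1 _ (edges_at a hp).1, h1 _ (edges_at a hp).2⟩
    · exact ⟨h2 _ (edges_at b hp).1, h2 _ (edges_at b hp).2⟩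

theorem edges_ne : ∀ (e : SP) {x y : V} {f : Inn e → V} {p : V × V}, Inj x y f →
    p ∈ edges e x y f → p.1 ≠ p.2
  | .edge, x, y, f, p, h, hp => by
    simp only [edges, List.mem_singleton] at hp
    subst hp
    exact h.ne
  | .ser a b, x, y, f, p, h, hp => by
    simp only [edges, List.mem_append] at hp
    rcases hp with hp | hp
    · exact edges_ne a h.serL hp
    · exact edges_ne b h.serR hp
  | .par a b, x, y, f, p, h, hp => by
    simp only [edges, List.mem_append] at hp
    rcases hp with hp | hp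
    · exact edges_ne a h.parL hp
    · exact edges_ne b h.parR hp
  | .hang a b, x, y, f, p, h, hp => by
    simp only [edges, List.mem_append] at hp
    rcases hp with hp | hp
    · exact edges_ne a h.hangL hp
    · exact edges_ne b h.hangR hp
  | .hangR a b, x, y, f, p, h, hp => by
    simp only [edges, List.mem_append] at hp
    rcases hp with hp | hp
    · exact edges_ne a h.hangRL hp
    · exact edges_ne b h.hangRR hp

/-- an edge between the terminals -/
theorem edges_direct : ∀ (e : SP) {x y : V} {f : Inn e → V}, Inj x y f →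
    (x, y) ∈ edges e x y f ∨ (y, x) ∈ edges e x y f → direct e
  | .edge, _, _, _, _, _ => trivial
  | .ser a b, x, y, f, h, hp => by
    exfalso
    have hy : ¬ At x (f (.inl ())) (fun i : Inn a => f (.inr (.inl i))) y := by
      rintro (h1 | h1 | ⟨i, h1⟩)
      · exact h.ne h1.symm
      · exact h.right _ h1.symm
      · exact h.right _ h1.symm
    have hx : ¬ At (f (.inl ())) y (fun i : Inn b => f (.inr (.inr i))) x := by
      rintro (h1 | h1 | ⟨i, h1⟩)
      · exact h.left _ h1.symm
      · exact h.ne h1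
      · exact h.left _ h1.symm
    simp only [edges, List.mem_append] at hp
    rcases hp with (hp | hp) | (hp | hp)
    · exact hy (edges_at a hp).2
    · exact hx (edges_at b hp).1
    · exact hy (edges_at a hp).1
    · exact hx (edges_at b hp).2
  | .par a b, x, y, f, h, hp => by
    simp only [edges, List.mem_append] at hp
    rcases hp with (hp | hp) | (hp | hp)
    · exact Or.inl (edges_direct a h.parL (Or.inl hp))
    · exact Or.inr (edges_direct b h.parR (Or.inl hp))
    · exact Or.inl (edges_direct a h.parL (Or.inr hp))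
    · exact Or.inr (edges_direct b h.parR (Or.inr hp))
  | .hang a b, x, y, f, h, hp => by
    have hy : ¬ At x (f (.inr (.inl ()))) (fun i : Inn b => f (.inr (.inr i))) y := by
      rintro (h1 | h1 | ⟨i, h1⟩)
      · exact h.ne h1.symm
      · exact h.right _ h1.symm
      · exact h.right _ h1.symm
    simp only [edges, List.mem_append] at hp
    rcases hp with (hp | hp) | (hp | hp)
    · exact edges_direct a h.hangL (Or.inl hp)
    · exact absurd (edges_at b hp).2 hy
    · exact edges_direct a h.hangL (Or.inr hp)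
    · exact absurd (edges_at b hp).1 hy
  | .hangR a b, x, y, f, h, hp => by
    have hx : ¬ At y (f (.inr (.inl ()))) (fun i : Inn b => f (.inr (.inr i))) x := by
      rintro (h1 | h1 | ⟨i, h1⟩)
      · exact h.ne h1
      · exact h.left _ h1.symm
      · exact h.left _ h1.symm
    simp only [edges, List.mem_append] at hp
    rcases hp with (hp | hp) | (hp | hp)
    · exact edges_direct a h.hangRL (Or.inl hp)
    · exact absurd (edges_at b hp).1 hx
    · exact edges_direct a h.hangRL (Or.inr hp)
    · exact absurd (edges_at b hp).2 hx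

theorem edges_map {V W : Type} (g : V → W) : ∀ (e : SP) (x y : V) (f : Inn e → V),
    edges e (g x) (g y) (fun i => g (f i)) = (edges e x y f).map fun p => (g p.1, g p.2)
  | .edge, _, _, _ => rfl
  | .ser a b, x, y, f => by
    refine (congrArg₂ (· ++ ·) (edges_map g a x (f (.inl ())) _)
      (edges_map g b (f (.inl ())) y _)).trans ?_
    rw [← List.map_append]
    rfl
  | .par a b, x, y, f => by
    refine (congrArg₂ (· ++ ·) (edges_map g a x y _) (edges_map g b x y _)).trans ?_
    rw [← List.map_append]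
    rfl
  | .hang a b, x, y, f => by
    refine (congrArg₂ (· ++ ·) (edges_map g a x y _)
      (edges_map g b x (f (.inr (.inl ()))) _)).trans ?_
    rw [← List.map_append]
    rfl
  | .hangR a b, x, y, f => by
    refine (congrArg₂ (· ++ ·) (edges_map g a x y _)
      (edges_map g b y (f (.inr (.inl ()))) _)).trans ?_
    rw [← List.map_append]
    rfl

theorem inter_ser {a b : SP} {x y : V} {f : Inn (.ser a b) → V} (h : Inj x y f) {v : V}
    (h1 : At x (f (.inl ())) (fun i : Inn a => f (.inr (.inl i))) v)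
    (h2 : At (f (.inl ())) y (fun i : Inn b => f (.inr (.inr i))) v) : v = f (.inl ()) := by
  rcases h1 with rfl | h1 | ⟨i, rfl⟩
  · rcases h2 with h2 | h2 | ⟨j, h2⟩
    · exact h2
    · exact absurd h2 h.ne
    · exact absurd h2.symm (h.left _)
  · exact h1
  · rcases h2 with h2 | h2 | ⟨j, h2⟩
    · exact h2
    · exact absurd h2 (h.right _)
    · have := h.inj h2
      cases this

theorem inter_par {a b : SP} {x y : V} {f : Inn (.par a b) → V} (h : Inj x y f) {v : V}
    (h1 : At x y (fun i : Inn a => f (.inl i)) v)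
    (h2 : At x y (fun i : Inn b => f (.inr i)) v) : v = x ∨ v = y := by
  rcases h1 with h1 | h1 | ⟨i, rfl⟩
  · exact Or.inl h1
  · exact Or.inr h1
  · rcases h2 with h2 | h2 | ⟨j, h2⟩
    · exact Or.inl h2
    · exact Or.inr h2
    · have := h.inj h2
      cases this

theorem inter_hang {a b : SP} {x y : V} {f : Inn (.hang a b) → V} (h : Inj x y f) {v : V}
    (h1 : At x y (fun i : Inn a => f (.inl i)) v)
    (h2 : At x (f (.inr (.inl ()))) (fun i : Inn b => f (.inr (.inr i))) v) : v = x := by
  rcases h1 with h1 | rfl | ⟨i, rfl⟩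
  · exact h1
  · rcases h2 with h2 | h2 | ⟨j, h2⟩
    · exact h2
    · exact absurd h2.symm (h.right _)
    · exact absurd h2.symm (h.right _)
  · rcases h2 with h2 | h2 | ⟨j, h2⟩
    · exact h2
    · have := h.inj h2
      cases this
    · have := h.inj h2
      cases this

theorem inter_hangR {a b : SP} {x y : V} {f : Inn (.hangR a b) → V} (h : Inj x y f) {v : V}
    (h1 : At x y (fun i : Inn a => f (.inl i)) v)
    (h2 : At y (f (.inr (.inl ()))) (fun i : Inn b => f (.inr (.inr i))) v) : v = y := by
  rcases h1 with rfl | h1 | ⟨i, rfl⟩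
  · rcases h2 with h2 | h2 | ⟨j, h2⟩
    · exact h2
    · exact absurd h2.symm (h.left _)
    · exact absurd h2.symm (h.left _)
  · exact h1
  · rcases h2 with h2 | h2 | ⟨j, h2⟩
    · exact h2
    · have := h.inj h2
      cases this
    · have := h.inj h2
      cases this

theorem mem_ends {x y : V} {p : V × V} {L : List (V × V)} (hp : p ∈ L) (hne : p.1 ≠ p.2)
    (h1 : p.1 = x ∨ p.1 = y) (h2 : p.2 = x ∨ p.2 = y) : (x, y) ∈ L ∨ (y, x) ∈ L := by
  rcases h1 with h1 | h1 <;> rcases h2 with h2 | h2
  · exact absurd (h1.trans h2.symm) hne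
  · left
    rwa [← h1, ← h2]
  · right
    rwa [← h1, ← h2]
  · exact absurd (h1.trans h2.symm) hne

/-- no edge is repeated, in either direction -/
theorem edges_pairwise : ∀ (e : SP), simple e → ∀ {x y : V} {f : Inn e → V}, Inj x y f →
    (edges e x y f).Pairwise fun p q => p ≠ q ∧ p ≠ q.swap
  | .edge, _, _, _, _, _ => List.pairwise_singleton _ _
  | .ser a b, hs, x, y, f, h => by
    simp only [edges]
    rw [List.pairwise_append]
    refine ⟨edges_pairwise a hs.1 h.serL, edges_pairwise b hs.2 h.serR, ?_⟩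
    intro p hp q hq
    obtain ⟨h1, h2⟩ := edges_at a hp
    obtain ⟨h3, h4⟩ := edges_at b hq
    have h5 := edges_ne a h.serL hp
    refine ⟨?_, ?_⟩
    · rintro rfl
      exact h5 ((inter_ser h h1 h3).trans (inter_ser h h2 h4).symm)
    · rintro rfl
      exact h5 ((inter_ser h h1 h4).trans (inter_ser h h2 h3).symm)
  | .par a b, hs, x, y, f, h => by
    simp only [edges]
    rw [List.pairwise_append]
    refine ⟨edges_pairwise a hs.1 h.parL, edges_pairwise b hs.2.1 h.parR, ?_⟩
    intro p hp q hq
    obtain ⟨h1, h2⟩ := edges_at a hp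
    obtain ⟨h3, h4⟩ := edges_at b hq
    have n1 := edges_ne a h.parL hp
    have n2 := edges_ne b h.parR hq
    refine ⟨?_, ?_⟩
    · rintro rfl
      have e1 := inter_par h h1 h3
      have e2 := inter_par h h2 h4
      exact hs.2.2 ⟨edges_direct a h.parL (mem_ends hp n1 e1 e2),
        edges_direct b h.parR (mem_ends hq n2 e1 e2)⟩
    · rintro rfl
      have e1 : q.2 = x ∨ q.2 = y := inter_par h h1 h4
      have e2 : q.1 = x ∨ q.1 = y := inter_par h h2 h3
      exact hs.2.2 ⟨edges_direct a h.parL (mem_ends hp n1 e1 e2),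
        edges_direct b h.parR (mem_ends hq n2 e2 e1)⟩
  | .hang a b, hs, x, y, f, h => by
    simp only [edges]
    rw [List.pairwise_append]
    refine ⟨edges_pairwise a hs.1 h.hangL, edges_pairwise b hs.2 h.hangR, ?_⟩
    intro p hp q hq
    obtain ⟨h1, h2⟩ := edges_at a hp
    obtain ⟨h3, h4⟩ := edges_at b hq
    have h5 := edges_ne a h.hangL hp
    refine ⟨?_, ?_⟩
    · rintro rfl
      exact h5 ((inter_hang h h1 h3).trans (inter_hang h h2 h4).symm)
    · rintro rfl
      exact h5 ((inter_hang h h1 h4).trans (inter_hang h h2 h3).symm)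
  | .hangR a b, hs, x, y, f, h => by
    simp only [edges]
    rw [List.pairwise_append]
    refine ⟨edges_pairwise a hs.1 h.hangRL, edges_pairwise b hs.2 h.hangRR, ?_⟩
    intro p hp q hq
    obtain ⟨h1, h2⟩ := edges_at a hp
    obtain ⟨h3, h4⟩ := edges_at b hq
    have h5 := edges_ne a h.hangRL hp
    refine ⟨?_, ?_⟩
    · rintro rfl
      exact h5 ((inter_hangR h h1 h3).trans (inter_hangR h h2 h4).symm)
    · rintro rfl
      exact h5 ((inter_hangR h h1 h4).trans (inter_hangR h h2 h3).symm)

/-- every vertex lies on an edge -/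
theorem edges_cover : ∀ (e : SP) (x y : V) (f : Inn e → V),
    (∃ p ∈ edges e x y f, p.1 = x) ∧ (∃ p ∈ edges e x y f, p.2 = y) ∧
      ∀ i, ∃ p ∈ edges e x y f, p.1 = f i ∨ p.2 = f i
  | .edge, x, y, f => by
    refine ⟨⟨(x, y), by simp [edges], rfl⟩, ⟨(x, y), by simp [edges], rfl⟩, fun i => i.elim⟩
  | .ser a b, x, y, f => by
    obtain ⟨⟨p, hp, h1⟩, _, h3⟩ := edges_cover a x (f (.inl ())) (fun i => f (.inr (.inl i)))
    obtain ⟨⟨q, hq, h4⟩, ⟨r, hr, h5⟩, h6⟩ :=
      edges_cover b (f (.inl ())) y (fun i => f (.inr (.inr i)))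
    have hL : ∀ p, p ∈ edges a x (f (.inl ())) (fun i => f (.inr (.inl i))) →
        p ∈ edges (.ser a b) x y f := fun p hp => List.mem_append_left _ hp
    have hR : ∀ p, p ∈ edges b (f (.inl ())) y (fun i => f (.inr (.inr i))) →
        p ∈ edges (.ser a b) x y f := fun p hp => List.mem_append_right _ hp
    refine ⟨⟨p, hL _ hp, h1⟩, ⟨r, hR _ hr, h5⟩, ?_⟩
    rintro (⟨⟩ | i | i)
    · exact ⟨q, hR _ hq, Or.inl h4⟩
    · obtain ⟨p, hp, h⟩ := h3 i
      exact ⟨p, hL _ hp, h⟩
    · obtain ⟨p, hp, h⟩ := h6 i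
      exact ⟨p, hR _ hp, h⟩
  | .par a b, x, y, f => by
    obtain ⟨⟨p, hp, h1⟩, ⟨q, hq, h2⟩, h3⟩ := edges_cover a x y (fun i => f (.inl i))
    obtain ⟨_, _, h6⟩ := edges_cover b x y (fun i => f (.inr i))
    have hL : ∀ p, p ∈ edges a x y (fun i => f (.inl i)) →
        p ∈ edges (.par a b) x y f := fun p hp => List.mem_append_left _ hp
    have hR : ∀ p, p ∈ edges b x y (fun i => f (.inr i)) →
        p ∈ edges (.par a b) x y f := fun p hp => List.mem_append_right _ hp
    refine ⟨⟨p, hL _ hp, h1⟩, ⟨q, hL _ hq, h2⟩, ?_⟩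
    rintro (i | i)
    · obtain ⟨p, hp, h⟩ := h3 i
      exact ⟨p, hL _ hp, h⟩
    · obtain ⟨p, hp, h⟩ := h6 i
      exact ⟨p, hR _ hp, h⟩
  | .hang a b, x, y, f => by
    obtain ⟨⟨p, hp, h1⟩, ⟨q, hq, h2⟩, h3⟩ := edges_cover a x y (fun i => f (.inl i))
    obtain ⟨_, ⟨r, hr, h5⟩, h6⟩ :=
      edges_cover b x (f (.inr (.inl ()))) (fun i => f (.inr (.inr i)))
    have hL : ∀ p, p ∈ edges a x y (fun i => f (.inl i)) →
        p ∈ edges (.hang a b) x y f := fun p hp => List.mem_append_left _ hp
    have hR : ∀ p, p ∈ edges b x (f (.inr (.inl ()))) (fun i => f (.inr (.inr i))) →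
        p ∈ edges (.hang a b) x y f := fun p hp => List.mem_append_right _ hp
    refine ⟨⟨p, hL _ hp, h1⟩, ⟨q, hL _ hq, h2⟩, ?_⟩
    rintro (i | ⟨⟩ | i)
    · obtain ⟨p, hp, h⟩ := h3 i
      exact ⟨p, hL _ hp, h⟩
    · exact ⟨r, hR _ hr, Or.inr h5⟩
    · obtain ⟨p, hp, h⟩ := h6 i
      exact ⟨p, hR _ hp, h⟩
  | .hangR a b, x, y, f => by
    obtain ⟨⟨p, hp, h1⟩, ⟨q, hq, h2⟩, h3⟩ := edges_cover a x y (fun i => f (.inl i))
    obtain ⟨_, ⟨r, hr, h5⟩, h6⟩ :=
      edges_cover b y (f (.inr (.inl ()))) (fun i => f (.inr (.inr i)))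
    have hL : ∀ p, p ∈ edges a x y (fun i => f (.inl i)) →
        p ∈ edges (.hangR a b) x y f := fun p hp => List.mem_append_left _ hp
    have hR : ∀ p, p ∈ edges b y (f (.inr (.inl ()))) (fun i => f (.inr (.inr i))) →
        p ∈ edges (.hangR a b) x y f := fun p hp => List.mem_append_right _ hp
    refine ⟨⟨p, hL _ hp, h1⟩, ⟨q, hL _ hq, h2⟩, ?_⟩
    rintro (i | ⟨⟩ | i)
    · obtain ⟨p, hp, h⟩ := h3 i
      exact ⟨p, hL _ hp, h⟩
    · exact ⟨r, hR _ hr, Or.inr h5⟩
    · obtain ⟨p, hp, h⟩ := h6 i
      exact ⟨p, hR _ hp, h⟩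

theorem odd_ser (a b : SP) : decide (len (.ser a b) % 2 = 1) =
    xor (decide (len a % 2 = 1)) (decide (len b % 2 = 1)) := by
  simp only [len]
  rcases Nat.mod_two_eq_zero_or_one (len a) with ha | ha <;>
    rcases Nat.mod_two_eq_zero_or_one (len b) with hb' | hb' <;>
    simp [Nat.add_mod, ha, hb']

theorem odd_parL {a b : SP} (h : bip (.par a b)) : len (.par a b) % 2 = len a % 2 := by
  have := h.2.2
  simp only [len]
  omega

theorem odd_parR {a b : SP} (h : bip (.par a b)) : len (.par a b) % 2 = len b % 2 := by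
  have := h.2.2
  simp only [len]
  omega

/-- the sides are a proper colouring -/
theorem edges_side (σ : V → Bool) : ∀ (e : SP), bip e → ∀ {x y : V} {f : Inn e → V}
    {p : V × V}, σ y = xor (σ x) (decide (len e % 2 = 1)) → (∀ i, σ (f i) = sdi e (σ x) i) →
    p ∈ edges e x y f → σ p.1 ≠ σ p.2
  | .edge, _, x, y, f, p, h1, _, hp => by
    simp only [edges, List.mem_singleton] at hp
    subst hp
    show σ x ≠ σ y
    rw [h1]
    cases σ x <;> simp [len]
  | .ser a b, hb, x, y, f, p, h1, h2, hp => by
    simp only [edges, List.mem_append] at hp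
    have h3 : σ (f (.inl ())) = xor (σ x) (decide (len a % 2 = 1)) := h2 _
    rcases hp with hp | hp
    · exact edges_side σ a hb.1 h3 (fun i => h2 (.inr (.inl i))) hp
    · refine edges_side σ b hb.2 ?_ (fun i => ?_) hp
      · rw [h1, h3, odd_ser, Bool.xor_assoc]
      · rw [h3]
        exact h2 (.inr (.inr i))
  | .par a b, hb, x, y, f, p, h1, h2, hp => by
    simp only [edges, List.mem_append] at hp
    rcases hp with hp | hp
    · exact edges_side σ a hb.1 (by rw [h1, odd_parL hb]) (fun i => h2 (.inl i)) hp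
    · exact edges_side σ b hb.2.1 (by rw [h1, odd_parR hb]) (fun i => h2 (.inr i)) hp
  | .hang a b, hb, x, y, f, p, h1, h2, hp => by
    simp only [edges, List.mem_append] at hp
    rcases hp with hp | hp
    · exact edges_side σ a hb.1 h1 (fun i => h2 (.inl i)) hp
    · exact edges_side σ b hb.2 (h2 (.inr (.inl ()))) (fun i => h2 (.inr (.inr i))) hp
  | .hangR a b, hb, x, y, f, p, h1, h2, hp => by
    simp only [edges, List.mem_append] at hp
    have h1' : σ y = xor (σ x) (decide (len a % 2 = 1)) := h1
    rcases hp with hp | hp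
    · exact edges_side σ a hb.1 h1 (fun i => h2 (.inl i)) hp
    · refine edges_side σ b hb.2 ?_ (fun i => ?_) hp
      · rw [h1']
        exact h2 (.inr (.inl ()))
      · rw [h1']
        exact h2 (.inr (.inr i))

end list

/-! ### the graph -/

theorem inj_gr (e : SP) : Inj (V := Bool ⊕ Inn e) (.inl false) (.inl true) .inr where
  ne := by simp
  left i := by simp
  right i := by simp
  inj := Sum.inr_injective

theorem gr_adj {e : SP} {u v : Bool ⊕ Inn e} : (gr e).Adj u v ↔
    (u, v) ∈ edges e (V := Bool ⊕ Inn e) (.inl false) (.inl true) .inr ∨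
      (v, u) ∈ edges e (V := Bool ⊕ Inn e) (.inl false) (.inl true) .inr := by
  rw [gr, SimpleGraph.fromRel_adj]
  constructor
  · exact fun h => h.2
  · intro h
    refine ⟨?_, h⟩
    rcases h with h | h
    · exact edges_ne e (inj_gr e) h
    · exact (edges_ne e (inj_gr e) h).symm

theorem gr_side {e : SP} (hb : bip e) (s : Bool) {p : (Bool ⊕ Inn e) × (Bool ⊕ Inn e)}
    (hp : p ∈ edges e (V := Bool ⊕ Inn e) (.inl false) (.inl true) .inr) :
    sd s e p.1 ≠ sd s e p.2 :=
  edges_side (sd s e) e hb rfl (fun _ => rfl) hp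

theorem gr_proper {e : SP} (hb : bip e) (s : Bool) (u v : Bool ⊕ Inn e)
    (h : (gr e).Adj u v) : sd s e u ≠ sd s e v := by
  rcases gr_adj.1 h with h | h
  · exact gr_side hb s h
  · exact (gr_side hb s h).symm

theorem gr_noIso (e : SP) (v : Bool ⊕ Inn e) : ∃ w, (gr e).Adj v w := by
  obtain ⟨⟨p, hp, h1⟩, ⟨q, hq, h2⟩, h3⟩ :=
    edges_cover e (V := Bool ⊕ Inn e) (.inl false) (.inl true) .inr
  rcases v with (_ | _) | i
  · have h4 : (Sum.inl false, p.2) = p := Prod.ext h1.symm rfl
    exact ⟨p.2, gr_adj.2 (Or.inl (by rw [h4]; exact hp))⟩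
  · have h4 : (q.1, Sum.inl true) = q := Prod.ext rfl h2.symm
    exact ⟨q.1, gr_adj.2 (Or.inr (by rw [h4]; exact hq))⟩
  · obtain ⟨r, hr, h4 | h4⟩ := h3 i
    · have h5 : (Sum.inr i, r.2) = r := Prod.ext h4.symm rfl
      exact ⟨r.2, gr_adj.2 (Or.inl (by rw [h5]; exact hr))⟩
    · have h5 : (r.1, Sum.inr i) = r := Prod.ext rfl h4.symm
      exact ⟨r.1, gr_adj.2 (Or.inr (by rw [h5]; exact hr))⟩

section wt

variable {S : Type} [Fintype S] {A : Matrix S S ℝ} {μ : S → ℝ} {c : S → Bool}

theorem prod_gr (h : Rev A μ c) {e : SP} (hs : simple e) (hb : bip e) (s : Bool)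
    (z : Bool ⊕ Inn e → S) :
    ∏ p ∈ sideEdges (gr e) (sd s e), A (z p.1) (z p.2) / μ (z p.2) =
      ew A μ (edges e (z (.inl false)) (z (.inl true)) fun i => z (.inr i)) := by
  classical
  set L := edges e (V := Bool ⊕ Inn e) (.inl false) (.inl true) .inr with hL
  set o : (Bool ⊕ Inn e) × (Bool ⊕ Inn e) → (Bool ⊕ Inn e) × (Bool ⊕ Inn e) :=
    fun p => if sd s e p.1 = false then p else p.swap with ho
  have hpair : (L.map o).Nodup := by
    rw [List.Nodup, List.pairwise_map]
    refine (edges_pairwise e hs (inj_gr e)).imp ?_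
    rintro p q ⟨h1, h2⟩ h3
    simp only [ho] at h3
    split_ifs at h3 with h4 h5 h5
    · exact h1 h3
    · exact h2 h3
    · apply h2
      rw [← h3, Prod.swap_swap]
    · exact h1 (Prod.swap_injective h3)
  have hset : sideEdges (gr e) (sd s e) = (L.map o).toFinset := by
    ext p
    simp only [sideEdges, mem_filter, mem_univ, true_and, List.mem_toFinset, List.mem_map,
      gr_adj]
    constructor
    · rintro ⟨h1 | h1, h2, h3⟩
      · exact ⟨p, h1, by simp [ho, h2]⟩
      · refine ⟨p.swap, h1, ?_⟩
        simp only [ho, Prod.fst_swap, Prod.swap_swap]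
        rw [if_neg (by rw [h3]; simp)]
    · rintro ⟨q, hq, rfl⟩
      have h1 := gr_side hb s hq
      simp only [ho]
      by_cases h2 : sd s e q.1 = false
      · rw [if_pos h2]
        refine ⟨Or.inl hq, h2, ?_⟩
        cases h3 : sd s e q.2
        · exact absurd (h2.trans h3.symm) h1
        · rfl
      · rw [if_neg h2]
        have h2' : sd s e q.1 = true := by simpa using h2
        refine ⟨Or.inr hq, ?_, h2'⟩
        show sd s e q.2 = false
        cases h3 : sd s e q.2
        · rfl
        · exact absurd (h2'.trans h3.symm) h1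
  rw [hset, List.prod_toFinset _ hpair, List.map_map]
  have hmap := edges_map z e (V := Bool ⊕ Inn e) (.inl false) (.inl true) .inr
  rw [ew, hmap, List.map_map]
  congr 1
  refine List.map_congr_left fun p _ => ?_
  simp only [Function.comp, ho]
  split_ifs
  · rfl
  · exact h.ker_symm _ _

open Classical in
theorem sum_wt (h : Rev A μ c) {e : SP} (hs : simple e) (hb : bip e) (s : Bool) :
    ∑ z : Bool ⊕ Inn e → S, wt (gr e) (sd s e) A μ c z =
      ∑ x, if c x = s then ∑ y, μ x * μ y * K A μ e x y else 0 := by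
  have h1 : ∀ z : Bool ⊕ Inn e → S, wt (gr e) (sd s e) A μ c z =
      if c (z (.inl false)) = s then μ (z (.inl false)) * μ (z (.inl true)) *
        ((∏ i, μ (z (.inr i))) *
          ew A μ (edges e (z (.inl false)) (z (.inl true)) fun i => z (.inr i))) else 0 := by
    intro z
    unfold wt
    rw [prod_gr h hs hb s z, Fintype.prod_sum_type, Fintype.prod_bool]
    by_cases h2 : c (z (.inl false)) = s
    · rw [if_pos h2]
      by_cases h3 : ew A μ (edges e (z (.inl false)) (z (.inl true)) fun i => z (.inr i)) = 0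
      · rw [h3]
        simp
      · obtain ⟨h4, h5⟩ := side_of_ne h e hb _ _ _ h3
        rw [if_pos]
        · ring
        · rintro ((_ | _) | i)
          · exact h2
          · rw [h4, h2]
            rfl
          · rw [h5, h2]
            rfl
    · rw [if_neg h2, if_neg]
      exact fun h3 => h2 (h3 _)
  simp only [h1]
  rw [← (Equiv.sumArrowEquivProdArrow Bool (Inn e) S).symm.sum_comp, Fintype.sum_prod_type,
    ← (Equiv.boolArrowEquivProd S).symm.sum_comp, Fintype.sum_prod_type]
  refine Finset.sum_congr rfl fun x _ => ?_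
  by_cases hx : c x = s
  · rw [if_pos hx]
    refine Finset.sum_congr rfl fun y _ => ?_
    rw [← sum_edges A μ e x y, Finset.mul_sum]
    refine Finset.sum_congr rfl fun z _ => ?_
    exact if_pos hx
  · rw [if_neg hx]
    refine Finset.sum_eq_zero fun y _ => Finset.sum_eq_zero fun z _ => ?_
    exact if_neg hx

end wt

end Vale.Agent.P050.SP
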