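import Vale.Agent.P050.R4.H153.AttachDef

/-!
# P050, series-parallel graphs: parts attached to a tree
-/

namespace Vale.Agent.P050.SP

/-- The distances in the tree after attaching a part: only the old vertices count. -/
def attD {V : Type} (e : SP) (D : V → V → ℕ → Prop) : V ⊕ Inn e → V ⊕ Inn e → ℕ → Prop
  | .inl u, .inl v, n => D u v n
  | _, _, _ => False

/-- The distances in the tree after hanging a part at `a`: its second terminal is a new vertex of
the tree, at distance `len e` from `a`. -/
def penD {V : Type} (e : SP) (a : V) (D : V → V → ℕ → Prop) :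
    V ⊕ (Unit ⊕ Inn e) → V ⊕ (Unit ⊕ Inn e) → ℕ → Prop
  | .inl u, .inl v, n => D u v n
  | .inl v, .inr (.inl _), n => ∃ m, D a v m ∧ n = len e + m
  | .inr (.inl _), .inl v, n => ∃ m, D a v m ∧ n = len e + m
  | .inr (.inl _), .inr (.inl _), n => n = 0
  | _, _, _ => False

/-- Graphs made from a tree with positive integer edge lengths: every edge of the tree is
replaced by a part `e` with `C e (len e)` of its length, and further parts `e` are put between
arbitrary vertices `a`, `b` of the tree if `C e d` for their distance `d` in the tree.
`D u v n`: `u` and `v` are vertices of the tree at distance `n`. -/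
inductive TreeG (C : SP → ℕ → Prop) : {V : Type} → SimpleGraph V → (V → V → ℕ → Prop) → Prop
  /-- one vertex -/
  | point : TreeG C (⊥ : SimpleGraph Unit) fun _ _ n => n = 0
  /-- a new edge of the tree at `a`, replaced by `e` -/
  | pen {V : Type} {H : SimpleGraph V} {D : V → V → ℕ → Prop} {e : SP} {a : V} :
      TreeG C H D → D a a 0 → simple e → C e (len e) → TreeG C (pen H e a) (penD e a D)
  /-- a part between two vertices of the tree -/
  | att {V : Type} {H : SimpleGraph V} {D : V → V → ℕ → Prop} {e : SP} {a b : V} {d : ℕ} :
      TreeG C H D → D a b d → a ≠ b → simple e → ¬ (direct e ∧ H.Adj a b) → C e d →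
      TreeG C (att H e a b) (attD e D)

end Vale.Agent.P050.SP
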