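import Vale.Agent.P050.R4.H153.Law
import Vale.Agent.P050.R4.H153.TreeDef
import Vale.Agent.P050.R4.H153.Graph
import Vale.Agent.P050.R3.H987.Sid

/-!
# P050, series-parallel graphs: parts attached to a tree, the theorem
-/

namespace Vale.Agent.P050.SP

open Finset Matrix Vale.Agent.P050.Ears Vale.Agent.P050.Lev

section marg

variable {S : Type} [Fintype S] [DecidableEq S] {A : Matrix S S ℝ} {μ : S → ℝ} {c : S → Bool}

/-- the joint law of `u` and `v` is that of a walk of length `n` -/
def MargD {V : Type} [Fintype V] [DecidableEq V] (A : Matrix S S ℝ) (μ : S → ℝ) (c : S → Bool)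
    (P : (V → S) → ℝ) (u v : V) (n : ℕ) (s : Bool) : Prop :=
  ∀ F : S → S → ℝ, ∑ z, P z * F (z u) (z v) = ∑ x, ∑ y, pd A μ c n s x y * F x y

variable {V : Type} [Fintype V] [DecidableEq V] {P : (V → S) → ℝ} {u v : V} {n : ℕ} {s : Bool}

theorem MargD.symm (h : Rev A μ c) (hP : MargD A μ c P u v n s) :
    MargD A μ c P v u n (sh s n) := by
  intro F
  rw [hP fun x y => F y x, Finset.sum_comm]
  refine Finset.sum_congr rfl fun x _ => Finset.sum_congr rfl fun y _ => ?_
  rw [pd_swap h n s y x]

theorem MargD.pow_pos (h : Rev A μ c) (hn : ∀ z, 0 ≤ P z) (hP : MargD A μ c P u v n s)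
    {z : V → S} (hz : 0 < P z) : 0 < (A ^ n) (z u) (z v) := by
  by_contra h0
  have h1 : (A ^ n) (z u) (z v) = 0 := le_antisymm (not_lt.1 h0) (h.pow_nonneg _ _ _)
  have h2 := hP fun x y => if x = z u ∧ y = z v then 1 else 0
  have h3 : ∑ x, ∑ y, pd A μ c n s x y * (if x = z u ∧ y = z v then (1 : ℝ) else 0) = 0 := by
    refine Finset.sum_eq_zero fun x _ => Finset.sum_eq_zero fun y _ => ?_
    split_ifs with h4
    · rw [h4.1, h4.2, mul_one]
      unfold pd
      rw [h1, mul_zero, ite_self]
    · rw [mul_zero]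
  rw [h3] at h2
  have h4 := (Finset.sum_eq_zero_iff_of_nonneg fun z' _ => mul_nonneg (hn z')
    (by split_ifs <;> norm_num)).1 h2 z (mem_univ z)
  rw [if_pos ⟨rfl, rfl⟩, mul_one] at h4
  exact hz.ne' h4

/-- the law of one vertex -/
theorem MargD.one (hP : MargD A μ c P u u 0 s) (F : S → ℝ) :
    ∑ z, P z * F (z u) = ∑ x, (if c x = s then μ x else 0) * F x := by
  rw [hP fun x _ => F x]
  refine Finset.sum_congr rfl fun x _ => ?_
  unfold pd
  rw [← Finset.sum_mul, pow_zero]
  congr 1
  by_cases hx : c x = s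
  · simp [hx, Matrix.one_apply]
  · simp [hx]

end marg

section steps

variable {S : Type} [Fintype S] [DecidableEq S] {A : Matrix S S ℝ} {μ : S → ℝ} {c : S → Bool}
variable {V : Type} [Fintype V] [DecidableEq V] {H : SimpleGraph V} {e : SP} {a b : V}
variable {side : V → Bool} {P : (V → S) → ℝ}

theorem MargD.attP {u v : V} {n : ℕ} {s : Bool}
    (hK : ∀ z, P z ≠ 0 → K A μ e (z a) (z b) ≠ 0) (hP : MargD A μ c P u v n s) :
    MargD A μ c (attP A μ e a b P) (.inl u) (.inl v) n s := by
  intro F
  rw [← hP F]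
  exact attP_marg hK fun z => F (z u) (z v)

theorem MargD.penP {u v : V} {n : ℕ} {s : Bool} (h : Rev A μ c)
    (hK : ∀ x y, (A ^ len e) x y ≠ 0 → K A μ e x y ≠ 0) (hP : MargD A μ c P u v n s) :
    MargD A μ c (penP A μ e a P) (.inl u) (.inl v) n s := by
  intro F
  rw [← hP F]
  have h1 := penP_marg (a := a) (P := P) hK fun z _ => F (z u) (z v)
  refine h1.trans (Finset.sum_congr rfl fun z _ => ?_)
  rw [← Finset.sum_mul, h.pow_row, one_mul]

/-- the new vertex and an old one -/
theorem MargD.penP_new {v : V} {m : ℕ} {s : Bool} (h : Rev A μ c)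
    (hK : ∀ x y, (A ^ len e) x y ≠ 0 → K A μ e x y ≠ 0) (hP : MargD A μ c P a v m s) :
    MargD A μ c (SP.penP A μ e a P) (.inr (.inl ())) (.inl v) (len e + m) (sh s (len e)) := by
  intro F
  have h1 := penP_marg (a := a) (P := P) hK fun z w => F w (z v)
  refine h1.trans ?_
  rw [hP fun x y => ∑ w, (A ^ len e) x w * F w y]
  have h2 : ∀ w y, pd A μ c (len e + m) (sh s (len e)) w y =
      ∑ x, pd A μ c m s x y * (A ^ len e) x w := by
    intro w y
    rw [pd_swap h (len e + m) _ w y, sh_add, show len e + (len e + m) = m + 2 * len e by ring]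
    have h3 : sh s (m + 2 * len e) = sh s m := by
      unfold sh
      rw [show (m + 2 * len e) % 2 = m % 2 by omega]
    rw [h3, add_comm (len e) m, ← pd_step h m (len e) (sh s m) y w]
    refine Finset.sum_congr rfl fun x _ => ?_
    rw [pd_swap h m (sh s m) y x, sh_add, ← two_mul]
    have h4 : sh s (2 * m) = s := by
      unfold sh
      rw [show (2 * m) % 2 = 0 by omega]
      simp
    rw [h4]
  simp only [h2, Finset.sum_mul, Finset.mul_sum]
  rw [Finset.sum_comm]
  have h5 : ∀ y, ∑ x, ∑ w, pd A μ c m s x y * ((A ^ len e) x w * F w y) =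
      ∑ w, ∑ x, pd A μ c m s x y * (A ^ len e) x w * F w y := by
    intro y
    rw [Finset.sum_comm]
    exact Finset.sum_congr rfl fun w _ => Finset.sum_congr rfl fun x _ => by ring
  simp only [h5]
  exact Finset.sum_comm

/-- the law of the new vertex -/
theorem MargD.penP_self {s : Bool} (h : Rev A μ c)
    (hK : ∀ x y, (A ^ len e) x y ≠ 0 → K A μ e x y ≠ 0) (hP : MargD A μ c P a a 0 s) :
    MargD A μ c (SP.penP A μ e a P) (.inr (.inl ())) (.inr (.inl ())) 0 (sh s (len e)) := by
  intro F
  have h1 := penP_marg (a := a) (P := P) hK fun _ w => F w w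
  refine h1.trans ?_
  rw [hP.one fun x => ∑ w, (A ^ len e) x w * F w w]
  have h2 : ∀ w, ∑ x, (if c x = s then μ x else 0) * (A ^ len e) x w =
      if c w = sh s (len e) then μ w else 0 := by
    intro w
    rw [← pd_right h (len e) s w]
    refine Finset.sum_congr rfl fun x _ => ?_
    unfold pd
    split_ifs <;> ring
  simp only [Finset.mul_sum]
  rw [Finset.sum_comm]
  refine Finset.sum_congr rfl fun w _ => ?_
  have h3 : ∑ y, pd A μ c 0 (sh s (len e)) w y * F w y =
      (if c w = sh s (len e) then μ w else 0) * F w w := by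
    unfold pd
    rw [Finset.sum_eq_single w]
    · rw [pow_zero, Matrix.one_apply_eq]
      split_ifs <;> ring
    · intro y _ hy
      rw [pow_zero, Matrix.one_apply_ne hy.symm]
      split_ifs <;> ring
    · intro hw; exact absurd (mem_univ w) hw
  rw [h3, ← h2 w, Finset.sum_mul]
  exact Finset.sum_congr rfl fun x _ => by ring

end steps

/-- a class of parts: `C e d` implies that `e` may be put at distance `d` -/
def Sound (C : SP → ℕ → Prop) : Prop :=
  ∀ e d, C e d → bip e ∧ d ≤ len e ∧ d % 2 = len e % 2 ∧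
    ∀ (S : Type) [Fintype S] [DecidableEq S] (A : Matrix S S ℝ) (μ : S → ℝ) (c : S → Bool),
      Rev A μ c → GoodK A μ c (len e) d (K A μ e)

/-- the inductive statement -/
structure TG {V : Type} (H : SimpleGraph V) (D : V → V → ℕ → Prop) (iF : Fintype V)
    (iD : DecidableEq V) (side : V → Bool) : Prop where
  proper : ∀ u v, H.Adj u v → side u ≠ side v
  dist : ∀ u v n, D u v n → side v = sh (side u) n
  law : ∀ (S : Type) [Fintype S] [DecidableEq S] (A : Matrix S S ℝ) (μ : S → ℝ) (c : S → Bool),
    Rev A μ c → ∃ P : (V → S) → ℝ, LawOn H side A μ c P ∧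
      ∀ u v n, D u v n → MargD A μ c P u v n (side u)

theorem TG.point : TG (⊥ : SimpleGraph Unit) (fun _ _ n => n = 0) inferInstance inferInstance
    fun _ => false := by
  refine ⟨fun u v h => absurd h (by simp), fun u v n hn => ?_, ?_⟩
  · subst hn
    rfl
  · intro S _ _ A μ c h
    have hw : ∀ z : Unit → S, wt (⊥ : SimpleGraph Unit) (fun _ => false) A μ c z =
        if c (z ()) = false then μ (z ()) else 0 := by
      intro z
      unfold wt
      have h1 : sideEdges (⊥ : SimpleGraph Unit) (fun _ => false) = ∅ := by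
        classical
        ext p
        simp [sideEdges]
      rw [h1, Finset.prod_empty, mul_one, Fintype.prod_unique]
      by_cases h2 : c (z ()) = false
      · rw [if_pos h2, if_pos fun v => h2]
      · rw [if_neg h2, if_neg fun h3 => h2 (h3 ())]
    have hs : ∀ G : (Unit → S) → ℝ, ∑ z, G z = ∑ x, G fun _ => x := fun G =>
      ((Equiv.funUnique Unit S).symm.sum_comp G).symm
    refine ⟨fun z => if c (z ()) = false then μ (z ()) else 0, ⟨fun z => ?_, ?_, fun z hz => ?_,
      ?_⟩, fun u v n hn => ?_⟩
    · split_ifs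
      · exact (h.pos _).le
      · exact le_rfl
    · rw [hs]
      exact h.mass false
    · rw [hw]; exact hz
    · simp only [hw, sub_self, mul_zero, Finset.sum_const_zero]
      exact le_rfl
    · subst hn
      intro F
      rw [hs]
      refine Finset.sum_congr rfl fun x _ => ?_
      rw [Finset.sum_eq_single x]
      · unfold pd
        rw [pow_zero, Matrix.one_apply_eq]
        dsimp only
        split_ifs <;> ring
      · intro y _ hy
        unfold pd
        rw [pow_zero, Matrix.one_apply_ne hy.symm]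
        split_ifs <;> ring
      · intro hx; exact absurd (mem_univ x) hx

theorem TG.att {V : Type} {H : SimpleGraph V} {D : V → V → ℕ → Prop} {iF : Fintype V}
    {iD : DecidableEq V} {side : V → Bool} {e : SP} {a b : V} {d : ℕ} {C : SP → ℕ → Prop}
    (hC : Sound C) (hT : TG H D iF iD side)
    (hD : D a b d) (hab : a ≠ b) (hs : simple e) (hd : ¬ (direct e ∧ H.Adj a b))
    (he : C e d) :
    TG (att H e a b) (attD e D) inferInstance inferInstance (attSide side e a) := by
  obtain ⟨hb, hle, hpar, hsem⟩ := hC e d he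
  have hside : side b = xor (side a) (decide (len e % 2 = 1)) := by
    rw [hT.dist a b d hD]
    unfold sh
    rw [hpar]
  refine ⟨fun u v => att_proper hT.proper hb hside u v, ?_, ?_⟩
  · rintro (u | u) (v | v) n hn
    · exact hT.dist u v n hn
    · exact hn.elim
    · exact hn.elim
    · exact hn.elim
  · intro S _ _ A μ c h
    obtain ⟨P, hP, hM⟩ := hT.law S A μ c h
    have hg : GoodK A μ c (len e) d (K A μ e) := hsem S A μ c h
    have pK : ∀ z, 0 < P z → 0 < K A μ e (z a) (z b) := fun z hz =>
      (K_pos h e hb).mono h hle hpar _ _ ((hM a b d hD).pow_pos h hP.nonneg hz)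
    have pK' : ∀ z, P z ≠ 0 → K A μ e (z a) (z b) ≠ 0 := fun z hz =>
      (pK z (lt_of_le_of_ne (hP.nonneg z) hz.symm)).ne'
    refine ⟨attP A μ e a b P, hP.att h hs hb hab hd hside pK ?_, ?_⟩
    · rw [hM a b d hD fun x y => Real.log (K A μ e x y)]
      exact hg.nonneg h (side a)
    · rintro (u | u) (v | v) n hn
      · exact (hM u v n hn).attP pK'
      · exact hn.elim
      · exact hn.elim
      · exact hn.elim

theorem TG.pen {V : Type} {H : SimpleGraph V} {D : V → V → ℕ → Prop} {iF : Fintype V}
    {iD : DecidableEq V} {side : V → Bool} {e : SP} {a : V} {C : SP → ℕ → Prop}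
    (hC : Sound C) (hT : TG H D iF iD side)
    (hD : D a a 0) (hs : simple e) (he : C e (len e)) :
    TG (pen H e a) (penD e a D) inferInstance inferInstance (penSide side e a) := by
  obtain ⟨hb, _, _, hsem⟩ := hC e (len e) he
  have hnew : xor (side a) (decide (len e % 2 = 1)) = sh (side a) (len e) := rfl
  refine ⟨fun u v => pen_proper hT.proper hb u v, ?_, ?_⟩
  · rintro (u | ⟨⟩ | u) (v | ⟨⟩ | v) n hn
    · exact hT.dist u v n hn
    · obtain ⟨m, hm, rfl⟩ := hn
      change sh (side a) (len e) = sh (side u) (len e + m)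
      rw [hT.dist a u m hm, sh_add, show m + (len e + m) = len e + 2 * m by ring]
      unfold sh
      rw [show (len e + 2 * m) % 2 = len e % 2 by omega]
    · exact hn.elim
    · obtain ⟨m, hm, rfl⟩ := hn
      change side v = sh (sh (side a) (len e)) (len e + m)
      rw [sh_add, hT.dist a v m hm, show len e + (len e + m) = m + 2 * len e by ring]
      unfold sh
      rw [show (m + 2 * len e) % 2 = m % 2 by omega]
    · change n = 0 at hn
      subst hn
      change sh (side a) (len e) = sh (sh (side a) (len e)) 0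
      rw [sh_add, add_zero]
    · exact hn.elim
    · exact hn.elim
    · exact hn.elim
    · exact hn.elim
  · intro S _ _ A μ c h
    obtain ⟨P, hP, hM⟩ := hT.law S A μ c h
    have hg : GoodK A μ c (len e) (len e) (K A μ e) := hsem S A μ c h
    have pK : ∀ x y, 0 < (A ^ len e) x y → 0 < K A μ e x y := K_pos h e hb
    have pK' : ∀ x y, (A ^ len e) x y ≠ 0 → K A μ e x y ≠ 0 := fun x y hz =>
      (pK x y (lt_of_le_of_ne (h.pow_nonneg _ x y) hz.symm)).ne'
    refine ⟨penP A μ e a P, hP.pen h hs hb pK ?_, ?_⟩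
    · rw [(hM a a 0 hD).one fun x => ∑ w, (A ^ len e) x w *
        (Real.log (K A μ e x w) - Real.log (kap A μ (len e) x w))]
      have h1 := hg (side a)
      rw [if_pos rfl] at h1
      have h2 : ∑ x, (if c x = side a then μ x else 0) * ∑ w, (A ^ len e) x w *
          (Real.log (K A μ e x w) - Real.log (kap A μ (len e) x w)) =
          EL (pd A μ c (len e) (side a)) (K A μ e) - J A μ c (len e) (side a) := by
        unfold J
        rw [EL_pd h, EL_pd h, ← Finset.sum_sub_distrib]
        refine Finset.sum_congr rfl fun x _ => ?_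
        split_ifs
        · rw [← mul_sub, ← Finset.sum_sub_distrib]
          congr 1
          exact Finset.sum_congr rfl fun w _ => by ring
        · ring
      rw [h2]
      linarith
    · rintro (u | ⟨⟩ | u) (v | ⟨⟩ | v) n hn
      · exact (hM u v n hn).penP h pK'
      · obtain ⟨m, hm, rfl⟩ := hn
        have h1 := ((hM a u m hm).penP_new (e := e) h pK').symm h
        have h2 : sh (sh (side a) (len e)) (len e + m) = side u := by
          rw [sh_add, hT.dist a u m hm, show len e + (len e + m) = m + 2 * len e by ring]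
          unfold sh
          rw [show (m + 2 * len e) % 2 = m % 2 by omega]
        rw [h2] at h1
        exact h1
      · exact hn.elim
      · obtain ⟨m, hm, rfl⟩ := hn
        exact (hM a v m hm).penP_new h pK'
      · change n = 0 at hn
        subst hn
        exact (hM a a 0 hD).penP_self h pK'
      · exact hn.elim
      · exact hn.elim
      · exact hn.elim
      · exact hn.elim

/-- no isolated vertices -/
theorem TreeG.noIso {C : SP → ℕ → Prop} {V : Type} {H : SimpleGraph V}
    {D : V → V → ℕ → Prop} (h : TreeG C H D) :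
    Subsingleton V ∨ ∀ v, ∃ w, H.Adj v w := by
  induction h with
  | point => exact Or.inl inferInstance
  | @pen V H D e a _ _ _ _ ih =>
    right
    have hH : ∀ v, v ≠ a → ∃ w, H.Adj v w := by
      rcases ih with ih | ih
      · exact fun v hv => absurd (ih.elim v a) hv
      · exact fun v _ => ih v
    obtain ⟨⟨p, hp, h1⟩, _⟩ := edges_cover e (V := V ⊕ (Unit ⊕ Inn e)) (.inl a)
      (.inr (.inl ())) (fun i => .inr (.inr i))
    intro v
    rcases v with v | v
    · by_cases hv : v = a
      · subst hv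
        refine ⟨p.2, ?_⟩
        rw [← h1]
        exact pen_adj.2 (Or.inr ⟨edges_ne e inj_pen hp, Or.inl hp⟩)
      · obtain ⟨w, hw⟩ := hH v hv
        exact ⟨.inl w, pen_adj.2 (Or.inl ((map_inl H _ _).2 ⟨_, _, hw, rfl, rfl⟩))⟩
    · -- the vertices of the part
      obtain ⟨_, ⟨q, hq, h2⟩, h3⟩ := edges_cover e (V := V ⊕ (Unit ⊕ Inn e)) (.inl a)
        (.inr (.inl ())) (fun i => .inr (.inr i))
      have key : ∀ r ∈ edges e (V := V ⊕ (Unit ⊕ Inn e)) (.inl a) (.inr (.inl ()))
          (fun i => .inr (.inr i)), (SP.pen H e a).Adj r.1 r.2 := fun r hr =>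
        pen_adj.2 (Or.inr ⟨edges_ne e inj_pen hr, Or.inl hr⟩)
      rcases v with ⟨⟩ | i
      · exact ⟨q.1, by rw [← h2]; exact (key q hq).symm⟩
      · obtain ⟨r, hr, h4 | h4⟩ := h3 i
        · exact ⟨r.2, by rw [← h4]; exact key r hr⟩
        · exact ⟨r.1, by rw [← h4]; exact (key r hr).symm⟩
  | @att V H D e a b d _ _ hab _ _ _ ih =>
    right
    rcases ih with ih | ih
    · exact absurd (ih.elim a b) hab
    · exact att_noIso ih hab

theorem TreeG.tg {C : SP → ℕ → Prop} (hC : Sound C) {V : Type} {H : SimpleGraph V}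
    {D : V → V → ℕ → Prop} (h : TreeG C H D) :
    ∃ (iF : Fintype V) (iD : DecidableEq V) (side : V → Bool), TG H D iF iD side := by
  induction h with
  | point => exact ⟨inferInstance, inferInstance, _, TG.point⟩
  | pen _ hD hs he ih =>
    obtain ⟨iF, iD, side, hT⟩ := ih
    exact ⟨inferInstance, inferInstance, _, hT.pen hC hD hs he⟩
  | att _ hD hab hs hd he ih =>
    obtain ⟨iF, iD, side, hT⟩ := ih
    exact ⟨inferInstance, inferInstance, _, hT.att hC hD hab hs hd he⟩

/-- The theorem on graphs made from a tree. -/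
theorem TreeG.gsid {C : SP → ℕ → Prop} (hC : Sound C) {V W : Type} [Fintype V] [DecidableEq V]
    {H : SimpleGraph V} {G : SimpleGraph W} {D : W → W → ℕ → Prop} (h : TreeG C G D)
    (φ : H ≃g G) (hH : H ≠ ⊥) :
    ∃ side : V → Bool, GSid H side := by
  classical
  obtain ⟨iF, iD, side, hT⟩ := h.tg hC
  have hiso : ∀ v, ∃ w, G.Adj v w := by
    rcases h.noIso with h1 | h1
    · exfalso
      apply hH
      ext u v
      simp only [SimpleGraph.bot_adj, iff_false]
      intro huv
      exact huv.ne (φ.injective (h1.elim _ _))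
    · exact h1
  refine ⟨fun v => side (φ v), gsid_of_rev H _ (fun u v huv => hT.proper _ _
    (φ.map_adj_iff.2 huv)) (fun v => ?_) ?_⟩
  · obtain ⟨w, hw⟩ := hiso (φ v)
    refine ⟨φ.symm w, φ.map_adj_iff.1 ?_⟩
    rwa [φ.apply_symm_apply]
  · intro S _ _ _ A μ c hR
    obtain ⟨P, hP, _⟩ := hT.law S A μ c hR
    have h1 := hP.one_le hR
    have h4 := sum_iso (A := A) (μ := μ) (c := c) φ side (fun _ => 1)
    simp only [mul_one] at h4
    have h5 : ∑ z, wt H (fun v => side (φ v)) A μ c z = ∑ z, wt G side A μ c z := h4.symm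
    rw [h5]
    exact h1

theorem TreeG.sid {C : SP → ℕ → Prop} (hC : Sound C) {V W : Type} [Fintype V] [DecidableEq V]
    {H : SimpleGraph V} {G : SimpleGraph W} {D : W → W → ℕ → Prop} (h : TreeG C G D)
    (φ : H ≃g G) (hH : H ≠ ⊥) {U : Type*} [Finite U] [Nonempty U] (T : SimpleGraph U) :
    edgeDensity T ^ Nat.card H.edgeSet ≤ homDensity H T := by
  obtain ⟨side, hs⟩ := h.gsid hC φ hH
  exact sidorenko_of_gsid hs T

end Vale.Agent.P050.SP
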