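import Vale.Agent.P050.R4.H153.FrDef
import Vale.Agent.P050.R4.H153.Tree
import Vale.Agent.P050.R4.H153.Attach2

/-!
# P050, frames: the law of a record
-/

namespace Vale.Agent.P050.SP

open Finset Matrix Vale.Agent.P050.Ears Vale.Agent.P050.Lev

variable {S : Type} [Fintype S] [DecidableEq S] {A : Matrix S S ℝ} {μ : S → ℝ} {c : S → Bool}
variable {V : Type}

/-- the product of the kernels of the edges -/
noncomputable def kapE (A : Matrix S S ℝ) (μ : S → ℝ) (E : Multiset (V × ℕ × V)) (z : V → S) :
    ℝ := (E.map fun p => kap A μ p.2.1 (z p.1) (z p.2.2)).prod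

/-- the sides agree with the lengths of the edges -/
def TOK (side : V → Bool) (E : Multiset (V × ℕ × V)) : Prop :=
  ∀ p ∈ E, side p.2.2 = sh (side p.1) p.2.1

theorem kapE_zero (z : V → S) : kapE A μ 0 z = 1 := by simp [kapE]

theorem kapE_cons (u v : V) (d : ℕ) (E : Multiset (V × ℕ × V)) (z : V → S) :
    kapE A μ ((u, d, v) ::ₘ E) z = kap A μ d (z u) (z v) * kapE A μ E z := by simp [kapE]

theorem kapE_add (E E' : Multiset (V × ℕ × V)) (z : V → S) :
    kapE A μ (E + E') z = kapE A μ E z * kapE A μ E' z := by simp [kapE]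

theorem kapE_map {W : Type} (f : V → W) (E : Multiset (V × ℕ × V)) (z : W → S) :
    kapE A μ (E.map (emap f)) z = kapE A μ E (fun v => z (f v)) := by
  simp [kapE, emap, Multiset.map_map, Function.comp_def]

theorem kapE_nonneg (h : Rev A μ c) (E : Multiset (V × ℕ × V)) (z : V → S) :
    0 ≤ kapE A μ E z := by
  unfold kapE
  refine Multiset.prod_nonneg fun x hx => ?_
  obtain ⟨p, _, rfl⟩ := Multiset.mem_map.1 hx
  exact h.kap_nonneg _ _ _

theorem kapE_congr {E : Multiset (V × ℕ × V)} {z z' : V → S}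
    (hz : ∀ p ∈ E, z p.1 = z' p.1 ∧ z p.2.2 = z' p.2.2) : kapE A μ E z = kapE A μ E z' := by
  unfold kapE
  congr 1
  refine Multiset.map_congr rfl fun p hp => ?_
  rw [(hz p hp).1, (hz p hp).2]

section

variable [Fintype V]

/-- the product measure of the vertices -/
noncomputable def mus (side : V → Bool) (μ : S → ℝ) (c : S → Bool) (z : V → S) : ℝ :=
  ∏ v, if c (z v) = side v then μ (z v) else 0

/-- the vertices of the record have the law of a walk indexed by the tree -/
def MargT [DecidableEq V] (A : Matrix S S ℝ) (μ : S → ℝ) (c : S → Bool) (side : V → Bool)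
    (P : (V → S) → ℝ) (r : Set V × Multiset (V × ℕ × V)) : Prop :=
  ∀ F : (V → S) → ℝ, (∀ z z' : V → S, (∀ v ∈ r.1, z v = z' v) → F z = F z') →
    ∑ z, P z * F z = ∑ z, mus side μ c z * kapE A μ r.2 z * F z

/-- A law of the maps of a frame with nonnegative entropy balance. -/
structure LawF [DecidableEq V] (L : Multiset (V × ℕ × V)) (side : V → Bool)
    (A : Matrix S S ℝ) (μ : S → ℝ) (c : S → Bool) (P : (V → S) → ℝ) : Prop where
  nonneg : ∀ z, 0 ≤ P z
  sum : ∑ z, P z = 1
  supp : ∀ z, 0 < P z → 0 < mus side μ c z * kapE A μ L z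
  ent : 0 ≤ ∑ z, P z * (Real.log (mus side μ c z * kapE A μ L z) - Real.log (P z))

theorem mus_nonneg (h : Rev A μ c) (side : V → Bool) (z : V → S) : 0 ≤ mus side μ c z :=
  Finset.prod_nonneg fun v _ => by
    split_ifs
    · exact (h.pos _).le
    · exact le_rfl

theorem mus_sum [DecidableEq V] (h : Rev A μ c) (side : V → Bool) :
    ∑ z : V → S, mus side μ c z = 1 := by
  unfold mus
  have h1 := Finset.prod_univ_sum (fun _ : V => (univ : Finset S))
    (fun v x => if c x = side v then μ x else 0)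
  rw [Fintype.piFinset_univ] at h1
  rw [← h1]
  exact Finset.prod_eq_one fun v _ => h.mass (side v)

theorem mus_sumElim {W : Type} [Fintype W] (s1 : V → Bool) (s2 : W → Bool) (z : V → S)
    (y : W → S) : mus (Sum.elim s1 s2) μ c (Sum.elim z y) = mus s1 μ c z * mus s2 μ c y := by
  unfold mus
  rw [Fintype.prod_sum_type]
  rfl

theorem sum_arrow {W : Type} [DecidableEq V] [Fintype W] [DecidableEq W]
    (G : (V ⊕ W → S) → ℝ) :
    ∑ z, G z = ∑ z : V → S, ∑ y : W → S, G (Sum.elim z y) := by
  rw [← (Equiv.sumArrowEquivProdArrow V W S).symm.sum_comp, Fintype.sum_prod_type]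
  rfl

/-- The vertices `g n` may be resampled. -/
theorem resample {N : Type} [DecidableEq V] [Fintype N] [DecidableEq N] (h : Rev A μ c)
    (side : V → Bool) {g : N → V} (hg : Function.Injective g) (Φ : (V → S) → ℝ) :
    ∑ z, mus side μ c z * Φ z =
      ∑ z, mus side μ c z * ∑ y : N → S, mus (fun n => side (g n)) μ c y *
        Φ (Function.extend g y z) := by
  classical
  let σ : N ⊕ ((Set.range g)ᶜ : Set V) ≃ V :=
    (Equiv.sumCongr (Equiv.ofInjective g hg) (Equiv.refl _)).trans (Equiv.Set.sumCompl _)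
  have σl : ∀ n, σ (.inl n) = g n := fun n => by simp [σ]
  have σr : ∀ t : ((Set.range g)ᶜ : Set V), σ (.inr t) = t := fun t => by simp [σ]
  have σl' : ∀ n, σ.symm (g n) = .inl n := fun n => by rw [← σl, σ.symm_apply_apply]
  have σr' : ∀ t : ((Set.range g)ᶜ : Set V), σ.symm (t : V) = .inr t := fun t => by
    rw [← σr, σ.symm_apply_apply]
  -- splitting of the sums
  have hs : ∀ G : (V → S) → ℝ, ∑ z, G z = ∑ y : N → S,
      ∑ t : ((Set.range g)ᶜ : Set V) → S, G (fun v => Sum.elim y t (σ.symm v)) := by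
    intro G
    rw [← (Equiv.arrowCongr σ (Equiv.refl S)).sum_comp, sum_arrow]
    rfl
  have hm : ∀ (y : N → S) (t : ((Set.range g)ᶜ : Set V) → S),
      mus side μ c (fun v => Sum.elim y t (σ.symm v)) =
        mus (fun n => side (g n)) μ c y *
          mus (fun t : ((Set.range g)ᶜ : Set V) => side t) μ c t := by
    intro y t
    unfold mus
    rw [← σ.prod_comp, Fintype.prod_sum_type]
    simp only [σl, σr, σl', σr', Sum.elim_inl, Sum.elim_inr]
  have he : ∀ (y y' : N → S) (t : ((Set.range g)ᶜ : Set V) → S),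
      Function.extend g y' (fun v => Sum.elim y t (σ.symm v)) =
        fun v => Sum.elim y' t (σ.symm v) := by
    intro y y' t
    funext v
    obtain ⟨w, rfl⟩ := σ.surjective v
    rw [σ.symm_apply_apply]
    rcases w with n | w
    · rw [σl, hg.extend_apply]; rfl
    · rw [σr, Function.extend_apply' _ _ _ fun ⟨n, hn⟩ => w.2 ⟨n, hn⟩]
      have h1 : σ.symm (w : V) = .inr w := by rw [← σr, σ.symm_apply_apply]
      rw [h1]; rfl
  rw [hs, hs]
  simp only [hm, he]
  rw [Finset.sum_comm]
  have h2 : ∀ t : ((Set.range g)ᶜ : Set V) → S, ∑ y : N → S,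
      mus (fun n => side (g n)) μ c y *
        mus (fun t : ((Set.range g)ᶜ : Set V) => side t) μ c t *
          ∑ y' : N → S, mus (fun n => side (g n)) μ c y' *
            Φ (fun v => Sum.elim y' t (σ.symm v)) =
      mus (fun t : ((Set.range g)ᶜ : Set V) => side t) μ c t *
          ∑ y' : N → S, mus (fun n => side (g n)) μ c y' *
            Φ (fun v => Sum.elim y' t (σ.symm v)) := by
    intro t
    simp only [mul_assoc]
    rw [← Finset.sum_mul, mus_sum h, one_mul]
  rw [Finset.sum_comm (s := (univ : Finset (N → S)))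
    (t := (univ : Finset (((Set.range g)ᶜ : Set V) → S)))]
  refine Finset.sum_congr rfl fun t _ => ?_
  rw [h2 t, Finset.mul_sum]
  exact Finset.sum_congr rfl fun y _ => by ring

end

end Vale.Agent.P050.SP
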