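import Vale.Agent.P050.R4.H153.FrSem

/-!
# P050, frames: the steps
-/

namespace Vale.Agent.P050.SP

open Finset Matrix Vale.Agent.P050.Ears Vale.Agent.P050.Lev

variable {S : Type} [Fintype S] [DecidableEq S] {A : Matrix S S ℝ} {μ : S → ℝ} {c : S → Bool}
variable {V : Type} [Fintype V] [DecidableEq V] {side : V → Bool} {P : (V → S) → ℝ}
variable {N : Type} [Fintype N] [DecidableEq N] {sN : N → Bool}
variable {E' : Multiset ((V ⊕ N) × ℕ × (V ⊕ N))}

/-- the weight of the new vertices -/
noncomputable def nw (A : Matrix S S ℝ) (μ : S → ℝ) (c : S → Bool) (sN : N → Bool)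
    (E' : Multiset ((V ⊕ N) × ℕ × (V ⊕ N))) (z : V → S) (y : N → S) : ℝ :=
  mus sN μ c y * kapE A μ E' (Sum.elim z y)

/-- the total weight of the new vertices -/
noncomputable def zw (A : Matrix S S ℝ) (μ : S → ℝ) (c : S → Bool) (sN : N → Bool)
    (E' : Multiset ((V ⊕ N) × ℕ × (V ⊕ N))) (z : V → S) : ℝ :=
  ∑ y, nw A μ c sN E' z y

/-- the law after adding new vertices -/
noncomputable def extP (A : Matrix S S ℝ) (μ : S → ℝ) (c : S → Bool) (sN : N → Bool)
    (E' : Multiset ((V ⊕ N) × ℕ × (V ⊕ N))) (P : (V → S) → ℝ) (w : V ⊕ N → S) : ℝ :=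
  P (fun v => w (.inl v)) * (nw A μ c sN E' (fun v => w (.inl v)) (fun n => w (.inr n)) /
    zw A μ c sN E' (fun v => w (.inl v)))

theorem nw_nonneg (h : Rev A μ c) (z : V → S) (y : N → S) : 0 ≤ nw A μ c sN E' z y :=
  mul_nonneg (mus_nonneg h _ _) (kapE_nonneg h _ _)

theorem zw_nonneg (h : Rev A μ c) (z : V → S) : 0 ≤ zw A μ c sN E' z :=
  Finset.sum_nonneg fun y _ => nw_nonneg h z y

theorem extP_nonneg (h : Rev A μ c) (hP : ∀ z, 0 ≤ P z) (w : V ⊕ N → S) :
    0 ≤ extP A μ c sN E' P w :=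
  mul_nonneg (hP _) (div_nonneg (nw_nonneg h _ _) (zw_nonneg h _))

/-- the old vertices keep their law -/
theorem extP_sum (hZ : ∀ z, P z ≠ 0 → zw A μ c sN E' z ≠ 0) (G : (V → S) → ℝ) :
    ∑ w, extP A μ c sN E' P w * G (fun v => w (.inl v)) = ∑ z, P z * G z := by
  rw [sum_arrow]
  refine Finset.sum_congr rfl fun z _ => ?_
  have h1 : ∀ y : N → S, extP A μ c sN E' P (Sum.elim z y) *
      G (fun v => Sum.elim z y (.inl v)) = (P z * G z / zw A μ c sN E' z) *
        nw A μ c sN E' z y := by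
    intro y
    change P z * (nw A μ c sN E' z y / zw A μ c sN E' z) * G z = _
    ring
  rw [Finset.sum_congr rfl fun y _ => h1 y, ← Finset.mul_sum]
  change P z * G z / zw A μ c sN E' z * zw A μ c sN E' z = _
  by_cases h0 : P z = 0
  · rw [h0]; ring
  · exact div_mul_cancel₀ _ (hZ z h0)

theorem extP_pos (h : Rev A μ c) (hP : ∀ z, 0 ≤ P z) {w : V ⊕ N → S}
    (hw : 0 < extP A μ c sN E' P w) :
    0 < P (fun v => w (.inl v)) ∧
      0 < nw A μ c sN E' (fun v => w (.inl v)) (fun n => w (.inr n)) ∧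
        0 < zw A μ c sN E' (fun v => w (.inl v)) := by
  unfold extP at hw
  have h1 : P (fun v => w (.inl v)) ≠ 0 := fun h0 => by
    rw [h0, zero_mul] at hw; exact lt_irrefl _ hw
  have h2 : nw A μ c sN E' (fun v => w (.inl v)) (fun n => w (.inr n)) ≠ 0 := fun h0 => by
    rw [h0, zero_div, mul_zero] at hw; exact lt_irrefl _ hw
  have h3 : zw A μ c sN E' (fun v => w (.inl v)) ≠ 0 := fun h0 => by
    rw [h0, div_zero, mul_zero] at hw; exact lt_irrefl _ hw
  exact ⟨lt_of_le_of_ne (hP _) h1.symm, lt_of_le_of_ne (nw_nonneg h _ _) h2.symm,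
    lt_of_le_of_ne (zw_nonneg h _) h3.symm⟩

/-- Adding new vertices. The factor `ℓ` of the old weight is replaced by the new edges. -/
theorem LawF.ext (h : Rev A μ c) {L L₂ : Multiset (V × ℕ × V)} {ℓ : (V → S) → ℝ}
    (hL : ∀ z, kapE A μ L z = ℓ z * kapE A μ L₂ z) (hP : LawF L side A μ c P)
    (hZ : ∀ z, P z ≠ 0 → zw A μ c sN E' z ≠ 0)
    (hE : ∑ z, P z * Real.log (ℓ z) ≤ ∑ z, P z * Real.log (zw A μ c sN E' z)) :
    LawF (L₂.map (emap .inl) + E') (Sum.elim side sN) A μ c (extP A μ c sN E' P) := by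
  have split : ∀ w : V ⊕ N → S, mus (Sum.elim side sN) μ c w *
      kapE A μ (L₂.map (emap .inl) + E') w =
      mus side μ c (fun v => w (.inl v)) * kapE A μ L₂ (fun v => w (.inl v)) *
        nw A μ c sN E' (fun v => w (.inl v)) (fun n => w (.inr n)) := by
    intro w
    have hw : w = Sum.elim (fun v => w (.inl v)) (fun n => w (.inr n)) := by
      funext v; rcases v with v | v <;> rfl
    rw [kapE_add, kapE_map]
    conv_lhs => rw [hw]
    rw [mus_sumElim]
    simp only [Sum.elim_inl]
    unfold nw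
    ring
  have pos : ∀ z, 0 < P z → mus side μ c z ≠ 0 ∧ ℓ z ≠ 0 ∧ kapE A μ L₂ z ≠ 0 := by
    intro z hz
    have h1 := hP.supp z hz
    rw [hL z] at h1
    refine ⟨fun h0 => ?_, fun h0 => ?_, fun h0 => ?_⟩ <;>
      · rw [h0] at h1; simp at h1
  refine ⟨fun w => extP_nonneg h hP.nonneg w, ?_, fun w hw => ?_, ?_⟩
  · have h1 := extP_sum (P := P) hZ (fun _ => 1)
    simp only [mul_one] at h1
    rw [h1, hP.sum]
  · obtain ⟨p1, p2, _⟩ := extP_pos h hP.nonneg hw
    obtain ⟨n1, _, n3⟩ := pos _ p1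
    rw [split]
    exact mul_pos (mul_pos (lt_of_le_of_ne (mus_nonneg h _ _) n1.symm)
      (lt_of_le_of_ne (kapE_nonneg h _ _) n3.symm)) p2
  · have h1 := extP_sum (P := P) hZ (fun z =>
      (Real.log (mus side μ c z * kapE A μ L z) - Real.log (P z)) -
        Real.log (ℓ z) + Real.log (zw A μ c sN E' z))
    have h2 : ∑ w, extP A μ c sN E' P w *
        (Real.log (mus (Sum.elim side sN) μ c w * kapE A μ (L₂.map (emap .inl) + E') w) -
          Real.log (extP A μ c sN E' P w)) =
        ∑ w, extP A μ c sN E' P w * ((Real.log (mus side μ c (fun v => w (.inl v)) *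
          kapE A μ L (fun v => w (.inl v))) - Real.log (P (fun v => w (.inl v)))) -
            Real.log (ℓ (fun v => w (.inl v))) +
              Real.log (zw A μ c sN E' (fun v => w (.inl v)))) := by
      refine Finset.sum_congr rfl fun w _ => ?_
      rcases (extP_nonneg (sN := sN) (E' := E') h hP.nonneg w).eq_or_lt with h0 | h0
      · rw [← h0, zero_mul, zero_mul]
      · obtain ⟨p1, p2, p3⟩ := extP_pos h hP.nonneg h0
        obtain ⟨n1, n2, n3⟩ := pos _ p1
        congr 1
        rw [split, hL, Real.log_mul (mul_ne_zero n1 n3) p2.ne', Real.log_mul n1 n3,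
          Real.log_mul n1 (mul_ne_zero n2 n3), Real.log_mul n2 n3]
        unfold extP
        rw [Real.log_mul p1.ne' (div_pos p2 p3).ne', Real.log_div p2.ne' p3.ne']
        ring
    rw [h2, h1]
    have h3 : ∑ z, P z * ((Real.log (mus side μ c z * kapE A μ L z) - Real.log (P z)) -
        Real.log (ℓ z) + Real.log (zw A μ c sN E' z)) =
        ∑ z, P z * (Real.log (mus side μ c z * kapE A μ L z) - Real.log (P z)) -
          ∑ z, P z * Real.log (ℓ z) + ∑ z, P z * Real.log (zw A μ c sN E' z) := by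
      rw [← Finset.sum_sub_distrib, ← Finset.sum_add_distrib]
      exact Finset.sum_congr rfl fun z _ => by ring
    rw [h3]
    have := hP.ent
    linarith

/-- old records -/
theorem MargT.ext_old (h : Rev A μ c) {r : Set V × Multiset (V × ℕ × V)}
    (hZ : ∀ z, P z ≠ 0 → zw A μ c sN E' z ≠ 0) (hm : MargT A μ c side P r) :
    MargT A μ c (Sum.elim side sN) (extP A μ c sN E' P) (tmap .inl r) := by
  intro F hF
  -- the function of the old vertices
  have key : ∀ (z : V → S) (y : N → S), F (Sum.elim z y) =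
      ∑ y' : N → S, mus sN μ c y' * F (Sum.elim z y') := by
    intro z y
    have h1 : ∀ y' : N → S, F (Sum.elim z y') = F (Sum.elim z y) := fun y' =>
      hF _ _ fun v hv => by
        obtain ⟨u, _, rfl⟩ := hv
        rfl
    simp only [h1]
    rw [← Finset.sum_mul, mus_sum h, one_mul]
  have elim : ∀ w : V ⊕ N → S, w = Sum.elim (fun v => w (.inl v)) (fun n => w (.inr n)) := by
    intro w; funext v; rcases v with v | v <;> rfl
  have h1 : ∀ w : V ⊕ N → S, F w =
      ∑ y' : N → S, mus sN μ c y' * F (Sum.elim (fun v => w (.inl v)) y') := by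
    intro w
    conv_lhs => rw [elim w]
    exact key _ _
  have h2 := extP_sum (P := P) (sN := sN) (E' := E') hZ
    (fun z => ∑ y' : N → S, mus sN μ c y' * F (Sum.elim z y'))
  calc ∑ w, extP A μ c sN E' P w * F w
      = ∑ w, extP A μ c sN E' P w *
        ∑ y' : N → S, mus sN μ c y' * F (Sum.elim (fun v => w (.inl v)) y') :=
        Finset.sum_congr rfl fun w _ => by rw [← h1]
    _ = ∑ z, P z * ∑ y' : N → S, mus sN μ c y' * F (Sum.elim z y') := h2
    _ = ∑ z, mus side μ c z * kapE A μ r.2 z *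
        ∑ y' : N → S, mus sN μ c y' * F (Sum.elim z y') := by
        refine hm _ fun z z' hz => ?_
        refine Finset.sum_congr rfl fun y' _ => ?_
        congr 1
        exact hF _ _ fun v hv => by
          obtain ⟨u, hu, rfl⟩ := hv
          exact hz u hu
    _ = _ := by
        rw [sum_arrow]
        refine Finset.sum_congr rfl fun z _ => ?_
        rw [Finset.mul_sum]
        refine Finset.sum_congr rfl fun y _ => ?_
        rw [mus_sumElim]
        change _ = mus side μ c z * mus sN μ c y * kapE A μ (r.2.map (emap (Sum.inl : V → V ⊕ N))) _ * _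
        rw [kapE_map]
        simp only [Sum.elim_inl]
        ring

theorem nw_dep {U' : Set (V ⊕ N)}
    (hE' : ∀ p ∈ E', (∀ v, p.1 = .inl v → .inl v ∈ U') ∧ ∀ v, p.2.2 = .inl v → .inl v ∈ U')
    (z z' : V → S) (hz : ∀ v, .inl v ∈ U' → z v = z' v) (y : N → S) :
    nw A μ c sN E' z y = nw A μ c sN E' z' y := by
  unfold nw
  congr 1
  refine kapE_congr fun p hp => ⟨?_, ?_⟩
  · have h1 := (hE' p hp).1
    rcases h2 : p.1 with v | n
    · exact hz v (h1 v h2)
    · rfl
  · have h1 := (hE' p hp).2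
    rcases h2 : p.2.2 with v | n
    · exact hz v (h1 v h2)
    · rfl

/-- new records -/
theorem MargT.ext_new (h : Rev A μ c) {U : Set V} {E E₁ : Multiset (V × ℕ × V)}
    {U' : Set (V ⊕ N)} {E'' : Multiset ((V ⊕ N) × ℕ × (V ⊕ N))}
    (hm : MargT A μ c side P (U, E))
    (hU : ∀ v, .inl v ∈ U' → v ∈ U)
    (hE' : ∀ p ∈ E', (∀ v, p.1 = .inl v → .inl v ∈ U') ∧ ∀ v, p.2.2 = .inl v → .inl v ∈ U')
    (hE'' : ∀ (z : V → S) (y : N → S), kapE A μ E'' (Sum.elim z y) =
      kapE A μ E₁ z * kapE A μ E' (Sum.elim z y))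
    (hs : ∀ G : (V → S) → ℝ, (∀ z z' : V → S, (∀ v, .inl v ∈ U' → z v = z' v) → G z = G z') →
      ∑ z, mus side μ c z * kapE A μ E z * G z =
        ∑ z, mus side μ c z * kapE A μ E₁ z * zw A μ c sN E' z * G z) :
    MargT A μ c (Sum.elim side sN) (extP A μ c sN E' P) (U', E'') := by
  intro F hF
  have dep : ∀ z z' : V → S, (∀ v, .inl v ∈ U' → z v = z' v) → ∀ y : N → S,
      nw A μ c sN E' z y = nw A μ c sN E' z' y := nw_dep hE'
  have depF : ∀ z z' : V → S, (∀ v, .inl v ∈ U' → z v = z' v) → ∀ y : N → S,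
      F (Sum.elim z y) = F (Sum.elim z' y) := by
    intro z z' hz y
    refine hF _ _ fun v hv => ?_
    rcases v with v | n
    · exact hz v hv
    · rfl
  have depG : ∀ z z' : V → S, (∀ v, .inl v ∈ U' → z v = z' v) →
      ∑ y, nw A μ c sN E' z y / zw A μ c sN E' z * F (Sum.elim z y) =
        ∑ y, nw A μ c sN E' z' y / zw A μ c sN E' z' * F (Sum.elim z' y) := by
    intro z z' hz
    have hzw : zw A μ c sN E' z = zw A μ c sN E' z' :=
      Finset.sum_congr rfl fun y _ => dep z z' hz y
    exact Finset.sum_congr rfl fun y _ => by rw [hzw, dep z z' hz y, depF z z' hz y]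
  calc ∑ w, extP A μ c sN E' P w * F w
      = ∑ z, P z * ∑ y, nw A μ c sN E' z y / zw A μ c sN E' z * F (Sum.elim z y) := by
        rw [sum_arrow]
        refine Finset.sum_congr rfl fun z _ => ?_
        rw [Finset.mul_sum]
        refine Finset.sum_congr rfl fun y _ => ?_
        change P z * (nw A μ c sN E' z y / zw A μ c sN E' z) * F _ = _
        ring
    _ = ∑ z, mus side μ c z * kapE A μ E z *
        ∑ y, nw A μ c sN E' z y / zw A μ c sN E' z * F (Sum.elim z y) :=
        hm _ fun z z' hz => depG z z' fun v hv => hz v (hU v hv)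
    _ = ∑ z, mus side μ c z * kapE A μ E₁ z * zw A μ c sN E' z *
        ∑ y, nw A μ c sN E' z y / zw A μ c sN E' z * F (Sum.elim z y) := hs _ depG
    _ = _ := by
        rw [sum_arrow]
        refine Finset.sum_congr rfl fun z _ => ?_
        rw [Finset.mul_sum]
        refine Finset.sum_congr rfl fun y _ => ?_
        rw [mus_sumElim]
        change _ = mus side μ c z * mus sN μ c y * kapE A μ E'' (Sum.elim z y) *
          F (Sum.elim z y)
        rw [hE'']
        have h1 : zw A μ c sN E' z * (nw A μ c sN E' z y / zw A μ c sN E' z) =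
            nw A μ c sN E' z y := by
          by_cases h0 : zw A μ c sN E' z = 0
          · have h2 := (Finset.sum_eq_zero_iff_of_nonneg fun y' _ =>
              nw_nonneg (sN := sN) (E' := E') h z y').1 h0 y (mem_univ y)
            rw [h0, h2]; ring
          · exact mul_div_cancel₀ _ h0
        calc mus side μ c z * kapE A μ E₁ z * zw A μ c sN E' z *
            (nw A μ c sN E' z y / zw A μ c sN E' z * F (Sum.elim z y))
            = mus side μ c z * kapE A μ E₁ z * (zw A μ c sN E' z *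
              (nw A μ c sN E' z y / zw A μ c sN E' z)) * F (Sum.elim z y) := by ring
          _ = _ := by rw [h1]; unfold nw; ring

/-- the inductive statement -/
structure FOK {V : Type} (L : Multiset (V × ℕ × V)) (R : Set (Set V × Multiset (V × ℕ × V)))
    (iF : Fintype V) (iD : DecidableEq V) (side : V → Bool) : Prop where
  virt : TOK side L
  rok : ∀ r ∈ R, TOK side r.2
  law : ∀ (S : Type) [Fintype S] [DecidableEq S] (A : Matrix S S ℝ) (μ : S → ℝ) (c : S → Bool),
    Rev A μ c → ∃ P : (V → S) → ℝ, LawF L side A μ c P ∧ ∀ r ∈ R, MargT A μ c side P r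

/-- the sides of the vertices with positive weight -/
theorem mus_side {z : V → S} (hz : mus side μ c z ≠ 0) (v : V) : c (z v) = side v := by
  by_contra h0
  exact hz (Finset.prod_eq_zero (mem_univ v) (if_neg h0))

theorem LawF.mus_ne {L : Multiset (V × ℕ × V)} (hP : LawF L side A μ c P) {z : V → S}
    (hz : P z ≠ 0) : mus side μ c z ≠ 0 := fun h0 => by
  have h1 := hP.supp z (lt_of_le_of_ne (hP.nonneg z) hz.symm)
  rw [h0, zero_mul] at h1
  exact lt_irrefl _ h1

theorem sum_unit (G : (Unit → S) → ℝ) : ∑ y, G y = ∑ x, G fun _ => x :=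
  ((Equiv.funUnique Unit S).symm.sum_comp G).symm

theorem kap_row (h : Rev A μ c) {x : S} {s : Bool} (hx : c x = s) (d : ℕ) :
    ∑ y, (if c y = sh s d then μ y else 0) * kap A μ d x y = 1 := by
  rw [← h.pow_row d x]
  refine Finset.sum_congr rfl fun y _ => ?_
  by_cases hy : c y = sh s d
  · rw [if_pos hy, h.pow_eq, mul_comm]
  · rw [if_neg hy, zero_mul, h.pow_alt d x y (by rw [hx]; exact hy)]

theorem kap_mid (h : Rev A μ c) {x : S} {s : Bool} (hx : c x = s) (d d' : ℕ) (y : S) :
    ∑ w, (if c w = sh s d then μ w else 0) * (kap A μ d x w * kap A μ d' w y) =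
      kap A μ (d + d') x y := by
  rw [h.kap_add]
  refine Finset.sum_congr rfl fun w _ => ?_
  by_cases hw : c w = sh s d
  · rw [if_pos hw]; ring
  · have h1 : kap A μ d x w = 0 := by
      unfold kap
      rw [h.pow_alt d x w (by rw [hx]; exact hw), zero_div]
    rw [if_neg hw, h1]; ring

end Vale.Agent.P050.SP
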