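import Vale.Agent.P050.R4.H859.CopyStep

/-!
# P050, frames: the product measure and injections
-/

namespace Vale.Agent.P050.SP

open Finset Matrix Vale.Agent.P050.Ears Vale.Agent.P050.Lev

variable {S : Type} [Fintype S] [DecidableEq S] {A : Matrix S S ℝ} {μ : S → ℝ} {c : S → Bool}
variable {V V' W N : Type} [Fintype V] [DecidableEq V] [Fintype V'] [DecidableEq V']
variable [Fintype W] [DecidableEq W] [Fintype N] [DecidableEq N]
variable {side : V → Bool} {side' : V' → Bool} {sW : W → Bool}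

theorem mus_equiv (e : V ≃ W) (hs : ∀ v, sW (e v) = side v) (Ψ : (V → S) → ℝ) :
    ∑ z : W → S, mus sW μ c z * Ψ (fun v => z (e v)) = ∑ x, mus side μ c x * Ψ x := by
  rw [← Equiv.sum_comp (e.arrowCongr (Equiv.refl S))]
  refine Finset.sum_congr rfl fun x _ => ?_
  have h1 : (fun v => (e.arrowCongr (Equiv.refl S)) x (e v)) = x := by
    funext v
    simp [Equiv.arrowCongr]
  rw [h1]
  congr 1
  unfold mus
  rw [← Equiv.prod_comp e]
  refine Finset.prod_congr rfl fun v _ => ?_
  have h2 : (e.arrowCongr (Equiv.refl S)) x (e v) = x v := congrFun h1 v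
  rw [h2, hs]

/-- the product measure and an injection -/
theorem mus_inj (h : Rev A μ c) {ρ : V' → W} (hi : Function.Injective ρ)
    (hs : ∀ v, sW (ρ v) = side' v) (Ψ : (V' → S) → ℝ) :
    ∑ z : W → S, mus sW μ c z * Ψ (fun v => z (ρ v)) = ∑ x, mus side' μ c x * Ψ x := by
  classical
  let e : V' ⊕ ((Set.range ρ)ᶜ : Set W) ≃ W :=
    (Equiv.sumCongr (Equiv.ofInjective ρ hi) (Equiv.refl _)).trans
      (Equiv.Set.sumCompl (Set.range ρ))
  have he : ∀ v, e (.inl v) = ρ v := fun v => by simp [e]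
  rw [← mus_old (sN := fun w : ((Set.range ρ)ᶜ : Set W) => sW w.1) h Ψ]
  have h1 := mus_equiv (μ := μ) (c := c) (sW := sW)
    (side := Sum.elim side' fun w : ((Set.range ρ)ᶜ : Set W) => sW w.1) e (fun v => by
      rcases v with v | w
      · rw [he]; exact hs v
      · simp [e]) (fun x => Ψ fun v => x (.inl v))
  simp only [he] at h1
  exact h1

/-- the values at the vertices outside the range of `g` only -/
theorem mus_kept (h : Rev A μ c) {g : N → V'} {τ : V' → V}
    (hτ : ∀ u v, (∀ n, g n ≠ u) → (∀ n, g n ≠ v) → τ u = τ v → u = v)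
    (hs : ∀ v, (∀ n, g n ≠ v) → side (τ v) = side' v) {G : (V' → S) → ℝ}
    (hG : DepK g Set.univ G) :
    ∑ z : V → S, mus side μ c z * G (fun v => z (τ v)) = ∑ x, mus side' μ c x * G x := by
  classical
  have hS : Nonempty S := by
    by_contra hS
    rw [not_nonempty_iff] at hS
    have h1 := h.mass true
    simp at h1
  obtain ⟨s⟩ := hS
  let K' := {v : V' // ∀ n, g n ≠ v}
  let G' : (K' → S) → ℝ := fun y => G fun v => if hv : ∀ n, g n ≠ v then y ⟨v, hv⟩ else s
  have h1 : ∀ x : V' → S, G x = G' fun k => x k.1 := fun x => hG _ _ fun v _ hv => by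
    rw [dif_pos hv]
  have h2 := mus_inj (μ := μ) (c := c) (side' := fun k : K' => side' k.1) (sW := side) h
    (ρ := fun k : K' => τ k.1) (fun a b hab => Subtype.ext (hτ _ _ a.2 b.2 hab))
    (fun k => hs _ k.2) G'
  have h3 := mus_inj (μ := μ) (c := c) (side' := fun k : K' => side' k.1) (sW := side') h
    (ρ := fun k : K' => k.1) (fun a b hab => Subtype.ext hab) (fun k => rfl) G'
  calc ∑ z : V → S, mus side μ c z * G (fun v => z (τ v))
      = ∑ z : V → S, mus side μ c z * G' (fun k => z (τ k.1)) :=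
        Finset.sum_congr rfl fun z _ => by rw [h1]
    _ = ∑ y, mus (fun k : K' => side' k.1) μ c y * G' y := h2
    _ = ∑ x, mus side' μ c x * G' (fun k => x k.1) := h3.symm
    _ = _ := Finset.sum_congr rfl fun x _ => by rw [h1]

/-- two laws with the same record on the kept vertices agree there -/
theorem same_law (h : Rev A μ c) {g : N → V'} {τ : V' → V}
    (hτ : ∀ u v, (∀ n, g n ≠ u) → (∀ n, g n ≠ v) → τ u = τ v → u = v)
    (hs : ∀ v, (∀ n, g n ≠ v) → side (τ v) = side' v) {P : (V → S) → ℝ} {P' : (V' → S) → ℝ}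
    {E : Multiset (V' × ℕ × V')} (hE : ∀ p ∈ E, ∀ n, g n ≠ p.1 ∧ g n ≠ p.2.2)
    (hm : MargT A μ c side P (tmap τ ({v | ∀ n, g n ≠ v}, E)))
    (hm' : MargT A μ c side' P' ({v | ∀ n, g n ≠ v}, E)) {G : (V' → S) → ℝ}
    (hG : DepK g Set.univ G) :
    ∑ z, P z * G (fun v => z (τ v)) = ∑ x, P' x * G x := by
  have hk : DepK g Set.univ (kapE A μ E) := fun z z' hz => kapE_congr fun p hp =>
    ⟨hz _ (Set.mem_univ _) fun n => (hE p hp n).1, hz _ (Set.mem_univ _) fun n => (hE p hp n).2⟩
  have hd : DepK g Set.univ fun x => kapE A μ E x * G x := fun z z' hz => by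
    beta_reduce
    rw [hk z z' hz, hG z z' hz]
  have e1 := hm (fun z => G fun v => z (τ v)) fun z z' hz => hG _ _ fun v _ hv =>
    hz _ ⟨v, hv, rfl⟩
  have e2 := hm' G fun z z' hz => hG _ _ fun v _ hv => hz v hv
  rw [e1, e2]
  have e3 := mus_kept (side := side) (side' := side') h hτ hs hd
  refine Eq.trans (Finset.sum_congr rfl fun z _ => ?_) (e3.trans
    (Finset.sum_congr rfl fun z _ => ?_))
  · change mus side μ c z * kapE A μ (E.map (emap τ)) z * _ = _
    rw [kapE_map]
    ring
  · ring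

end Vale.Agent.P050.SP
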