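import Vale.Agent.P050.R4.H153.MfSem
import Vale.Agent.P050.R4.H153.FrStep
import Vale.Agent.P050.R4.H859.CopyLaw

/-!
# P050, mirrored frames: the inductive statement
-/

namespace Vale.Agent.P050.SP

open Finset Matrix Vale.Agent.P050.Ears Vale.Agent.P050.Lev

/-- the inductive statement -/
structure MOK {V : Type} (L : Multiset (V × ℕ × V)) (M : Multiset (V × SP × V))
    (R : Set (Set V × Multiset (V × ℕ × V))) (B : Set (Blk V)) (iF : Fintype V)
    (iD : DecidableEq V) (side : V → Bool) : Prop where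
  virt : TOK side L
  prt : ∀ q ∈ M, side q.2.2 = sh (side q.1) (len q.2.1) ∧ bip q.2.1
  rok : ∀ r ∈ R, TOK side r.2
  bok : ∀ b ∈ B, TOK side b.2.1 ∧
    ∀ q ∈ b.2.2, side q.2.2 = sh (side q.1) (len q.2.1) ∧ bip q.2.1
  law : ∀ (S : Type) [Fintype S] [DecidableEq S] (A : Matrix S S ℝ) (μ : S → ℝ) (c : S → Bool),
    Rev A μ c → ∃ P : (V → S) → ℝ,
      LawW (fun z => kapE A μ L z * partE A μ M z) side μ c P ∧
        (∀ r ∈ R, MargT A μ c side P r) ∧
          ∀ b ∈ B, BalW μ c side P b.1 fun z => kapE A μ b.2.1 z * partE A μ b.2.2 z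

theorem prt_old {V : Type} {M : Multiset (V × SP × V)} {side : V → Bool} {N : Type}
    {sN : N → Bool} (hM : ∀ q ∈ M, side q.2.2 = sh (side q.1) (len q.2.1) ∧ bip q.2.1) :
    ∀ q ∈ M.map (pmap (Sum.inl : V → V ⊕ N)),
      Sum.elim side sN q.2.2 = sh (Sum.elim side sN q.1) (len q.2.1) ∧ bip q.2.1 := by
  intro q hq
  obtain ⟨p, hp, rfl⟩ := Multiset.mem_map.1 hq
  exact hM p hp

theorem bok_old {V : Type} {B : Set (Blk V)} {side : V → Bool} {N : Type} {sN : N → Bool}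
    (hB : ∀ b ∈ B, TOK side b.2.1 ∧
      ∀ q ∈ b.2.2, side q.2.2 = sh (side q.1) (len q.2.1) ∧ bip q.2.1) :
    ∀ b ∈ oldB N B, TOK (Sum.elim side sN) b.2.1 ∧
      ∀ q ∈ b.2.2, Sum.elim side sN q.2.2 = sh (Sum.elim side sN q.1) (len q.2.1) ∧
        bip q.2.1 := by
  rintro b ⟨b₀, h0, rfl⟩
  exact ⟨TOK.old (hB b₀ h0).1, prt_old (hB b₀ h0).2⟩

variable {S : Type} [Fintype S] [DecidableEq S] {A : Matrix S S ℝ} {μ : S → ℝ} {c : S → Bool}
variable {V : Type} [Fintype V] [DecidableEq V] {side : V → Bool} {P : (V → S) → ℝ}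
variable {N : Type} [Fintype N] [DecidableEq N] {sN : N → Bool}
variable {f : (V ⊕ N → S) → ℝ}

/-- old balanced sets -/
theorem bal_old (h : Rev A μ c) (hZ : ∀ z, P z ≠ 0 → zwG μ c sN f z ≠ 0) {B : Set (Blk V)}
    (hB : ∀ b ∈ B, BalW μ c side P b.1 fun z => kapE A μ b.2.1 z * partE A μ b.2.2 z) :
    ∀ b ∈ oldB N B, BalW μ c (Sum.elim side sN) (extG μ c sN f P) b.1
      fun z => kapE A μ b.2.1 z * partE A μ b.2.2 z := by
  rintro b ⟨b₀, h0, rfl⟩
  have h1 := (hB b₀ h0).ext_oldG h hZ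
  have h2 : (fun z : V ⊕ N → S => kapE A μ (bmap .inl b₀).2.1 z *
      partE A μ (bmap .inl b₀).2.2 z) =
      fun z => kapE A μ b₀.2.1 (fun v => z (.inl v)) *
        partE A μ b₀.2.2 (fun v => z (.inl v)) := by
    funext z
    change kapE A μ (b₀.2.1.map (emap .inl)) z * partE A μ (b₀.2.2.map (pmap .inl)) z = _
    rw [kapE_map, partE_map]
  rw [h2]
  exact h1

end Vale.Agent.P050.SP
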