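import Vale.Agent.P050.R4.H153.Glue
import Vale.Agent.P050.R4.H859.CopyMok
import Vale.Agent.P050.R4.H345.Flip

/-!
# P050, frames: gluing two frames
-/

namespace Vale.Agent.P050.SP

open Finset Matrix Vale.Agent.P050.Ears Vale.Agent.P050.Lev

variable {V V' : Type} {L : Multiset (V × ℕ × V)} {M : Multiset (V × SP × V)}
variable {R : Set (Set V × Multiset (V × ℕ × V))} {B : Set (Blk V)}
variable {iF : Fintype V} {iD : DecidableEq V} {side : V → Bool}
variable {L' E' E : Multiset (V' × ℕ × V')} {M' : Multiset (V' × SP × V')}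
variable {R' : Set (Set V' × Multiset (V' × ℕ × V'))} {B' : Set (Blk V')}
variable {iF' : Fintype V'} {iD' : DecidableEq V'} {side' : V' → Bool}

theorem glue_side {N : Type} {g : N → V'} {τ : V' → V} {ρ : V' → V ⊕ N}
    (hg : ∀ n, ρ (g n) = .inr n) (hρ : ∀ v, (∀ n, g n ≠ v) → ρ v = .inl (τ v))
    (hs : ∀ v, (∀ n, g n ≠ v) → side (τ v) = side' v) (v : V') :
    Sum.elim side (fun n => side' (g n)) (ρ v) = side' v := by
  by_cases hn : ∃ n, g n = v
  · obtain ⟨n, rfl⟩ := hn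
    rw [hg]
    rfl
  · push Not at hn
    rw [hρ v hn]
    exact hs v hn

theorem glue_rho_inj {N : Type} {g : N → V'} {τ : V' → V} {ρ : V' → V ⊕ N}
    (hg : ∀ n, ρ (g n) = .inr n) (hρ : ∀ v, (∀ n, g n ≠ v) → ρ v = .inl (τ v))
    (hτ : ∀ u v, (∀ n, g n ≠ u) → (∀ n, g n ≠ v) → τ u = τ v → u = v) :
    Function.Injective ρ := by
  intro u v huv
  by_cases hu : ∃ n, g n = u
  · obtain ⟨n, rfl⟩ := hu
    by_cases hv : ∃ m, g m = v
    · obtain ⟨m, rfl⟩ := hv
      rw [hg, hg] at huv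
      rw [Sum.inr.inj huv]
    · push Not at hv
      rw [hg, hρ v hv] at huv
      exact absurd huv (by simp)
  · push Not at hu
    by_cases hv : ∃ m, g m = v
    · obtain ⟨m, rfl⟩ := hv
      rw [hg, hρ u hu] at huv
      exact absurd huv (by simp)
    · push Not at hv
      rw [hρ u hu, hρ v hv] at huv
      exact hτ u v hu hv (Sum.inl.inj huv)

/-- Two frames are glued along a common recorded tree (the sides agree). -/
theorem MOK.glue' {N : Type} {g : N → V'} {τ : V' → V} {ρ : V' → V ⊕ N}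
    {iN : Fintype N} {iE : DecidableEq N} (hT : MOK L M R B iF iD side)
    (hT' : MOK (L' + E') M' R' B' iF' iD' side') (hr' : ({v | ∀ n, g n ≠ v}, E) ∈ R')
    (hr : tmap τ ({v | ∀ n, g n ≠ v}, E) ∈ R)
    (hτ : ∀ u v, (∀ n, g n ≠ u) → (∀ n, g n ≠ v) → τ u = τ v → u = v)
    (hs : ∀ v, (∀ n, g n ≠ v) → side (τ v) = side' v)
    (hE : ∀ p ∈ E + E', ∀ n, g n ≠ p.1 ∧ g n ≠ p.2.2) (hF : Forest E')
    (hg : ∀ n, ρ (g n) = .inr n) (hρ : ∀ v, (∀ n, g n ≠ v) → ρ v = .inl (τ v)) :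
    MOK (L.map (emap .inl) + L'.map (emap ρ)) (M.map (pmap .inl) + M'.map (pmap ρ))
      (oldT N R ∪ {r | ∃ r₀ ∈ R', r = tmap ρ r₀}) (oldB N B ∪ {b | ∃ b₀ ∈ B', b = bmap ρ b₀})
      inferInstance inferInstance (Sum.elim side fun n => side' (g n)) := by
  have gs := glue_side (side := side) (side' := side') hg hρ hs
  have tm : ∀ E : Multiset (V' × ℕ × V'), TOK side' E →
      TOK (Sum.elim side fun n => side' (g n)) (E.map (emap ρ)) := by
    intro E hE p hp
    obtain ⟨q, hq, rfl⟩ := Multiset.mem_map.1 hp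
    change Sum.elim side _ (ρ q.2.2) = sh (Sum.elim side _ (ρ q.1)) q.2.1
    rw [gs, gs]
    exact hE q hq
  have pm : ∀ M : Multiset (V' × SP × V'),
      (∀ q ∈ M, side' q.2.2 = sh (side' q.1) (len q.2.1) ∧ bip q.2.1) →
      ∀ q ∈ M.map (pmap ρ), Sum.elim side (fun n => side' (g n)) q.2.2 =
        sh (Sum.elim side (fun n => side' (g n)) q.1) (len q.2.1) ∧ bip q.2.1 := by
    intro M hM p hp
    obtain ⟨q, hq, rfl⟩ := Multiset.mem_map.1 hp
    change Sum.elim side _ (ρ q.2.2) = sh (Sum.elim side _ (ρ q.1)) (len q.2.1) ∧ bip q.2.1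
    rw [gs, gs]
    exact hM q hq
  have tL : TOK side' L' := fun p hp => hT'.virt p (Multiset.mem_add.2 (Or.inl hp))
  have tE' : TOK side' E' := fun p hp => hT'.virt p (Multiset.mem_add.2 (Or.inr hp))
  refine ⟨?_, ?_, ?_, ?_, fun S _ _ A μ c h => ?_⟩
  · intro p hp
    rcases Multiset.mem_add.1 hp with hp | hp
    · exact TOK.old hT.virt p hp
    · exact tm L' tL p hp
  · intro p hp
    rcases Multiset.mem_add.1 hp with hp | hp
    · exact prt_old hT.prt p hp
    · exact pm M' hT'.prt p hp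
  · rintro r (⟨r₀, h0, rfl⟩ | ⟨r₀, h0, rfl⟩)
    · exact TOK.old (hT.rok r₀ h0)
    · exact tm _ (hT'.rok _ h0)
  · rintro r (⟨r₀, h0, rfl⟩ | ⟨r₀, h0, rfl⟩)
    · exact ⟨TOK.old (hT.bok r₀ h0).1, prt_old (hT.bok r₀ h0).2⟩
    · exact ⟨tm _ (hT'.bok _ h0).1, pm _ (hT'.bok _ h0).2⟩
  · obtain ⟨P, hP, hR, hB⟩ := hT.law S A μ c h
    obtain ⟨P', hP', hR', hB'⟩ := hT'.law S A μ c h
    have hS : Nonempty S := by
      by_contra hS
      rw [not_nonempty_iff] at hS
      have h1 := h.mass true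
      simp at h1
    obtain ⟨s⟩ := hS
    have e1 : (fun x => kapE A μ (L' + E') x * partE A μ M' x) =
        fun x => (kapE A μ L' x * partE A μ M' x) * kapE A μ E' x := by
      funext x
      rw [kapE_add]
      ring
    rw [e1] at hP'
    obtain ⟨Q, hQ, h1, h2⟩ := LawW.glue h hg hρ hP hP'
      (fun G hG => same_law h hτ hs (fun p hp => hE p (Multiset.mem_add.2 (Or.inl hp)))
        (hR _ hr) (hR' _ hr') hG)
      (fun x => mul_nonneg (kapE_nonneg h _ _) (partE_nonneg h _ _)) (fun x => kapE_nonneg h _ _)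
      (fun z z' hz => kapE_congr fun p hp =>
        ⟨hz _ (Set.mem_univ _) fun n => (hE p (Multiset.mem_add.2 (Or.inr hp)) n).1,
          hz _ (Set.mem_univ _) fun n => (hE p (Multiset.mem_add.2 (Or.inr hp)) n).2⟩)
      (Forest.mass h hF tE').le
    have ri := glue_rho_inj hg hρ hτ
    have τ1 : ∀ (x : V → S) (v : V), (Sum.elim x fun _ : N => s) (.inl v) = x v :=
      fun x v => rfl
    have τ2 : ∀ (x : V' → S) (v : V'), (Function.extend ρ x fun _ => s) (ρ v) = x v :=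
      fun x v => ri.extend_apply _ _ _
    have mu2 : ∀ Ψ : (V' → S) → ℝ, ∑ z, mus (Sum.elim side fun n => side' (g n)) μ c z *
        Ψ (fun v => z (ρ v)) = ∑ x, mus side' μ c x * Ψ x := fun Ψ => mus_inj h ri gs Ψ
    have nz : ∀ z : V ⊕ N → S, mus (Sum.elim side fun n => side' (g n)) μ c z ≠ 0 →
        mus side' μ c (fun v => z (ρ v)) ≠ 0 := by
      intro z hz h0
      unfold mus at h0
      obtain ⟨v, _, hv⟩ := Finset.prod_eq_zero_iff.1 h0
      refine hz (Finset.prod_eq_zero (mem_univ (ρ v)) ?_)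
      rw [gs]
      exact hv
    have nz1 : ∀ z : V ⊕ N → S, mus (Sum.elim side fun n => side' (g n)) μ c z ≠ 0 →
        mus side μ c (fun v => z (.inl v)) ≠ 0 := by
      intro z hz
      rw [mus_elim] at hz
      exact left_ne_zero_of_mul hz
    refine ⟨Q, ?_, ?_, ?_⟩
    · have e2 : (fun z : V ⊕ N → S => kapE A μ (L.map (emap .inl) + L'.map (emap ρ)) z *
          partE A μ (M.map (pmap .inl) + M'.map (pmap ρ)) z) =
          fun z => (kapE A μ L (fun v => z (.inl v)) * partE A μ M fun v => z (.inl v)) *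
            (kapE A μ L' (fun v => z (ρ v)) * partE A μ M' fun v => z (ρ v)) := by
        funext z
        rw [kapE_add, partE_add, kapE_map, kapE_map, partE_map, partE_map]
        ring
      rw [e2]
      exact hQ
    · rintro r (⟨⟨U', E₀⟩, h0, rfl⟩ | ⟨⟨U', E₀⟩, h0, rfl⟩)
      · exact MargT.push τ1 (fun Ψ => mus_old h Ψ) (fun G _ => h1 G) (hR _ h0)
      · exact MargT.push τ2 mu2 (fun G _ => h2 G) (hR' _ h0)
    · rintro r (⟨⟨U', E₀, Q₀⟩, h0, rfl⟩ | ⟨⟨U', E₀, Q₀⟩, h0, rfl⟩)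
      · have h3 := BalW.push (σ := (Sum.inl : V → V ⊕ N)) τ1 (fun Ψ => mus_old h Ψ)
          (fun G _ => h1 G) nz1 (hB _ h0)
        refine Eq.mp (congrArg (BalW μ c _ Q _) ?_) h3
        funext z
        change _ = kapE A μ (E₀.map (emap .inl)) z * partE A μ (Q₀.map (pmap .inl)) z
        rw [kapE_map, partE_map]
      · have h3 := BalW.push (σ := ρ) τ2 mu2 (fun G _ => h2 G) nz (hB' _ h0)
        refine Eq.mp (congrArg (BalW μ c _ Q _) ?_) h3
        funext z
        change _ = kapE A μ (E₀.map (emap ρ)) z * partE A μ (Q₀.map (pmap ρ)) z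
        rw [kapE_map, partE_map]

/-- Two frames are glued along a common recorded tree. -/
theorem MOK.glue {N : Type} {g : N → V'} {τ : V' → V} {ρ : V' → V ⊕ N}
    {iN : Fintype N} {iE : DecidableEq N} (hT : MOK L M R B iF iD side)
    (hT' : MOK (L' + E') M' R' B' iF' iD' side') (hr' : ({v | ∀ n, g n ≠ v}, E) ∈ R')
    (hr : tmap τ ({v | ∀ n, g n ≠ v}, E) ∈ R)
    (hτ : ∀ u v, (∀ n, g n ≠ u) → (∀ n, g n ≠ v) → τ u = τ v → u = v)
    (hc : ∀ u v, (∀ n, g n ≠ u) → (∀ n, g n ≠ v) →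
      Relation.EqvGen (fun a b => ∃ d, (a, d, b) ∈ E) u v)
    (hE : ∀ p ∈ E + E', ∀ n, g n ≠ p.1 ∧ g n ≠ p.2.2) (hF : Forest E')
    (hg : ∀ n, ρ (g n) = .inr n) (hρ : ∀ v, (∀ n, g n ≠ v) → ρ v = .inl (τ v)) :
    ∃ side'' : V ⊕ N → Bool,
      MOK (L.map (emap .inl) + L'.map (emap ρ)) (M.map (pmap .inl) + M'.map (pmap ρ))
        (oldT N R ∪ {r | ∃ r₀ ∈ R', r = tmap ρ r₀})
        (oldB N B ∪ {b | ∃ b₀ ∈ B', b = bmap ρ b₀}) inferInstance inferInstance side'' := by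
  have t1 : TOK (fun v => side (τ v)) E := fun p hp =>
    hT.rok _ hr (emap τ p) (Multiset.mem_map_of_mem _ hp)
  rcases side_conn (U := {v | ∀ n, g n ≠ v}) t1 (hT'.rok _ hr')
    (fun u hu v hv => hc u v hu hv) with h1 | h1
  · exact ⟨_, hT.glue' hT' hr' hr hτ h1 hE hF hg hρ⟩
  · exact ⟨_, hT.glue' hT'.flip hr' hr hτ h1 hE hF hg hρ⟩

end Vale.Agent.P050.SP
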