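import Vale.Agent.P050.R4.H153.GlMus

/-!
# P050, frames: the law of two frames glued along common vertices
-/

namespace Vale.Agent.P050.SP

open Finset Matrix Vale.Agent.P050.Ears Vale.Agent.P050.Lev

variable {S : Type} [Fintype S] [DecidableEq S] {A : Matrix S S ℝ} {μ : S → ℝ} {c : S → Bool}
variable {V V' N : Type} [Fintype V] [DecidableEq V] [Fintype V'] [DecidableEq V']
variable [Fintype N] [DecidableEq N] {side : V → Bool} {side' : V' → Bool}
variable {P : (V → S) → ℝ} {P' : (V' → S) → ℝ}
variable {g : N → V'} {τ : V' → V} {ρ : V' → V ⊕ N}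

omit [Fintype S] [DecidableEq S] [Fintype V] [DecidableEq V] [Fintype V'] [DecidableEq V']
  [Fintype N] [DecidableEq N] in
theorem glue_inj (hg : ∀ n, ρ (g n) = .inr n) : Function.Injective g := fun a b hab => by
  have h1 := hg a
  rw [hab, hg b] at h1
  exact (Sum.inr.inj h1).symm

omit [Fintype S] [DecidableEq S] [Fintype V] [DecidableEq V] [Fintype V'] [DecidableEq V']
  [Fintype N] [DecidableEq N] in
theorem glue_extend (hg : ∀ n, ρ (g n) = .inr n)
    (hρ : ∀ v, (∀ n, g n ≠ v) → ρ v = .inl (τ v)) (z : V → S) (y : N → S) :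
    (fun v => (Sum.elim z y : V ⊕ N → S) (ρ v)) = Function.extend g y fun v => z (τ v) := by
  funext v
  by_cases hn : ∃ n, g n = v
  · obtain ⟨n, rfl⟩ := hn
    rw [hg, (glue_inj hg).extend_apply]
    rfl
  · rw [Function.extend_apply' _ _ _ hn]
    push Not at hn
    rw [hρ v hn]
    rfl

/-- the density of the kept vertices -/
noncomputable def denK (μ : S → ℝ) (c : S → Bool) (side' : V' → Bool) (g : N → V')
    (f : (V' → S) → ℝ) (x : V' → S) : ℝ :=
  ∑ y : N → S, mus (fun n => side' (g n)) μ c y * f (Function.extend g y x)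

theorem denK_dep (hi : Function.Injective g) (f : (V' → S) → ℝ) :
    DepK g Set.univ (denK μ c side' g f) := fun z z' hz => by
  unfold denK
  refine Finset.sum_congr rfl fun y _ => ?_
  have h1 : f (Function.extend g y z) = f (Function.extend g y z') :=
    ext_dep (U := Set.univ) hi
      (fun z z' hz => by rw [funext fun v => hz v (Set.mem_univ v)]) hz y
  rw [h1]

/-- **Gluing.** The law of two structures glued along the common vertices; `e` is a weight of total
mass at most one of the common vertices, which is not doubled. -/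
theorem LawW.glue (h : Rev A μ c) (hg : ∀ n, ρ (g n) = .inr n)
    (hρ : ∀ v, (∀ n, g n ≠ v) → ρ v = .inl (τ v)) {W : (V → S) → ℝ} {w₁ e : (V' → S) → ℝ}
    (hP : LawW W side μ c P) (hP' : LawW (fun x => w₁ x * e x) side' μ c P')
    (hK : ∀ G : (V' → S) → ℝ, DepK g Set.univ G →
      ∑ z, P z * G (fun v => z (τ v)) = ∑ x, P' x * G x)
    (w0 : ∀ x, 0 ≤ w₁ x) (e0 : ∀ x, 0 ≤ e x) (he : DepK g Set.univ e)
    (hm : ∑ x, mus side' μ c x * e x ≤ 1) :
    ∃ Q : (V ⊕ N → S) → ℝ,
      LawW (fun z => W (fun v => z (.inl v)) * w₁ (fun v => z (ρ v)))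
        (Sum.elim side fun n => side' (g n)) μ c Q ∧
      (∀ G : (V → S) → ℝ, ∑ z, Q z * G (fun v => z (.inl v)) = ∑ z, P z * G z) ∧
      ∀ G : (V' → S) → ℝ, ∑ z, Q z * G (fun v => z (ρ v)) = ∑ x, P' x * G x := by
  have hi := glue_inj hg
  set f : (V' → S) → ℝ := fun x => P' x / mus side' μ c x with hf
  have f0 : ∀ x, 0 ≤ f x := fun x => div_nonneg (hP'.nonneg x) (mus_nonneg h _ _)
  have key : ∀ x, mus side' μ c x * f x = P' x := by
    intro x
    by_cases h0 : mus side' μ c x = 0
    · have h1 : P' x = 0 := by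
        by_contra h1
        have h2 := hP'.supp x (lt_of_le_of_ne (hP'.nonneg x) (Ne.symm h1))
        rw [h0, zero_mul] at h2
        exact lt_irrefl _ h2
      rw [h0, h1, zero_mul]
    · exact mul_div_cancel₀ _ h0
  have fne : ∀ x, f x ≠ 0 → P' x ≠ 0 := fun x hx h0 => hx (by rw [hf]; beta_reduce; rw [h0, zero_div])
  set D := denK μ c side' g f with hD
  have dD : DepK g Set.univ D := denK_dep hi f
  have D0 : ∀ x, 0 ≤ D x := fun x =>
    Finset.sum_nonneg fun y _ => mul_nonneg (mus_nonneg h _ _) (f0 _)
  -- the law of the kept vertices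
  have mK : ∀ G : (V' → S) → ℝ, DepK g Set.univ G →
      ∑ x, P' x * G x = ∑ x, mus side' μ c x * (D x * G x) := by
    intro G hG
    have h1 : ∀ x, P' x * G x = mus side' μ c x * (f x * G x) := fun x => by
      rw [← mul_assoc, key]
    rw [Finset.sum_congr rfl fun x _ => h1 x, resample h side' hi fun x => f x * G x]
    refine Finset.sum_congr rfl fun x _ => ?_
    rw [hD, denK, Finset.sum_mul]
    congr 1
    refine Finset.sum_congr rfl fun y _ => ?_
    have h2 : G (Function.extend g y x) = G x := hG _ _ fun v _ hn => ext_off x y hn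
    rw [h2]
    ring
  have hz : ∀ z : V → S, zwG μ c (fun n => side' (g n))
      (fun z : V ⊕ N → S => f fun v => z (ρ v)) z = D fun v => z (τ v) := by
    intro z
    rw [hD, denK, zwG]
    refine Finset.sum_congr rfl fun y _ => ?_
    beta_reduce
    rw [glue_extend hg hρ]
  have hne : ∀ z, P z ≠ 0 → zwG μ c (fun n => side' (g n))
      (fun z : V ⊕ N → S => f fun v => z (ρ v)) z ≠ 0 := by
    classical
    intro z hPz h0
    rw [hz] at h0
    have dG : DepK g Set.univ fun x => if D x = 0 then (1 : ℝ) else 0 := fun z z' hz => by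
      beta_reduce
      rw [dD z z' hz]
    have h1 := hK _ dG
    rw [mK _ dG] at h1
    have h2 : ∑ x, mus side' μ c x * (D x * (if D x = 0 then (1 : ℝ) else 0)) = 0 := by
      refine Finset.sum_eq_zero fun x _ => ?_
      split_ifs with h3
      · rw [h3]; ring
      · ring
    rw [h2] at h1
    have h4 := (Finset.sum_eq_zero_iff_of_nonneg fun z' _ => mul_nonneg (hP.nonneg z')
      (by beta_reduce; split_ifs <;> norm_num)).1 h1 z (mem_univ z)
    beta_reduce at h4
    rw [if_pos h0, mul_one] at h4
    exact hPz h4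
  have hQ : ∀ G : (V' → S) → ℝ, ∑ z, extG μ c (fun n => side' (g n))
      (fun z : V ⊕ N → S => f fun v => z (ρ v)) P z * G (fun v => z (ρ v)) =
        ∑ x, P' x * G x := by
    intro G
    rw [extG_sum']
    have dH : DepK g Set.univ fun x => ∑ y, mus (fun n => side' (g n)) μ c y *
        f (Function.extend g y x) / D x * G (Function.extend g y x) := by
      intro z z' hzz
      refine Finset.sum_congr rfl fun y _ => ?_
      have e1 : ∀ F : (V' → S) → ℝ, F (Function.extend g y z) = F (Function.extend g y z') :=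
        fun F => ext_dep (U := Set.univ) hi
          (fun z z' hz => by rw [funext fun v => hz v (Set.mem_univ v)]) hzz y
      rw [dD z z' hzz, e1 f, e1 G]
    have h1 := hK _ dH
    rw [mK _ dH] at h1
    refine Eq.trans (Finset.sum_congr rfl fun z _ => ?_) (h1.trans ?_)
    · congr 1
      refine Finset.sum_congr rfl fun y _ => ?_
      rw [hz]
      beta_reduce
      rw [glue_extend hg hρ]
    · have h2 : ∀ x, P' x * G x = mus side' μ c x * (f x * G x) := fun x => by
        rw [← mul_assoc, key]
      rw [Finset.sum_congr rfl fun x _ => h2 x, resample h side' hi fun x => f x * G x]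
      refine Finset.sum_congr rfl fun x _ => ?_
      congr 1
      rw [Finset.mul_sum]
      by_cases h0 : D x = 0
      · have h3 := fun y => (Finset.sum_eq_zero_iff_of_nonneg fun y' _ =>
          mul_nonneg (mus_nonneg h (fun n => side' (g n)) y') (f0 _)).1 h0 y (mem_univ y)
        refine Finset.sum_congr rfl fun y _ => ?_
        have h4 : mus (fun n => side' (g n)) μ c y *
            (f (Function.extend g y x) * G (Function.extend g y x)) = 0 := by
          rw [← mul_assoc, h3 y, zero_mul]
        rw [h4, h0, zero_mul]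
      · refine Finset.sum_congr rfl fun y _ => ?_
        field_simp
  have spt : ∀ x, P' x ≠ 0 → mus side' μ c x ≠ 0 ∧ w₁ x ≠ 0 ∧ e x ≠ 0 := by
    intro x hx
    have h1 := (hP'.supp x (lt_of_le_of_ne (hP'.nonneg x) hx.symm)).ne'
    exact ⟨left_ne_zero_of_mul h1, left_ne_zero_of_mul (right_ne_zero_of_mul h1),
      right_ne_zero_of_mul (right_ne_zero_of_mul h1)⟩
  refine ⟨extG μ c (fun n => side' (g n)) (fun z : V ⊕ N → S => f fun v => z (ρ v)) P,
    hP.extD h (fun z => f0 _) (fun z => w0 _) hne (fun z hzp => ?_) ?_,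
    fun G => extG_sum hne G, hQ⟩
  · obtain ⟨_, _, p3, _⟩ := extG_pos h (fun z => f0 _) hP.nonneg hzp
    exact (spt _ (fne _ p3)).2.1
  · rw [hQ fun x => Real.log (w₁ x) - Real.log (f x)]
    have d1 : DepK g Set.univ fun x => Real.log (D x) := fun z z' hz => by
      beta_reduce
      rw [dD z z' hz]
    have e1 : ∑ z, P z * Real.log (zwG μ c (fun n => side' (g n))
        (fun z : V ⊕ N → S => f fun v => z (ρ v)) z) = ∑ x, P' x * Real.log (D x) := by
      rw [← hK _ d1]
      exact Finset.sum_congr rfl fun z _ => by rw [hz]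
    rw [e1]
    -- Gibbs
    have h3 : 0 ≤ ∑ x, P' x * (Real.log (D x) - Real.log (e x)) := by
      have hd : DepK g Set.univ fun x => Real.log (D x) - Real.log (e x) := fun z z' hz => by
        beta_reduce
        rw [dD z z' hz, he z z' hz]
      rw [mK _ hd]
      have h4 := mK (fun _ => 1) fun _ _ _ => rfl
      simp only [mul_one, hP'.sum] at h4
      have h5 : 0 ≤ ∑ x, mus side' μ c x * (D x - e x) := by
        simp only [mul_sub, Finset.sum_sub_distrib]
        rw [← h4]
        linarith
      refine h5.trans (Finset.sum_le_sum fun x _ => ?_)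
      refine mul_le_mul_of_nonneg_left (sub_le_mul_log_sub (D0 x) (e0 x) fun hD0 => ?_)
        (mus_nonneg h _ _)
      obtain ⟨y, _, hy⟩ := Finset.exists_ne_zero_of_sum_ne_zero hD0
      have h6 : e (Function.extend g y x) = e x := he _ _ fun v _ hn => ext_off x y hn
      rw [← h6]
      exact (spt _ (fne _ (right_ne_zero_of_mul hy))).2.2
    have h4 : 0 ≤ ∑ x, P' x * (Real.log (w₁ x) + Real.log (e x) - Real.log (f x)) := by
      refine hP'.ent.trans_eq (Finset.sum_congr rfl fun x _ => ?_)
      rcases (hP'.nonneg x).eq_or_lt with h0 | h0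
      · rw [← h0, zero_mul, zero_mul]
      · obtain ⟨n1, n2, n3⟩ := spt x h0.ne'
        congr 1
        rw [hf]
        beta_reduce
        rw [Real.log_mul n1 (mul_ne_zero n2 n3), Real.log_mul n2 n3, Real.log_div h0.ne' n1]
        ring
    have h7 : ∑ x, P' x * Real.log (D x) + ∑ x, P' x * (Real.log (w₁ x) - Real.log (f x)) =
        ∑ x, P' x * (Real.log (D x) - Real.log (e x)) +
          ∑ x, P' x * (Real.log (w₁ x) + Real.log (e x) - Real.log (f x)) := by
      rw [← Finset.sum_add_distrib, ← Finset.sum_add_distrib]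
      exact Finset.sum_congr rfl fun x _ => by ring
    rw [h7]
    exact add_nonneg h3 h4

end Vale.Agent.P050.SP
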