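import Vale.Agent.P050.R4.H153.Attach
import Vale.Agent.P050.R4.H859.Class

/-!
# P050, series-parallel graphs: laws on graphs with attached gadgets
-/

namespace Vale.Agent.P050.SP

open Finset Matrix Vale.Agent.P050.Ears Vale.Agent.P050.Lev

section

variable {S : Type} [Fintype S] {A : Matrix S S ℝ} {μ : S → ℝ} {c : S → Bool}
variable {V : Type} [Fintype V] [DecidableEq V] {H : SimpleGraph V} {e : SP} {a b : V}
variable {side : V → Bool}

/-- A law of the maps of the graph with nonnegative entropy balance. -/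
structure LawOn (H : SimpleGraph V) (side : V → Bool) (A : Matrix S S ℝ) (μ : S → ℝ)
    (c : S → Bool) (P : (V → S) → ℝ) : Prop where
  nonneg : ∀ z, 0 ≤ P z
  sum : ∑ z, P z = 1
  supp : ∀ z, 0 < P z → 0 < wt H side A μ c z
  ent : 0 ≤ ∑ z, P z * (Real.log (wt H side A μ c z) - Real.log (P z))

omit [DecidableEq V] in
theorem wt_nonneg (h : Rev A μ c) (z : V → S) : 0 ≤ wt H side A μ c z := by
  unfold wt
  split_ifs
  · exact mul_nonneg (Finset.prod_nonneg fun v _ => (h.pos _).le)
      (Finset.prod_nonneg fun p _ => div_nonneg (h.nonneg _ _) (h.pos _).le)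
  · exact le_rfl

theorem LawOn.one_le (h : Rev A μ c) {P : (V → S) → ℝ} (hP : LawOn H side A μ c P) :
    1 ≤ ∑ z, wt H side A μ c z := by
  have h1 := gibbs univ P (wt H side A μ c) (fun z _ => hP.nonneg z) (fun z _ => wt_nonneg h z)
    (fun z _ hz => hP.supp z hz)
  rw [hP.sum, Real.log_one, sub_zero, one_mul] at h1
  have h2 := hP.ent.trans h1
  obtain ⟨z, hz⟩ : ∃ z, 0 < P z := by
    by_contra hne
    push Not at hne
    have : ∑ z, P z ≤ 0 := Finset.sum_nonpos fun z _ => hne z
    rw [hP.sum] at this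
    linarith
  have h3 : 0 < ∑ z, wt H side A μ c z :=
    Finset.sum_pos' (fun z _ => wt_nonneg h z) ⟨z, mem_univ z, hP.supp z hz⟩
  by_contra hlt
  push Not at hlt
  have := Real.log_neg h3 hlt
  linarith

/-- the weight of the inner vertices of a gadget -/
noncomputable def inW (A : Matrix S S ℝ) (μ : S → ℝ) (e : SP) (x y : S) (z : Inn e → S) : ℝ :=
  (∏ i, μ (z i)) * ew A μ (edges e x y z)

omit [Fintype S] in
theorem ew_nonneg (hA : ∀ u v, 0 ≤ A u v) (hμ : ∀ u, 0 < μ u) (l : List (S × S)) :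
    0 ≤ ew A μ l := by
  unfold ew
  refine List.prod_nonneg fun x hx => ?_
  obtain ⟨p, _, rfl⟩ := List.mem_map.1 hx
  exact div_nonneg (hA _ _) (hμ _).le

omit [Fintype V] [DecidableEq V] in
theorem inW_nonneg (h : Rev A μ c) (e : SP) (x y : S) (z : Inn e → S) : 0 ≤ inW A μ e x y z :=
  mul_nonneg (Finset.prod_nonneg fun _ _ => (h.pos _).le) (ew_nonneg h.nonneg h.pos _)

/-- the law after attaching a gadget -/
noncomputable def attP (A : Matrix S S ℝ) (μ : S → ℝ) (e : SP) (a b : V) (P : (V → S) → ℝ)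
    (z : V ⊕ Inn e → S) : ℝ :=
  P (fun v => z (.inl v)) *
    (inW A μ e (z (.inl a)) (z (.inl b)) (fun i => z (.inr i)) /
      K A μ e (z (.inl a)) (z (.inl b)))

/-- the old vertices keep their law -/
theorem attP_marg {P : (V → S) → ℝ} (hK : ∀ z, P z ≠ 0 → K A μ e (z a) (z b) ≠ 0)
    (F : (V → S) → ℝ) :
    ∑ z : V ⊕ Inn e → S, attP A μ e a b P z * F (fun v => z (.inl v)) = ∑ z, P z * F z := by
  rw [← (Equiv.sumArrowEquivProdArrow V (Inn e) S).symm.sum_comp, Fintype.sum_prod_type]
  refine Finset.sum_congr rfl fun z _ => ?_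
  have h1 : ∑ y : Inn e → S, attP A μ e a b P
      ((Equiv.sumArrowEquivProdArrow V (Inn e) S).symm (z, y)) *
        F (fun v => (Equiv.sumArrowEquivProdArrow V (Inn e) S).symm (z, y) (.inl v)) =
      ∑ y : Inn e → S, (P z * F z / K A μ e (z a) (z b)) *
        ((∏ i, μ (y i)) * ew A μ (edges e (z a) (z b) y)) := by
    refine Finset.sum_congr rfl fun y _ => ?_
    change P z * (inW A μ e (z a) (z b) y / K A μ e (z a) (z b)) * F z = _
    unfold inW
    ring
  rw [h1, ← Finset.mul_sum, sum_edges]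
  by_cases h0 : P z = 0
  · rw [h0]; ring
  · exact div_mul_cancel₀ _ (hK z h0)

variable [DecidableEq S]

theorem attP_pos (h : Rev A μ c) {P : (V → S) → ℝ} (hP : ∀ z, 0 ≤ P z)
    {z : V ⊕ Inn e → S} (hz : 0 < attP A μ e a b P z) :
    0 < P (fun v => z (.inl v)) ∧
      0 < inW A μ e (z (.inl a)) (z (.inl b)) (fun i => z (.inr i)) ∧
        0 < K A μ e (z (.inl a)) (z (.inl b)) := by
  unfold attP at hz
  have h1 : P (fun v => z (.inl v)) ≠ 0 := fun h0 => by
    rw [h0, zero_mul] at hz; exact lt_irrefl _ hz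
  have h2 : inW A μ e (z (.inl a)) (z (.inl b)) (fun i => z (.inr i)) ≠ 0 := fun h0 => by
    rw [h0, zero_div, mul_zero] at hz; exact lt_irrefl _ hz
  have h3 : K A μ e (z (.inl a)) (z (.inl b)) ≠ 0 := fun h0 => by
    rw [h0, div_zero, mul_zero] at hz; exact lt_irrefl _ hz
  exact ⟨lt_of_le_of_ne (hP _) h1.symm, lt_of_le_of_ne (inW_nonneg h _ _ _ _) h2.symm,
    lt_of_le_of_ne (K_nonneg h e _ _) h3.symm⟩

/-- Attaching a gadget. -/
theorem LawOn.att (h : Rev A μ c) (hs : simple e) (hb : bip e) (hab : a ≠ b)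
    (hd : ¬ (direct e ∧ H.Adj a b)) (hside : side b = xor (side a) (decide (len e % 2 = 1)))
    {P : (V → S) → ℝ} (hP : LawOn H side A μ c P)
    (pK : ∀ z, 0 < P z → 0 < K A μ e (z a) (z b))
    (hK : 0 ≤ ∑ z, P z * Real.log (K A μ e (z a) (z b))) :
    LawOn (att H e a b) (attSide side e a) A μ c (attP A μ e a b P) := by
  have pK' : ∀ z, P z ≠ 0 → K A μ e (z a) (z b) ≠ 0 := fun z hz =>
    (pK z (lt_of_le_of_ne (hP.nonneg z) hz.symm)).ne'
  refine ⟨fun z => ?_, ?_, fun z hz => ?_, ?_⟩
  · exact mul_nonneg (hP.nonneg _) (div_nonneg (inW_nonneg h _ _ _ _) (K_nonneg h e _ _))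
  · have h1 := attP_marg (A := A) (μ := μ) (e := e) (a := a) (b := b) pK' (fun _ => 1)
    simp only [mul_one] at h1
    rw [h1, hP.sum]
  · obtain ⟨h1, h2, _⟩ := attP_pos h hP.nonneg hz
    rw [wt_att h hs hb hab hd hside]
    exact mul_pos (hP.supp _ h1) h2
  · have h1 := attP_marg (A := A) (μ := μ) (e := e) (a := a) (b := b) pK' (fun z =>
      Real.log (wt H side A μ c z) - Real.log (P z) + Real.log (K A μ e (z a) (z b)))
    have h2 : ∑ z : V ⊕ Inn e → S, attP A μ e a b P z *
        (Real.log (wt (SP.att H e a b) (attSide side e a) A μ c z) -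
          Real.log (attP A μ e a b P z)) =
        ∑ z : V ⊕ Inn e → S, attP A μ e a b P z *
          (Real.log (wt H side A μ c (fun v => z (.inl v))) - Real.log (P (fun v => z (.inl v))) +
            Real.log (K A μ e (z (.inl a)) (z (.inl b)))) := by
      refine Finset.sum_congr rfl fun z _ => ?_
      have hn : 0 ≤ attP A μ e a b P z :=
        mul_nonneg (hP.nonneg _) (div_nonneg (inW_nonneg h _ _ _ _) (K_nonneg h e _ _))
      rcases hn.eq_or_lt with h0 | h0
      · rw [← h0, zero_mul, zero_mul]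
      · obtain ⟨p1, p2, p3⟩ := attP_pos h hP.nonneg h0
        congr 1
        have e1 : wt (SP.att H e a b) (attSide side e a) A μ c z =
            wt H side A μ c (fun v => z (.inl v)) *
              inW A μ e (z (.inl a)) (z (.inl b)) (fun i => z (.inr i)) :=
          wt_att h hs hb hab hd hside z
        rw [e1, Real.log_mul (hP.supp _ p1).ne' p2.ne']
        unfold attP
        rw [Real.log_mul p1.ne' (div_pos p2 p3).ne', Real.log_div p2.ne' p3.ne']
        ring
    rw [h2, h1]
    have h3 : ∑ z, P z * (Real.log (wt H side A μ c z) - Real.log (P z) +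
        Real.log (K A μ e (z a) (z b))) =
        ∑ z, P z * (Real.log (wt H side A μ c z) - Real.log (P z)) +
          ∑ z, P z * Real.log (K A μ e (z a) (z b)) := by
      rw [← Finset.sum_add_distrib]
      exact Finset.sum_congr rfl fun z _ => by ring
    rw [h3]
    have := hP.ent
    linarith

end

section

variable {S : Type} [Fintype S] [DecidableEq S] {A : Matrix S S ℝ} {μ : S → ℝ} {c : S → Bool}
variable {V : Type} [Fintype V] [DecidableEq V] {H : SimpleGraph V} {e : SP} {a : V}
variable {side : V → Bool}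

/-- the law after hanging a gadget -/
noncomputable def penP (A : Matrix S S ℝ) (μ : S → ℝ) (e : SP) (a : V) (P : (V → S) → ℝ)
    (z : V ⊕ (Unit ⊕ Inn e) → S) : ℝ :=
  P (fun v => z (.inl v)) * ((A ^ len e) (z (.inl a)) (z (.inr (.inl ()))) *
    (inW A μ e (z (.inl a)) (z (.inr (.inl ()))) (fun i => z (.inr (.inr i))) /
      K A μ e (z (.inl a)) (z (.inr (.inl ())))))

/-- the joint law of the old vertices and the new terminal -/
theorem penP_marg {P : (V → S) → ℝ}
    (hK : ∀ x y, (A ^ len e) x y ≠ 0 → K A μ e x y ≠ 0) (F : (V → S) → S → ℝ) :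
    ∑ z : V ⊕ (Unit ⊕ Inn e) → S,
        penP A μ e a P z * F (fun v => z (.inl v)) (z (.inr (.inl ()))) =
      ∑ z, P z * ∑ w, (A ^ len e) (z a) w * F z w := by
  rw [← (Equiv.sumArrowEquivProdArrow V (Unit ⊕ Inn e) S).symm.sum_comp, Fintype.sum_prod_type]
  refine Finset.sum_congr rfl fun z _ => ?_
  rw [← (Equiv.sumArrowEquivProdArrow Unit (Inn e) S).symm.sum_comp, Fintype.sum_prod_type,
    ← (Equiv.funUnique Unit S).symm.sum_comp, Finset.mul_sum]
  refine Finset.sum_congr rfl fun w _ => ?_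
  have h1 : ∀ y : Inn e → S, penP A μ e a P
      ((Equiv.sumArrowEquivProdArrow V (Unit ⊕ Inn e) S).symm
        (z, (Equiv.sumArrowEquivProdArrow Unit (Inn e) S).symm
          ((Equiv.funUnique Unit S).symm w, y))) * F z w =
      (P z * ((A ^ len e) (z a) w * F z w) / K A μ e (z a) w) *
        ((∏ i, μ (y i)) * ew A μ (edges e (z a) w y)) := by
    intro y
    change P z * ((A ^ len e) (z a) w * (inW A μ e (z a) w y / K A μ e (z a) w)) * F z w = _
    unfold inW
    ring
  refine (Finset.sum_congr rfl fun y _ => h1 y).trans ?_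
  rw [← Finset.mul_sum, sum_edges]
  by_cases h0 : (A ^ len e) (z a) w = 0
  · rw [h0]; ring
  · exact div_mul_cancel₀ _ (hK _ _ h0)

theorem penP_nonneg (h : Rev A μ c) {P : (V → S) → ℝ} (hP : ∀ z, 0 ≤ P z)
    (z : V ⊕ (Unit ⊕ Inn e) → S) : 0 ≤ penP A μ e a P z :=
  mul_nonneg (hP _) (mul_nonneg (h.pow_nonneg _ _ _)
    (div_nonneg (inW_nonneg h _ _ _ _) (K_nonneg h e _ _)))

/-- Hanging a gadget at a vertex. -/
theorem LawOn.pen (h : Rev A μ c) (hs : simple e) (hb : bip e)
    {P : (V → S) → ℝ} (hP : LawOn H side A μ c P)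
    (pK : ∀ x y, 0 < (A ^ len e) x y → 0 < K A μ e x y)
    (hK : 0 ≤ ∑ z, P z * ∑ w, (A ^ len e) (z a) w *
      (Real.log (K A μ e (z a) w) - Real.log (kap A μ (len e) (z a) w))) :
    LawOn (pen H e a) (penSide side e a) A μ c (penP A μ e a P) := by
  have pK' : ∀ x y, (A ^ len e) x y ≠ 0 → K A μ e x y ≠ 0 := fun x y hz =>
    (pK x y (lt_of_le_of_ne (h.pow_nonneg _ x y) hz.symm)).ne'
  refine ⟨fun z => penP_nonneg h hP.nonneg z, ?_, fun z hz => ?_, ?_⟩
  · have h1 := penP_marg (A := A) (μ := μ) (e := e) (a := a) (P := P) pK' (fun _ _ => 1)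
    simp only [mul_one, h.pow_row] at h1
    rw [h1, hP.sum]
  · have n1 : P (fun v => z (.inl v)) ≠ 0 := fun h0 => by
      unfold penP at hz; rw [h0, zero_mul] at hz; exact lt_irrefl _ hz
    have n2 : inW A μ e (z (.inl a)) (z (.inr (.inl ()))) (fun i => z (.inr (.inr i))) ≠ 0 :=
      fun h0 => by
        unfold penP at hz; rw [h0, zero_div, mul_zero, mul_zero] at hz; exact lt_irrefl _ hz
    rw [wt_pen h hs hb]
    exact mul_pos (hP.supp _ (lt_of_le_of_ne (hP.nonneg _) n1.symm))
      (mul_pos (h.pos _) (lt_of_le_of_ne (inW_nonneg h _ _ _ _) n2.symm))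
  · have h1 := penP_marg (A := A) (μ := μ) (e := e) (a := a) (P := P) pK' (fun z w =>
      Real.log (wt H side A μ c z) - Real.log (P z) +
        (Real.log (K A μ e (z a) w) - Real.log (kap A μ (len e) (z a) w)))
    have h2 : ∑ z : V ⊕ (Unit ⊕ Inn e) → S, penP A μ e a P z *
        (Real.log (wt (SP.pen H e a) (penSide side e a) A μ c z) -
          Real.log (penP A μ e a P z)) =
        ∑ z : V ⊕ (Unit ⊕ Inn e) → S, penP A μ e a P z *
          (Real.log (wt H side A μ c (fun v => z (.inl v))) - Real.log (P (fun v => z (.inl v))) +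
            (Real.log (K A μ e (z (.inl a)) (z (.inr (.inl ())))) -
              Real.log (kap A μ (len e) (z (.inl a)) (z (.inr (.inl ())))))) := by
      refine Finset.sum_congr rfl fun z _ => ?_
      rcases (penP_nonneg (e := e) (a := a) h hP.nonneg z).eq_or_lt with h0 | h0
      · rw [← h0, zero_mul, zero_mul]
      · have n1 : P (fun v => z (.inl v)) ≠ 0 := fun h3 => by
          unfold penP at h0; rw [h3, zero_mul] at h0; exact lt_irrefl _ h0
        have n2 : inW A μ e (z (.inl a)) (z (.inr (.inl ()))) (fun i => z (.inr (.inr i))) ≠ 0 :=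
          fun h3 => by
            unfold penP at h0; rw [h3, zero_div, mul_zero, mul_zero] at h0
            exact lt_irrefl _ h0
        have n3 : K A μ e (z (.inl a)) (z (.inr (.inl ()))) ≠ 0 := fun h3 => by
          unfold penP at h0; rw [h3, div_zero, mul_zero, mul_zero] at h0
          exact lt_irrefl _ h0
        have n4 : (A ^ len e) (z (.inl a)) (z (.inr (.inl ()))) ≠ 0 := fun h3 => by
          unfold penP at h0; rw [h3, zero_mul, mul_zero] at h0
          exact lt_irrefl _ h0
        have n5 := (hP.supp _ (lt_of_le_of_ne (hP.nonneg _) n1.symm)).ne'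
        have n6 := (h.pos (z (.inr (.inl ())))).ne'
        congr 1
        have e1 : wt (SP.pen H e a) (penSide side e a) A μ c z =
            wt H side A μ c (fun v => z (.inl v)) * (μ (z (.inr (.inl ()))) *
              inW A μ e (z (.inl a)) (z (.inr (.inl ()))) (fun i => z (.inr (.inr i)))) :=
          wt_pen h hs hb z
        rw [e1, Real.log_mul n5 (mul_ne_zero n6 n2), Real.log_mul n6 n2]
        unfold penP kap
        rw [Real.log_mul n1 (mul_ne_zero n4 (div_ne_zero n2 n3)),
          Real.log_mul n4 (div_ne_zero n2 n3), Real.log_div n2 n3, Real.log_div n4 n6]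
        ring
    rw [h2, h1]
    have h3 : ∑ z, P z * ∑ w, (A ^ len e) (z a) w *
        (Real.log (wt H side A μ c z) - Real.log (P z) +
        (Real.log (K A μ e (z a) w) - Real.log (kap A μ (len e) (z a) w))) =
        ∑ z, P z * (Real.log (wt H side A μ c z) - Real.log (P z)) +
          ∑ z, P z * ∑ w, (A ^ len e) (z a) w *
            (Real.log (K A μ e (z a) w) - Real.log (kap A μ (len e) (z a) w)) := by
      rw [← Finset.sum_add_distrib]
      refine Finset.sum_congr rfl fun z _ => ?_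
      simp only [mul_add, Finset.sum_add_distrib]
      rw [← Finset.sum_mul, h.pow_row, one_mul]
    rw [h3]
    have := hP.ent
    linarith

end

end Vale.Agent.P050.SP
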