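import Vale.Agent.P050.R4.H153.MfG
import Vale.Agent.P050.R4.H153.TreeApt

/-!
# P050, graphs made from frames with mirror images and copies, with parts of the class `Apt`
-/

namespace Vale.Agent.P050.SP

open Vale.Agent.P050.Lev

theorem soundK_apt : SoundK fun e => Apt e .cen := fun _ he =>
  ⟨he.fits.1, he.fits.2, fun _ _ _ _ _ _ h => he.sem h⟩

end Vale.Agent.P050.SP
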