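import Vale.Agent.P050.R4.H153.ForDef

/-!
# P050, frames with parts, mirror images and copies of earlier frames
-/

namespace Vale.Agent.P050.SP

/-- A part `(u, e, v)`: the terminals of `e` are `u` and `v`. The ends are renamed. -/
def pmap {V W : Type} (f : V → W) (q : V × SP × V) : W × SP × W := (f q.1, q.2.1, f q.2.2)

/-- the edge, with its length, of a part -/
def plen {V : Type} (q : V × SP × V) : V × ℕ × V := (q.1, len q.2.1, q.2.2)

/-- a set of vertices with a list of edges and a list of parts (an earlier frame) -/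
abbrev Blk (V : Type) := Set V × Multiset (V × ℕ × V) × Multiset (V × SP × V)

/-- the vertices are renamed -/
def bmap {V W : Type} (f : V → W) (b : Blk V) : Blk W :=
  (f '' b.1, b.2.1.map (emap f), b.2.2.map (pmap f))

/-- the earlier frames, after a step -/
def oldB {V : Type} (N : Type) (B : Set (Blk V)) : Set (Blk (V ⊕ N)) :=
  {b | ∃ b₀ ∈ B, b = bmap .inl b₀}

/-- the records after copying vertices in `U`; `ρ` sends each of them to its copy and every other
vertex to itself: the old ones, and the images of those on vertices in `U` -/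
def copyT {V N : Type} (R : Set (Set V × Multiset (V × ℕ × V))) (U : Set V) (ρ : V → V ⊕ N) :
    Set (Set (V ⊕ N) × Multiset ((V ⊕ N) × ℕ × (V ⊕ N))) :=
  oldT N R ∪ {r | ∃ r₀ ∈ R, r₀.1 ⊆ U ∧ r = tmap ρ r₀}

/-- the earlier frames after copying vertices in `U` -/
def copyB {V N : Type} (B : Set (Blk V)) (U : Set V) (ρ : V → V ⊕ N) : Set (Blk (V ⊕ N)) :=
  oldB N B ∪ {b | ∃ b₀ ∈ B, b₀.1 ⊆ U ∧ b = bmap ρ b₀}

/-- `MFrame C K L M R B`: a structure on the vertices `V`, consisting of a list `L` of edges with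
positive lengths which are still to be replaced by parts, a list `M` of parts between vertices, a
set `R` of recorded trees and a set `B` of recorded earlier frames. `C e d`: the part `e` may be put
at distance `d`. `K e`: the part `e` is centred. -/
inductive MFrame (C : SP → ℕ → Prop) (K : SP → Prop) : {V : Type} → Multiset (V × ℕ × V) →
    Multiset (V × SP × V) → Set (Set V × Multiset (V × ℕ × V)) → Set (Blk V) → Prop
  /-- one vertex -/
  | point : MFrame C K (V := Unit) 0 0 {(Set.univ, 0)} ∅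
  /-- other records -/
  | weak {V : Type} {L : Multiset (V × ℕ × V)} {M : Multiset (V × SP × V)}
      {R R' : Set (Set V × Multiset (V × ℕ × V))} {B B' : Set (Blk V)} :
      MFrame C K L M R B → (∀ r' ∈ R', ∃ r ∈ R, TDer r r') →
      (∀ b ∈ B', b ∈ B ∨ b = (Set.univ, L, M)) → MFrame C K L M R' B'
  /-- a new edge at a recorded vertex `a` -/
  | pen {V : Type} {L : Multiset (V × ℕ × V)} {M : Multiset (V × SP × V)}
      {R : Set (Set V × Multiset (V × ℕ × V))} {B : Set (Blk V)} {U : Set V}
      {E : Multiset (V × ℕ × V)} {a : V} {d : ℕ} :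
      MFrame C K L M R B → (U, E) ∈ R → a ∈ U → 0 < d →
      MFrame C K ((.inl a, d, .inr ()) ::ₘ L.map (emap .inl)) (M.map (pmap .inl)) (penT R a d)
        (oldB Unit B)
  /-- the vertices `g n` of a recorded tree are cloned, with all edges of the tree -/
  | clone {V N : Type} {L : Multiset (V × ℕ × V)} {M : Multiset (V × SP × V)}
      {R : Set (Set V × Multiset (V × ℕ × V))} {B : Set (Blk V)} {U : Set V}
      {E : Multiset (V × ℕ × V)} {g : N → V} {ρ : V → V ⊕ N} :
      MFrame C K L M R B → (U, E) ∈ R → (∀ p ∈ E, p.1 ∈ U ∧ p.2.2 ∈ U) →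
      (∀ n, ρ (g n) = .inr n) → (∀ v, (∀ n, g n ≠ v) → ρ v = .inl v) →
      MFrame C K (L.map (emap .inl) + E.map (emap ρ)) (M.map (pmap .inl)) (cloneT R g ρ E)
        (oldB N B)
  /-- an edge is subdivided -/
  | sub {V : Type} {L : Multiset (V × ℕ × V)} {M : Multiset (V × SP × V)}
      {R : Set (Set V × Multiset (V × ℕ × V))} {B : Set (Blk V)} {u w : V} {d d' : ℕ} :
      MFrame C K ((u, d + d', w) ::ₘ L) M R B → 0 < d → 0 < d' →
      MFrame C K ((.inl u, d, .inr ()) ::ₘ (.inr (), d', .inl w) ::ₘ L.map (emap .inl))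
        (M.map (pmap .inl)) (subT R u d d' w) (oldB Unit B)
  /-- an edge is replaced by a tight part of its length -/
  | real {V : Type} {L : Multiset (V × ℕ × V)} {M : Multiset (V × SP × V)}
      {R : Set (Set V × Multiset (V × ℕ × V))} {B : Set (Blk V)} {e : SP} {u v : V} :
      MFrame C K ((u, len e, v) ::ₘ L) M R B → ({u, v}, {(u, len e, v)}) ∈ R → u ≠ v →
      C e (len e) → MFrame C K L ((u, e, v) ::ₘ M) R B
  /-- a part is put between two vertices at distance `d` on a record -/
  | att {V : Type} {L : Multiset (V × ℕ × V)} {M : Multiset (V × SP × V)}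
      {R : Set (Set V × Multiset (V × ℕ × V))} {B : Set (Blk V)} {e : SP} {u v : V} {d : ℕ} :
      MFrame C K L M R B → ({u, v}, {(u, d, v)}) ∈ R → u ≠ v → C e d →
      MFrame C K L ((u, e, v) ::ₘ M) R B
  /-- The vertices `g n` of a recorded tree are mirrored: they get copies, the edges of the tree are
  copied, replaced by the tight parts `Q`, and centred parts `Z` are put between vertices and their
  copies. The copies are not recorded. -/
  | mirror {V N : Type} {L : Multiset (V × ℕ × V)} {M Q : Multiset (V × SP × V)}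
      {R : Set (Set V × Multiset (V × ℕ × V))} {B : Set (Blk V)} {U : Set V} {g : N → V}
      {ρ : V → V ⊕ N} {Z : Multiset (N × SP)} : MFrame C K L M R B → (U, Q.map plen) ∈ R →
      (∀ q ∈ Q, q.1 ∈ U ∧ q.2.2 ∈ U ∧ q.1 ≠ q.2.2 ∧ C q.2.1 (len q.2.1) ∧
        ({q.1, q.2.2}, {plen q}) ∈ R) →
      (∀ n, g n ∈ U ∧ ({g n}, 0) ∈ R) → (∀ n, ρ (g n) = .inr n) →
      (∀ v, (∀ n, g n ≠ v) → ρ v = .inl v) → (∀ q ∈ Z, K q.2) →
      MFrame C K (L.map (emap .inl)) (M.map (pmap .inl) + Q.map (pmap ρ) +
        Z.map fun q => (.inl (g q.1), q.2, .inr q.1)) (oldT N R) (oldB N B)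
  /-- The vertices `g n` of an earlier frame on the vertices `U` are copied; the edges `E'`, which
  form a forest on the other vertices, are not doubled. -/
  | copy {V N : Type} {L : Multiset (V × ℕ × V)} {M Q : Multiset (V × SP × V)}
      {R : Set (Set V × Multiset (V × ℕ × V))} {B : Set (Blk V)} {U : Set V}
      {E E' : Multiset (V × ℕ × V)} {g : N → V} {ρ : V → V ⊕ N} :
      MFrame C K L M R B → (U, E + E', Q) ∈ B → (∀ p ∈ E + E', p.1 ∈ U ∧ p.2.2 ∈ U) →
      (∀ q ∈ Q, q.1 ∈ U ∧ q.2.2 ∈ U) → (∀ p ∈ E', ∀ n, g n ≠ p.1 ∧ g n ≠ p.2.2) → Forest E' →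
      (∀ n, ρ (g n) = .inr n) → (∀ v, (∀ n, g n ≠ v) → ρ v = .inl v) →
      MFrame C K (L.map (emap .inl) + E.map (emap ρ)) (M.map (pmap .inl) + Q.map (pmap ρ))
        (copyT R U ρ) (copyB B U ρ)
  /-- The vertices `g n` of an earlier frame on the vertices `U` are mirrored: all its edges were
  replaced by parts, except the edges `E'`, which form a forest on the other vertices and are not
  doubled; the parts are copied and centred parts `Z` are put between vertices and their copies. The
  copies are not recorded. -/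
  | mirrorB {V N : Type} {L : Multiset (V × ℕ × V)} {M Q : Multiset (V × SP × V)}
      {R : Set (Set V × Multiset (V × ℕ × V))} {B : Set (Blk V)} {U : Set V}
      {E' : Multiset (V × ℕ × V)} {g : N → V} {ρ : V → V ⊕ N} {Z : Multiset (N × SP)} :
      MFrame C K L M R B → (U, E', Q) ∈ B → (∀ p ∈ E', p.1 ∈ U ∧ p.2.2 ∈ U) →
      (∀ q ∈ Q, q.1 ∈ U ∧ q.2.2 ∈ U) → (∀ p ∈ E', ∀ n, g n ≠ p.1 ∧ g n ≠ p.2.2) → Forest E' →
      (∀ n, g n ∈ U ∧ ({g n}, 0) ∈ R) → (∀ n, ρ (g n) = .inr n) →
      (∀ v, (∀ n, g n ≠ v) → ρ v = .inl v) → (∀ q ∈ Z, K q.2) →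
      MFrame C K (L.map (emap .inl)) (M.map (pmap .inl) + Q.map (pmap ρ) +
        Z.map fun q => (.inl (g q.1), q.2, .inr q.1)) (oldT N R) (oldB N B)
  /-- Two frames are glued: the vertices `v` of the second one which are no `g n` are the vertices of
  a connected tree `E` which is recorded in both frames, they are identified with the vertices
  `τ v` of the first frame. The edges `E'` of the second frame, which form a forest on the common
  vertices, are not doubled. -/
  | glue {V V' N : Type} {L : Multiset (V × ℕ × V)} {M : Multiset (V × SP × V)}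
      {R : Set (Set V × Multiset (V × ℕ × V))} {B : Set (Blk V)}
      {L' E' E : Multiset (V' × ℕ × V')} {M' : Multiset (V' × SP × V')}
      {R' : Set (Set V' × Multiset (V' × ℕ × V'))} {B' : Set (Blk V')} {g : N → V'}
      {τ : V' → V} {ρ : V' → V ⊕ N} :
      MFrame C K L M R B → MFrame C K (L' + E') M' R' B' → ({v | ∀ n, g n ≠ v}, E) ∈ R' →
      tmap τ ({v | ∀ n, g n ≠ v}, E) ∈ R →
      (∀ u v, (∀ n, g n ≠ u) → (∀ n, g n ≠ v) → τ u = τ v → u = v) →
      (∀ u v, (∀ n, g n ≠ u) → (∀ n, g n ≠ v) →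
        Relation.EqvGen (fun a b => ∃ d, (a, d, b) ∈ E) u v) →
      (∀ p ∈ E + E', ∀ n, g n ≠ p.1 ∧ g n ≠ p.2.2) → Forest E' → (∀ n, ρ (g n) = .inr n) →
      (∀ v, (∀ n, g n ≠ v) → ρ v = .inl (τ v)) →
      MFrame C K (L.map (emap .inl) + L'.map (emap ρ)) (M.map (pmap .inl) + M'.map (pmap ρ))
        (oldT N R ∪ {r | ∃ r₀ ∈ R', r = tmap ρ r₀})
        (oldB N B ∪ {b | ∃ b₀ ∈ B', b = bmap ρ b₀})

/-- Graphs made from frames: the parts in the list `M` are still to be attached. -/
inductive MFrG (C : SP → ℕ → Prop) (K : SP → Prop) :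
    {V : Type} → SimpleGraph V → Multiset (V × SP × V) → Prop
  /-- the frame -/
  | frame {V : Type} {M : Multiset (V × SP × V)} {R : Set (Set V × Multiset (V × ℕ × V))}
      {B : Set (Blk V)} : MFrame C K 0 M R B → MFrG C K (⊥ : SimpleGraph V) M
  /-- a part is attached -/
  | att {V : Type} {H : SimpleGraph V} {M : Multiset (V × SP × V)} {e : SP} {u v : V} :
      MFrG C K H ((u, e, v) ::ₘ M) → u ≠ v → simple e → ¬ (direct e ∧ H.Adj u v) →
      MFrG C K (att H e u v) (M.map (pmap .inl))

end Vale.Agent.P050.SP
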