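import Vale.Agent.P050.R4.H153.MfGain
import Vale.Agent.P050.R4.H987.MfReal
import Vale.Agent.P050.R4.H859.CopyMok
import Vale.Agent.P050.R4.H345.MirBOk
import Vale.Agent.P050.R4.H153.GlOk
import Vale.Agent.P050.R3.H987.Sid

/-!
# P050, mirrored frames: the theorem
-/

namespace Vale.Agent.P050.SP

open Finset Matrix Vale.Agent.P050.Ears Vale.Agent.P050.Lev Vale.Agent.P050.Mirror

/-- a class of centred parts -/
def SoundK (K : SP → Prop) : Prop :=
  ∀ e, K e → bip e ∧ len e % 2 = 0 ∧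
    ∀ (S : Type) [Fintype S] [DecidableEq S] (A : Matrix S S ℝ) (μ : S → ℝ) (c : S → Bool),
      Rev A μ c → MirS μ c (SP.K A μ e)

section

variable {S : Type} [Fintype S] [DecidableEq S] {A : Matrix S S ℝ} {μ : S → ℝ} {c : S → Bool}
variable {V N : Type} [Fintype V] [DecidableEq V] [Fintype N] [DecidableEq N]
variable {g : N → V} {side : V → Bool} {P : (V → S) → ℝ}
variable {B : Multiset (V × SP × V)} {Z : Multiset (N × SP)}

theorem mir_ne (h : Rev A μ c) (hg : Function.Injective g) (hP : ∀ z, 0 ≤ P z)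
    (hB : BOK A μ c side P B) (hZ : ∀ q ∈ Z, MirS μ c (K A μ q.2)) {z : V → S}
    (hm : mus side μ c z ≠ 0) (hz : P z ≠ 0) : mirW A μ c side g B Z z ≠ 0 := by
  unfold mirW
  refine (Finset.sum_pos' (fun y _ => mul_nonneg (mus_nonneg h _ _)
    (mul_nonneg (partE_nonneg h _ _) (cenE_nonneg h Z _ _)))
    ⟨fun n => z (g n), mem_univ _, ?_⟩).ne'
  have h1 : Function.extend g (fun n => z (g n)) z = z := by
    funext v
    by_cases hv : ∃ n, g n = v
    · obtain ⟨n, rfl⟩ := hv
      rw [hg.extend_apply]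
    · rw [Function.extend_apply' _ _ _ hv]
  rw [h1]
  refine mul_pos ?_ (mul_pos (BOK.pos h hP hB (lt_of_le_of_ne (hP z) hz.symm)).1
    (cenE_diag h Z hZ _))
  refine Finset.prod_pos fun n _ => ?_
  rw [if_pos (mus_side hm (g n))]
  exact h.pos _

end

variable {V : Type} {L : Multiset (V × ℕ × V)} {M : Multiset (V × SP × V)}
variable {R : Set (Set V × Multiset (V × ℕ × V))} {B : Set (Blk V)}
variable {iF : Fintype V} {iD : DecidableEq V} {side : V → Bool} {C : SP → ℕ → Prop}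
variable {K : SP → Prop}

/-- a mirror image -/
theorem MOK.mirror {N : Type} {Q : Multiset (V × SP × V)} {U : Set V} {g : N → V}
    {ρ : V → V ⊕ N} {Z : Multiset (N × SP)} {iN : Fintype N} {iE : DecidableEq N}
    (hC : Sound C) (hK : SoundK K) (hT : MOK L M R B iF iD side) (hr : (U, Q.map plen) ∈ R)
    (hQ : ∀ q ∈ Q, q.1 ∈ U ∧ q.2.2 ∈ U ∧ q.1 ≠ q.2.2 ∧ C q.2.1 (len q.2.1) ∧
      ({q.1, q.2.2}, {plen q}) ∈ R)
    (hgU : ∀ n, g n ∈ U ∧ ({g n}, 0) ∈ R) (hg : ∀ n, ρ (g n) = .inr n)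
    (hρ : ∀ v, (∀ n, g n ≠ v) → ρ v = .inl v) (hZ : ∀ q ∈ Z, K q.2) :
    MOK (L.map (emap .inl)) (M.map (pmap .inl) + Q.map (pmap ρ) +
      Z.map fun q => (.inl (g q.1), q.2, .inr q.1)) (oldT N R) (oldB N B) inferInstance
      inferInstance (Sum.elim side fun n => side (g n)) := by
  refine ⟨TOK.old hT.virt, fun q hq => ?_, ?_, bok_old hT.bok, fun S _ _ A μ c h => ?_⟩
  · rcases Multiset.mem_add.1 hq with hq | hq
    · rcases Multiset.mem_add.1 hq with hq | hq
      · exact prt_old hT.prt q hq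
      · obtain ⟨p, hp, rfl⟩ := Multiset.mem_map.1 hq
        refine ⟨?_, (hC _ _ (hQ p hp).2.2.2.1).1⟩
        change Sum.elim side _ (ρ p.2.2) = sh (Sum.elim side _ (ρ p.1)) (len p.2.1)
        rw [clone_side hg hρ, clone_side hg hρ]
        exact hT.rok _ hr (plen p) (Multiset.mem_map_of_mem _ hp)
    · obtain ⟨p, hp, rfl⟩ := Multiset.mem_map.1 hq
      obtain ⟨k1, k2, _⟩ := hK _ (hZ p hp)
      refine ⟨?_, k1⟩
      change side (g p.1) = sh (side (g p.1)) (len p.2)
      unfold sh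
      rw [k2]
      simp
  · rintro r ⟨r₀, h0, rfl⟩
    exact TOK.old (hT.rok r₀ h0)
  · obtain ⟨P, hP, hM, hB⟩ := hT.law S A μ c h
    have gi : Function.Injective g := clone_inj hg
    have hb : BOK A μ c side P Q := fun q hq => by
      obtain ⟨_, _, h3, h4, h5⟩ := hQ q hq
      obtain ⟨b1, _, _, b4⟩ := hC _ _ h4
      exact ⟨MargT.two h h3 (hT.rok _ h5 (plen q) (Multiset.mem_singleton_self _)) (hM _ h5),
        b1, b4 S A μ c h⟩
    have hz : ∀ q ∈ Z, MirS μ c (SP.K A μ q.2) := fun q hq => (hK _ (hZ q hq)).2.2 S A μ c h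
    have hU : ∀ q ∈ Q, q.1 ∈ U ∧ q.2.2 ∈ U := fun q hq => ⟨(hQ q hq).1, (hQ q hq).2.1⟩
    set f : (V ⊕ N → S) → ℝ := partE A μ (Q.map (pmap ρ) +
      Z.map fun q => ((.inl (g q.1), q.2, .inr q.1) : (V ⊕ N) × SP × (V ⊕ N))) with hf
    have hw : ∀ z, zwG μ c (fun n => side (g n)) f z = mirW A μ c side g Q Z z := fun z =>
      Finset.sum_congr rfl fun y _ => by rw [hf, mir_factor hg hρ]
    have hne : ∀ z, P z ≠ 0 → zwG μ c (fun n => side (g n)) f z ≠ 0 := fun z h0 => by
      rw [hw]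
      exact mir_ne h gi hP.nonneg hb hz (hP.mus_ne h0) h0
    have hl := hP.ext (sN := fun n => side (g n)) (f := f)
      (w₂ := fun z => kapE A μ L z * partE A μ M z) (ℓ := fun _ => 1) h
      (fun z => partE_nonneg h _ _)
      (fun z => mul_nonneg (kapE_nonneg h _ _) (partE_nonneg h _ _))
      (fun z => by rw [one_mul]) hne (by
        simp only [Real.log_one, mul_zero, Finset.sum_const_zero, hw]
        exact mir_gain h gi hP.nonneg hP.sum (hM _ hr) hU (fun n => (hgU n).1) hb hz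
          fun n => hM _ (hgU n).2)
    have e1 : (fun z : V ⊕ N → S => kapE A μ L (fun v => z (.inl v)) *
        partE A μ M (fun v => z (.inl v)) * f z) = fun z =>
        kapE A μ (L.map (emap .inl)) z * partE A μ (M.map (pmap .inl) + Q.map (pmap ρ) +
          Z.map fun q => (.inl (g q.1), q.2, .inr q.1)) z := by
      funext z
      rw [kapE_map, add_assoc, partE_add, partE_map, mul_assoc]
    rw [e1] at hl
    refine ⟨_, hl, ?_, bal_old h hne hB⟩
    rintro r ⟨r₀, h0, rfl⟩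
    exact (hM r₀ h0).ext_oldG h hne

theorem MFrame.ok (hC : Sound C) (hK : SoundK K) {V : Type} {L : Multiset (V × ℕ × V)}
    {M : Multiset (V × SP × V)} {R : Set (Set V × Multiset (V × ℕ × V))} {B : Set (Blk V)}
    (hF : MFrame C K L M R B) :
    ∃ (iF : Fintype V) (iD : DecidableEq V) (side : V → Bool), MOK L M R B iF iD side := by
  induction hF with
  | point => exact ⟨inferInstance, inferInstance, _, MOK.point⟩
  | weak _ hd hb ih =>
    obtain ⟨iF, iD, side, hT⟩ := ih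
    exact ⟨iF, iD, side, hT.weak hd hb⟩
  | pen _ _ _ _ ih =>
    obtain ⟨iF, iD, side, hT⟩ := ih
    exact ⟨inferInstance, inferInstance, _, hT.pen⟩
  | @clone V N L M R B U E g ρ _ hr hE hg hρ ih =>
    obtain ⟨iF, iD, side, hT⟩ := ih
    classical
    let iN : Fintype N := Fintype.ofInjective g (clone_inj hg)
    exact ⟨inferInstance, inferInstance, _, hT.clone hr hE hg hρ⟩
  | sub _ _ _ ih =>
    obtain ⟨iF, iD, side, hT⟩ := ih
    exact ⟨inferInstance, inferInstance, _, hT.sub⟩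
  | real _ hr huv he ih =>
    obtain ⟨iF, iD, side, hT⟩ := ih
    exact ⟨iF, iD, side, hT.real hC hr huv he⟩
  | att _ hr huv he ih =>
    obtain ⟨iF, iD, side, hT⟩ := ih
    exact ⟨iF, iD, side, hT.att hC hr huv he⟩
  | @mirror V N L M Q R B U g ρ Z _ hr hQ hgU hg hρ hZ ih =>
    obtain ⟨iF, iD, side, hT⟩ := ih
    classical
    let iN : Fintype N := Fintype.ofInjective g (clone_inj hg)
    exact ⟨inferInstance, inferInstance, _, hT.mirror hC hK hr hQ hgU hg hρ hZ⟩
  | @copy V N L M Q R B U E E' g ρ _ hb hE hQ hE' hF hg hρ ih =>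
    obtain ⟨iF, iD, side, hT⟩ := ih
    classical
    let iN : Fintype N := Fintype.ofInjective g (clone_inj hg)
    exact ⟨inferInstance, inferInstance, _, hT.copy hb hE hQ hE' hF hg hρ⟩
  | @mirrorB V N L M Q R B U E' g ρ Z _ hb hE hQ hE' hF hgU hg hρ hZ ih =>
    obtain ⟨iF, iD, side, hT⟩ := ih
    classical
    let iN : Fintype N := Fintype.ofInjective g (clone_inj hg)
    exact ⟨inferInstance, inferInstance, _,
      hT.mirB hb hE hQ hE' hF hgU hg hρ fun q hq => hK _ (hZ q hq)⟩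
  | @glue V V' N L M R B L' E' E M' R' B' g τ ρ _ _ hr' hr hτ hc hE hF hg hρ ih ih' =>
    obtain ⟨iF, iD, side, hT⟩ := ih
    obtain ⟨iF', iD', side', hT'⟩ := ih'
    classical
    let iN : Fintype N := Fintype.ofInjective g (glue_inj hg)
    obtain ⟨s, hs⟩ := hT.glue hT' hr' hr hτ hc hE hF hg hρ
    exact ⟨inferInstance, inferInstance, s, hs⟩

/-- The theorem on graphs made from mirrored frames. -/
theorem MFrG.gsid (hC : Sound C) (hK : SoundK K) {V W : Type} [Fintype V] [DecidableEq V]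
    {H : SimpleGraph V} {G : SimpleGraph W} (hG : MFrG C K G 0) (φ : H ≃g G) :
    ∃ side : V → Bool, GSid H side :=
  MFrG.gsid_of (fun hF => hF.ok hC hK) hG φ

theorem MFrG.sid (hC : Sound C) (hK : SoundK K) {V W : Type} [Fintype V] [DecidableEq V]
    {H : SimpleGraph V} {G : SimpleGraph W} (hG : MFrG C K G 0) (φ : H ≃g G)
    {U : Type*} [Finite U] [Nonempty U] (T : SimpleGraph U) :
    edgeDensity T ^ Nat.card H.edgeSet ≤ homDensity H T := by
  obtain ⟨side, hs⟩ := hG.gsid hC hK φ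
  exact sidorenko_of_gsid hs T

end Vale.Agent.P050.SP
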