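import Vale.Agent.P050.R4.H153.MfPart
import Vale.Agent.P050.R4.H345.Adm

/-!
# P050, mirrored frames: the gain of a mirror image
-/

namespace Vale.Agent.P050.SP

open Finset Matrix Vale.Agent.P050.Ears Vale.Agent.P050.Lev Vale.Agent.P050.Mirror

variable {S : Type} [Fintype S] [DecidableEq S] {A : Matrix S S ℝ} {μ : S → ℝ} {c : S → Bool}
variable {V N : Type} [Fintype V] [DecidableEq V] [Fintype N] [DecidableEq N]
variable {g : N → V} {ρ : V → V ⊕ N} {side : V → Bool} {P : (V → S) → ℝ}
variable {B : Multiset (V × SP × V)} {Z : Multiset (N × SP)} {U : Set V}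

/-- the kernel of the centred parts -/
noncomputable def cenE (A : Matrix S S ℝ) (μ : S → ℝ) (Z : Multiset (N × SP)) (y y' : N → S) :
    ℝ := (Z.map fun q => K A μ q.2 (y q.1) (y' q.1)).prod

theorem cenE_cons (n : N) (s : SP) (Z : Multiset (N × SP)) (y y' : N → S) :
    cenE A μ ((n, s) ::ₘ Z) y y' = cenE A μ Z y y' * K A μ s (y n) (y' n) := by
  simp [cenE, mul_comm]

theorem cenE_nonneg (h : Rev A μ c) (Z : Multiset (N × SP)) (y y' : N → S) :
    0 ≤ cenE A μ Z y y' := by
  unfold cenE
  refine Multiset.prod_nonneg fun x hx => ?_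
  obtain ⟨p, _, rfl⟩ := Multiset.mem_map.1 hx
  exact K_nonneg h _ _ _

theorem cenE_diag (h : Rev A μ c) (Z : Multiset (N × SP))
    (hZ : ∀ q ∈ Z, MirS μ c (K A μ q.2)) (y : N → S) : 0 < cenE A μ Z y y := by
  induction Z using Multiset.induction_on with
  | empty => simp [cenE]
  | cons q Z ih =>
    obtain ⟨n, s⟩ := q
    rw [cenE_cons]
    exact mul_pos (ih fun q hq => hZ q (Multiset.mem_cons_of_mem hq))
      ((hZ (n, s) (Multiset.mem_cons_self _ _)).1.2.1 _)

/-- the mirror inequality for the centred parts -/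
theorem cenE_MI (h : Rev A μ c) (Z : Multiset (N × SP)) (hZ : ∀ q ∈ Z, MirS μ c (K A μ q.2))
    (m : (N → S) → ℝ) (hm : ∀ y, 0 ≤ m y)
    (h1 : ∀ n x, (∑ y : N → S, if y n = x then m y else 0) =
      if c x = side (g n) then μ x else 0) : MI m (cenE A μ Z) := by
  induction Z using Multiset.induction_on with
  | empty =>
    have h2 : (cenE A μ (0 : Multiset (N × SP)) : (N → S) → (N → S) → ℝ) = fun _ _ => 1 := by
      funext y y'; simp [cenE]
    rw [h2]
    exact MI_one m
  | cons q Z ih =>
    obtain ⟨n, s⟩ := q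
    have hZ' : ∀ q ∈ Z, MirS μ c (K A μ q.2) := fun q hq => hZ q (Multiset.mem_cons_of_mem hq)
    have h2 : cenE A μ ((n, s) ::ₘ Z) =
        fun y y' : N → S => cenE A μ Z y y' * K A μ s (y n) (y' n) := by
      funext y y'; exact cenE_cons n s Z y y'
    rw [h2]
    exact (hZ (n, s) (Multiset.mem_cons_self _ _)).1.2.2 (side (g n)) (N → S) m (fun y => y n)
      (cenE A μ Z) hm (h1 n) (fun _ _ => cenE_nonneg h Z _ _)
      (fun y _ => cenE_diag h Z hZ' y) (ih hZ')

/-- the one-vertex law -/
theorem mus_one (h : Rev A μ c) (v : V) (φ : S → ℝ) :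
    ∑ z, mus side μ c z * φ (z v) = ∑ x, (if c x = side v then μ x else 0) * φ x := by
  rw [resample_one h side v]
  have h1 : ∀ z : V → S, ∑ x, (if c x = side v then μ x else 0) *
      φ (Function.update z v x v) = ∑ x, (if c x = side v then μ x else 0) * φ x := fun z =>
    Finset.sum_congr rfl fun x _ => by rw [Function.update_self]
  simp only [h1]
  rw [← Finset.sum_mul, mus_sum h, one_mul]

theorem ext_ext (hg : Function.Injective g) (y y' : N → S) (z : V → S) :
    Function.extend g y (Function.extend g y' z) = Function.extend g y z := by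
  funext v
  by_cases hv : ∃ n, g n = v
  · obtain ⟨n, rfl⟩ := hv
    rw [hg.extend_apply, hg.extend_apply]
  · rw [Function.extend_apply' _ _ _ hv, Function.extend_apply' _ _ _ hv,
      Function.extend_apply' _ _ _ hv]

/-- the new factor of a mirror image -/
theorem mir_factor (hg : ∀ n, ρ (g n) = .inr n) (hρ : ∀ v, (∀ n, g n ≠ v) → ρ v = .inl v)
    (z : V → S) (y : N → S) :
    partE A μ (B.map (pmap ρ) +
      Z.map fun q => ((.inl (g q.1), q.2, .inr q.1) : (V ⊕ N) × SP × (V ⊕ N))) (Sum.elim z y) =
      partE A μ B (Function.extend g y z) * cenE A μ Z (fun n => z (g n)) y := by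
  rw [partE_add, partE_map, clone_extend hg hρ]
  congr 1
  unfold partE cenE
  rw [Multiset.map_map]
  rfl

/-- the conditions on the parts which replace the edges -/
def BOK (A : Matrix S S ℝ) (μ : S → ℝ) (c : S → Bool) (side : V → Bool) (P : (V → S) → ℝ)
    (B : Multiset (V × SP × V)) : Prop :=
  ∀ q ∈ B, MargD A μ c P q.1 q.2.2 (len q.2.1) (side q.1) ∧ bip q.2.1 ∧
    GoodK A μ c (len q.2.1) (len q.2.1) (K A μ q.2.1)

theorem BOK.pos (h : Rev A μ c) (hP : ∀ z, 0 ≤ P z) (hB : BOK A μ c side P B) {z : V → S}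
    (hz : 0 < P z) : 0 < partE A μ B z ∧ 0 < kapE A μ (B.map plen) z := by
  induction B using Multiset.induction_on with
  | empty => simp [partE, kapE]
  | cons q B ih =>
    obtain ⟨u, e, v⟩ := q
    obtain ⟨hm, hb, _⟩ := hB (u, e, v) (Multiset.mem_cons_self _ _)
    obtain ⟨i1, i2⟩ := ih fun q hq => hB q (Multiset.mem_cons_of_mem hq)
    have h1 : 0 < (A ^ len e) (z u) (z v) := hm.pow_pos h hP hz
    have h2 : plen (u, e, v) = (u, len e, v) := rfl
    rw [partE_cons, Multiset.map_cons, h2, kapE_cons]
    exact ⟨mul_pos (K_pos h e hb _ _ h1) i1, mul_pos (div_pos h1 (h.pos _)) i2⟩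

theorem BOK.gain (h : Rev A μ c) (hP : ∀ z, 0 ≤ P z) (hB : BOK A μ c side P B) :
    0 ≤ ∑ z, P z * (Real.log (partE A μ B z) - Real.log (kapE A μ (B.map plen) z)) := by
  induction B using Multiset.induction_on with
  | empty => simp [partE, kapE]
  | cons q B ih =>
    obtain ⟨u, e, v⟩ := q
    obtain ⟨hm, hb, hg⟩ := hB (u, e, v) (Multiset.mem_cons_self _ _)
    have hB' : BOK A μ c side P B := fun q hq => hB q (Multiset.mem_cons_of_mem hq)
    have h2 : plen (u, e, v) = (u, len e, v) := rfl
    have h3 : ∀ z, P z * (Real.log (partE A μ ((u, e, v) ::ₘ B) z) -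
        Real.log (kapE A μ (((u, e, v) ::ₘ B).map plen) z)) =
        (P z * Real.log (K A μ e (z u) (z v)) - P z * Real.log (kap A μ (len e) (z u) (z v))) +
        P z * (Real.log (partE A μ B z) - Real.log (kapE A μ (B.map plen) z)) := by
      intro z
      rcases (hP z).eq_or_lt with h0 | h0
      · rw [← h0]; ring
      · obtain ⟨i1, i2⟩ := BOK.pos h hP hB' h0
        have h1 : 0 < (A ^ len e) (z u) (z v) := hm.pow_pos h hP h0
        have k1 : kap A μ (len e) (z u) (z v) ≠ 0 := (div_pos h1 (h.pos _)).ne'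
        rw [partE_cons, Multiset.map_cons, h2, kapE_cons,
          Real.log_mul (K_pos h e hb _ _ h1).ne' i1.ne', Real.log_mul k1 i2.ne']
        ring
    rw [Finset.sum_congr rfl fun z _ => h3 z, Finset.sum_add_distrib, Finset.sum_sub_distrib,
      hm fun x y => Real.log (K A μ e x y), hm fun x y => Real.log (kap A μ (len e) x y)]
    have h4 := hg (side u)
    rw [if_pos rfl, J] at h4
    have h5 : EL (pd A μ c (len e) (side u)) (K A μ e) =
        ∑ x, ∑ y, pd A μ c (len e) (side u) x y * Real.log (K A μ e x y) := rfl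
    have h6 : EL (pd A μ c (len e) (side u)) (kap A μ (len e)) =
        ∑ x, ∑ y, pd A μ c (len e) (side u) x y * Real.log (kap A μ (len e) x y) := rfl
    rw [h5, h6] at h4
    have := ih hB'
    linarith

/-- the total weight of a mirror image -/
noncomputable def mirW (A : Matrix S S ℝ) (μ : S → ℝ) (c : S → Bool) (side : V → Bool)
    (g : N → V) (B : Multiset (V × SP × V)) (Z : Multiset (N × SP)) (z : V → S) : ℝ :=
  ∑ y : N → S, mus (fun n => side (g n)) μ c y *
    (partE A μ B (Function.extend g y z) * cenE A μ Z (fun n => z (g n)) y)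

/-- resampling the vertices of a record -/
theorem rec_sum (h : Rev A μ c) (hg : Function.Injective g)
    (hr : MargT A μ c side P (U, B.map plen)) (Φ : (V → S) → ℝ)
    (hΦ : ∀ z z' : V → S, (∀ v ∈ U, z v = z' v) → Φ z = Φ z') :
    ∑ z, P z * Φ z = ∑ z, ∑ y : N → S, mus side μ c z * (mus (fun n => side (g n)) μ c y *
      kapE A μ (B.map plen) (Function.extend g y z)) * Φ (Function.extend g y z) := by
  rw [hr Φ hΦ]
  have h1 := resample h side hg fun z => kapE A μ (B.map plen) z * Φ z
  have h2 : ∀ z : V → S, mus side μ c z * kapE A μ (B.map plen) z * Φ z =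
      mus side μ c z * (kapE A μ (B.map plen) z * Φ z) := fun z => by ring
  change ∑ z, mus side μ c z * kapE A μ (B.map plen) z * Φ z = _
  rw [Finset.sum_congr rfl fun z _ => h2 z, h1]
  refine Finset.sum_congr rfl fun z _ => ?_
  rw [Finset.mul_sum]
  exact Finset.sum_congr rfl fun y _ => by ring

theorem mext_dep {z z' : V → S} (hz : ∀ v ∈ U, z v = z' v) (y : N → S) {v : V} (hv : v ∈ U) :
    Function.extend g y z v = Function.extend g y z' v := by
  classical
  unfold Function.extend
  split_ifs
  · rfl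
  · exact hz v hv

theorem mirW_dep (hU : ∀ q ∈ B, q.1 ∈ U ∧ q.2.2 ∈ U) (hgU : ∀ n, g n ∈ U) {z z' : V → S}
    (hz : ∀ v ∈ U, z v = z' v) : mirW A μ c side g B Z z = mirW A μ c side g B Z z' := by
  unfold mirW
  refine Finset.sum_congr rfl fun y _ => ?_
  have h1 : partE A μ B (Function.extend g y z) = partE A μ B (Function.extend g y z') :=
    partE_congr fun q hq => ⟨mext_dep hz y (hU q hq).1, mext_dep hz y (hU q hq).2⟩
  have h2 : (fun n => z (g n)) = fun n => z' (g n) := funext fun n => hz _ (hgU n)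
  rw [h1, h2]

/-- The gain of a mirror image is nonnegative. -/
theorem mir_gain (h : Rev A μ c) (hg : Function.Injective g) (hP : ∀ z, 0 ≤ P z)
    (hs : ∑ z, P z = 1) (hr : MargT A μ c side P (U, B.map plen))
    (hU : ∀ q ∈ B, q.1 ∈ U ∧ q.2.2 ∈ U) (hgU : ∀ n, g n ∈ U) (hB : BOK A μ c side P B)
    (hZ : ∀ q ∈ Z, MirS μ c (K A μ q.2)) (h1 : ∀ n, MargT A μ c side P ({g n}, 0)) :
    0 ≤ ∑ z, P z * Real.log (mirW A μ c side g B Z z) := by
  set sD : N → Bool := fun n => side (g n) with hsD
  set Ph : (V → S) → (N → S) → ℝ := fun z y => mus side μ c z * (mus sD μ c y *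
    kapE A μ (B.map plen) (Function.extend g y z)) with hPh
  set Fh : (V → S) → (N → S) → ℝ := fun z y => mus sD μ c y *
    partE A μ B (Function.extend g y z) with hFh
  set m : (N → S) → ℝ := fun y => ∑ z, Ph z y with hm
  have P0 : ∀ z y, 0 ≤ Ph z y := fun z y =>
    mul_nonneg (mus_nonneg h _ _) (mul_nonneg (mus_nonneg h _ _) (kapE_nonneg h _ _))
  have rs : ∀ Φ : (V → S) → ℝ, (∀ z z' : V → S, (∀ v ∈ U, z v = z' v) → Φ z = Φ z') →
      ∑ z, P z * Φ z = ∑ z, ∑ y, Ph z y * Φ (Function.extend g y z) := fun Φ hΦ =>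
    rec_sum h hg hr Φ hΦ
  -- the support
  have supp : ∀ z y, 0 < Ph z y → mus side μ c z ≠ 0 ∧ mus sD μ c y ≠ 0 ∧
      kapE A μ (B.map plen) (Function.extend g y z) ≠ 0 ∧
      0 < partE A μ B (Function.extend g y z) := by
    intro z y hz
    have n1 : mus side μ c z ≠ 0 := left_ne_zero_of_mul hz.ne'
    have n2 : mus sD μ c y * kapE A μ (B.map plen) (Function.extend g y z) ≠ 0 :=
      right_ne_zero_of_mul hz.ne'
    refine ⟨n1, left_ne_zero_of_mul n2, right_ne_zero_of_mul n2, ?_⟩
    -- positivity of the kernels of the parts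
    have n3 := right_ne_zero_of_mul n2
    clear hr rs
    have key : ∀ B' : Multiset (V × SP × V), (∀ q ∈ B', bip q.2.1) →
        kapE A μ (B'.map plen) (Function.extend g y z) ≠ 0 →
        0 < partE A μ B' (Function.extend g y z) := by
      intro B'
      induction B' using Multiset.induction_on with
      | empty => intro _ _; simp [partE]
      | cons q B' ih =>
        obtain ⟨u, e, v⟩ := q
        intro hb hk
        have h2 : plen (u, e, v) = (u, len e, v) := rfl
        rw [Multiset.map_cons, h2, kapE_cons] at hk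
        rw [partE_cons]
        refine mul_pos (K_pos h e (hb _ (Multiset.mem_cons_self _ _)) _ _ ?_)
          (ih (fun q hq => hb q (Multiset.mem_cons_of_mem hq)) (right_ne_zero_of_mul hk))
        have h3 := left_ne_zero_of_mul hk
        refine lt_of_le_of_ne (h.pow_nonneg _ _ _) fun h4 => h3 ?_
        unfold kap
        rw [← h4, zero_div]
    exact key B (fun q hq => (hB q hq).2.1) n3
  -- the marginals
  have marg : ∀ n x, (∑ y : N → S, if y n = x then m y else 0) =
      if c x = side (g n) then μ x else 0 := by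
    intro n x
    have e1 := rs (fun z => if z (g n) = x then 1 else 0) fun z z' hz => by
      rw [hz _ (hgU n)]
    have e2 := h1 n (fun z => if z (g n) = x then 1 else 0) fun z z' hz => by
      rw [hz _ rfl]
    have e3 : ∑ z, mus side μ c z * kapE A μ (0 : Multiset (V × ℕ × V)) z *
        (if z (g n) = x then (1 : ℝ) else 0) =
        ∑ z, mus side μ c z * (if z (g n) = x then (1 : ℝ) else 0) :=
      Finset.sum_congr rfl fun z _ => by rw [kapE_zero, mul_one]
    have e4 := mus_one (side := side) h (g n) fun s => if s = x then (1 : ℝ) else 0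
    have e5 : ∑ s, (if c s = side (g n) then μ s else 0) * (if s = x then (1 : ℝ) else 0) =
        if c x = side (g n) then μ x else 0 := by
      rw [Finset.sum_eq_single x]
      · simp
      · intro s _ hs; rw [if_neg hs, mul_zero]
      · intro hx; exact absurd (mem_univ x) hx
    have e6 : ∑ z, ∑ y, Ph z y * (if Function.extend g y z (g n) = x then (1 : ℝ) else 0) =
        ∑ y : N → S, if y n = x then m y else 0 := by
      rw [Finset.sum_comm]
      refine Finset.sum_congr rfl fun y _ => ?_
      simp only [hg.extend_apply]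
      split_ifs
      · simp only [mul_one]; rfl
      · simp
    rw [← e6, ← e1, e2]
    refine Eq.trans ?_ (e3.trans (e4.trans e5))
    rfl
  have mi := cenE_MI (g := g) h Z hZ m (fun y => Finset.sum_nonneg fun z _ => P0 z y) marg
    (V → S) Ph Fh P0 (fun y => rfl)
    (fun z y => mul_nonneg (mus_nonneg h _ _) (partE_nonneg h _ _))
    (fun z y hz => by
      obtain ⟨_, n2, _, n4⟩ := supp z y hz
      exact mul_pos (lt_of_le_of_ne (mus_nonneg h _ _) n2.symm) n4)
  -- the right side
  have rhs : ∑ z, ∑ y, Ph z y * Real.log (∑ y', cenE A μ Z y y' * Fh z y') =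
      ∑ z, P z * Real.log (mirW A μ c side g B Z z) := by
    rw [rs (fun z => Real.log (mirW A μ c side g B Z z)) fun z z' hz => by
      rw [mirW_dep hU hgU hz]]
    refine Finset.sum_congr rfl fun z _ => Finset.sum_congr rfl fun y _ => ?_
    congr 2
    unfold mirW
    refine Finset.sum_congr rfl fun y' _ => ?_
    have e1 : (fun n => Function.extend g y z (g n)) = y := funext fun n => hg.extend_apply _ _ _
    rw [ext_ext hg, e1]
    ring
  rw [rhs] at mi
  refine le_trans ?_ mi
  -- the left side
  set W : (V → S) → ℝ := fun z => ∑ y, mus sD μ c y *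
    kapE A μ (B.map plen) (Function.extend g y z) with hW
  have W0 : ∀ z, 0 ≤ W z := fun z =>
    Finset.sum_nonneg fun y _ => mul_nonneg (mus_nonneg h _ _) (kapE_nonneg h _ _)
  have sumP : ∀ z, ∑ y, Ph z y = mus side μ c z * W z := fun z => by
    rw [hW, Finset.mul_sum]
  have e1 : ∀ z y, Ph z y * (Real.log (Fh z y) - Real.log (Ph z y) +
      Real.log (∑ y', Ph z y')) =
      Ph z y * (Real.log (partE A μ B (Function.extend g y z)) -
        Real.log (kapE A μ (B.map plen) (Function.extend g y z))) +
      Ph z y * Real.log (W z) := by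
    intro z y
    rcases (P0 z y).eq_or_lt with h0 | h0
    · rw [← h0]; ring
    · obtain ⟨n1, n2, n3, n4⟩ := supp z y h0
      have n5 : W z ≠ 0 := fun h5 => by
        have h6 := (Finset.sum_eq_zero_iff_of_nonneg fun y' _ =>
          mul_nonneg (mus_nonneg (side := sD) h y') (kapE_nonneg h _ _)).1 h5 y (mem_univ y)
        exact mul_ne_zero n2 n3 h6
      rw [sumP, Real.log_mul n1 n5]
      have e2 : Real.log (Ph z y) = Real.log (mus side μ c z) + (Real.log (mus sD μ c y) +
          Real.log (kapE A μ (B.map plen) (Function.extend g y z))) := by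
        rw [hPh, Real.log_mul n1 (mul_ne_zero n2 n3), Real.log_mul n2 n3]
      have e3 : Real.log (Fh z y) = Real.log (mus sD μ c y) +
          Real.log (partE A μ B (Function.extend g y z)) := by
        rw [hFh, Real.log_mul n2 n4.ne']
      rw [e2, e3]
      ring
  simp only [e1, Finset.sum_add_distrib]
  refine add_nonneg ?_ ?_
  · rw [← rs (fun z => Real.log (partE A μ B z) - Real.log (kapE A μ (B.map plen) z))
      fun z z' hz => ?_]
    · exact hB.gain h hP
    · have h2 : partE A μ B z = partE A μ B z' :=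
        partE_congr fun q hq => ⟨hz _ (hU q hq).1, hz _ (hU q hq).2⟩
      have h3 : kapE A μ (B.map plen) z = kapE A μ (B.map plen) z' :=
        kapE_congr fun p hp => by
          obtain ⟨q, hq, rfl⟩ := Multiset.mem_map.1 hp
          exact ⟨hz _ (hU q hq).1, hz _ (hU q hq).2⟩
      rw [h2, h3]
  · have e4 : ∀ z, ∑ y, Ph z y * Real.log (W z) =
        mus side μ c z * (W z * Real.log (W z)) := fun z => by
      rw [← Finset.sum_mul, sumP]; ring
    rw [Finset.sum_congr rfl fun z _ => e4 z]
    have e5 := rs (fun _ => 1) fun _ _ _ => rfl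
    simp only [mul_one, hs, sumP] at e5
    have e6 : ∑ z, mus side μ c z * (W z - 1) = 0 := by
      simp only [mul_sub, mul_one, Finset.sum_sub_distrib]
      rw [← e5, mus_sum h, sub_self]
    rw [← e6]
    exact Finset.sum_le_sum fun z _ => mul_le_mul_of_nonneg_left
      (one_sub_le_mul_log (W0 z)) (mus_nonneg h side z)

end Vale.Agent.P050.SP
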