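import Vale.Agent.P050.R4.H153.MfStep

/-!
# P050, mirrored frames: parts between recorded vertices
-/

namespace Vale.Agent.P050.SP

open Finset Matrix Vale.Agent.P050.Ears Vale.Agent.P050.Lev

variable {V : Type} {L : Multiset (V × ℕ × V)} {M : Multiset (V × SP × V)}
variable {R : Set (Set V × Multiset (V × ℕ × V))} {B : Set (Blk V)}
variable {iF : Fintype V} {iD : DecidableEq V} {side : V → Bool} {C : SP → ℕ → Prop}

/-- a part between two vertices of a recorded tree -/
theorem MOK.att {e : SP} {u v : V} {d : ℕ} (hC : Sound C) (hT : MOK L M R B iF iD side)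
    (hr : ({u, v}, {(u, d, v)}) ∈ R) (huv : u ≠ v) (he : C e d) :
    MOK L ((u, e, v) ::ₘ M) R B iF iD side := by
  obtain ⟨hb, hle, hpar, hsem⟩ := hC e d he
  have hs : side v = sh (side u) d := hT.rok _ hr (u, d, v) (Multiset.mem_singleton_self _)
  refine ⟨hT.virt, fun q hq => ?_, hT.rok, hT.bok, fun S _ _ A μ c h => ?_⟩
  · rcases Multiset.mem_cons.1 hq with rfl | hq
    · refine ⟨?_, hb⟩
      change side v = sh (side u) (len e)
      rw [hs]
      unfold sh
      rw [hpar]
    · exact hT.prt q hq
  · obtain ⟨P, hP, hM, hB⟩ := hT.law S A μ c h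
    have hm : MargD A μ c P u v d (side u) := MargT.two h huv hs (hM _ hr)
    have hg : GoodK A μ c (len e) d (K A μ e) := hsem S A μ c h
    have pK : ∀ z, 0 < P z → 0 < K A μ e (z u) (z v) := fun z hz =>
      (K_pos h e hb).mono h hle hpar _ _ (hm.pow_pos h hP.nonneg hz)
    have hw : ∀ z, mus side μ c z * (kapE A μ L z * partE A μ ((u, e, v) ::ₘ M) z) =
        (mus side μ c z * (kapE A μ L z * partE A μ M z)) * K A μ e (z u) (z v) := fun z => by
      rw [partE_cons]; ring
    refine ⟨P, hP.mono (fun z hz => ?_) ?_, hM, hB⟩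
    · rw [hw]
      exact mul_pos (hP.supp z hz) (pK z hz)
    · have h1 : ∑ z, P z * Real.log (mus side μ c z *
          (kapE A μ L z * partE A μ ((u, e, v) ::ₘ M) z)) =
          ∑ z, P z * Real.log (mus side μ c z * (kapE A μ L z * partE A μ M z)) +
            ∑ z, P z * Real.log (K A μ e (z u) (z v)) := by
        rw [← Finset.sum_add_distrib]
        refine Finset.sum_congr rfl fun z _ => ?_
        rcases (hP.nonneg z).eq_or_lt with h0 | h0
        · rw [← h0]; ring
        · rw [hw, Real.log_mul (hP.supp z h0).ne' (pK z h0).ne']; ring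
      rw [h1, hm fun x y => Real.log (K A μ e x y)]
      have h2 := hg.nonneg h (side u)
      have h3 : EL (pd A μ c d (side u)) (K A μ e) =
          ∑ x, ∑ y, pd A μ c d (side u) x y * Real.log (K A μ e x y) := rfl
      rw [h3] at h2
      linarith

/-- an edge is replaced by a tight part -/
theorem MOK.real {e : SP} {u v : V} (hC : Sound C)
    (hT : MOK ((u, len e, v) ::ₘ L) M R B iF iD side)
    (hr : ({u, v}, {(u, len e, v)}) ∈ R) (huv : u ≠ v) (he : C e (len e)) :
    MOK L ((u, e, v) ::ₘ M) R B iF iD side := by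
  obtain ⟨hb, hle, hpar, hsem⟩ := hC e (len e) he
  have hs : side v = sh (side u) (len e) :=
    hT.rok _ hr (u, len e, v) (Multiset.mem_singleton_self _)
  refine ⟨fun p hp => hT.virt p (Multiset.mem_cons_of_mem hp), fun q hq => ?_, hT.rok,
    hT.bok, fun S _ _ A μ c h => ?_⟩
  · rcases Multiset.mem_cons.1 hq with rfl | hq
    · exact ⟨hs, hb⟩
    · exact hT.prt q hq
  · obtain ⟨P, hP, hM, hB⟩ := hT.law S A μ c h
    have hm : MargD A μ c P u v (len e) (side u) := MargT.two h huv hs (hM _ hr)
    have hg : GoodK A μ c (len e) (len e) (K A μ e) := hsem S A μ c h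
    have pK : ∀ z, 0 < P z → 0 < K A μ e (z u) (z v) := fun z hz =>
      (K_pos h e hb) _ _ (hm.pow_pos h hP.nonneg hz)
    have hw0 : ∀ z, mus side μ c z * (kapE A μ ((u, len e, v) ::ₘ L) z * partE A μ M z) =
        (mus side μ c z * (kapE A μ L z * partE A μ M z)) * kap A μ (len e) (z u) (z v) :=
      fun z => by rw [kapE_cons]; ring
    have hw : ∀ z, mus side μ c z * (kapE A μ L z * partE A μ ((u, e, v) ::ₘ M) z) =
        (mus side μ c z * (kapE A μ L z * partE A μ M z)) * K A μ e (z u) (z v) := fun z => by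
      rw [partE_cons]; ring
    have pos : ∀ z, 0 < P z → mus side μ c z * (kapE A μ L z * partE A μ M z) ≠ 0 ∧
        kap A μ (len e) (z u) (z v) ≠ 0 := by
      intro z hz
      have h1 := hP.supp z hz
      rw [hw0] at h1
      exact ⟨left_ne_zero_of_mul h1.ne', right_ne_zero_of_mul h1.ne'⟩
    refine ⟨P, hP.mono (fun z hz => ?_) ?_, hM, hB⟩
    · rw [hw]
      refine mul_pos (lt_of_le_of_ne ?_ (pos z hz).1.symm) (pK z hz)
      exact mul_nonneg (mus_nonneg h _ _) (mul_nonneg (kapE_nonneg h _ _) (partE_nonneg h _ _))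
    · have h1 : ∑ z, P z * Real.log (mus side μ c z *
          (kapE A μ L z * partE A μ ((u, e, v) ::ₘ M) z)) =
          ∑ z, P z * Real.log (mus side μ c z *
            (kapE A μ ((u, len e, v) ::ₘ L) z * partE A μ M z)) +
            (∑ z, P z * Real.log (K A μ e (z u) (z v)) -
              ∑ z, P z * Real.log (kap A μ (len e) (z u) (z v))) := by
        rw [← Finset.sum_sub_distrib, ← Finset.sum_add_distrib]
        refine Finset.sum_congr rfl fun z _ => ?_
        rcases (hP.nonneg z).eq_or_lt with h0 | h0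
        · rw [← h0]; ring
        · rw [hw, hw0, Real.log_mul (pos z h0).1 (pK z h0).ne',
            Real.log_mul (pos z h0).1 (pos z h0).2]
          ring
      rw [h1, hm fun x y => Real.log (K A μ e x y),
        hm fun x y => Real.log (kap A μ (len e) x y)]
      have h2 := hg (side u)
      rw [if_pos rfl, J] at h2
      have h3 : EL (pd A μ c (len e) (side u)) (K A μ e) =
          ∑ x, ∑ y, pd A μ c (len e) (side u) x y * Real.log (K A μ e x y) := rfl
      have h4 : EL (pd A μ c (len e) (side u)) (kap A μ (len e)) =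
          ∑ x, ∑ y, pd A μ c (len e) (side u) x y * Real.log (kap A μ (len e) x y) := rfl
      rw [h3, h4] at h2
      linarith

end Vale.Agent.P050.SP
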