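import Vale.Agent.P050.R4.H153.MfDef
import Vale.Agent.P050.R4.H153.FrClone
import Vale.Agent.P050.R4.H345.FrDer

/-!
# P050, mirrored frames: laws
-/

namespace Vale.Agent.P050.SP

open Finset Matrix Vale.Agent.P050.Ears Vale.Agent.P050.Lev

section

variable {S : Type} [Fintype S] [DecidableEq S] {A : Matrix S S ℝ} {μ : S → ℝ} {c : S → Bool}
variable {V : Type}

/-- the product of the kernels of the parts -/
noncomputable def partE (A : Matrix S S ℝ) (μ : S → ℝ) (M : Multiset (V × SP × V)) (z : V → S) :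
    ℝ := (M.map fun q => K A μ q.2.1 (z q.1) (z q.2.2)).prod

theorem partE_zero (z : V → S) : partE A μ 0 z = 1 := by simp [partE]

theorem partE_cons (u v : V) (e : SP) (M : Multiset (V × SP × V)) (z : V → S) :
    partE A μ ((u, e, v) ::ₘ M) z = K A μ e (z u) (z v) * partE A μ M z := by simp [partE]

theorem partE_add (M M' : Multiset (V × SP × V)) (z : V → S) :
    partE A μ (M + M') z = partE A μ M z * partE A μ M' z := by simp [partE]

theorem partE_map {W : Type} (f : V → W) (M : Multiset (V × SP × V)) (z : W → S) :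
    partE A μ (M.map (pmap f)) z = partE A μ M (fun v => z (f v)) := by
  simp [partE, pmap, Multiset.map_map, Function.comp_def]

theorem partE_nonneg (h : Rev A μ c) (M : Multiset (V × SP × V)) (z : V → S) :
    0 ≤ partE A μ M z := by
  unfold partE
  refine Multiset.prod_nonneg fun x hx => ?_
  obtain ⟨p, _, rfl⟩ := Multiset.mem_map.1 hx
  exact K_nonneg h _ _ _

theorem partE_congr {M : Multiset (V × SP × V)} {z z' : V → S}
    (hz : ∀ p ∈ M, z p.1 = z' p.1 ∧ z p.2.2 = z' p.2.2) : partE A μ M z = partE A μ M z' := by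
  unfold partE
  congr 1
  refine Multiset.map_congr rfl fun p hp => ?_
  rw [(hz p hp).1, (hz p hp).2]

end

variable {S : Type} [Fintype S] [DecidableEq S] {A : Matrix S S ℝ} {μ : S → ℝ} {c : S → Bool}
variable {V : Type} [Fintype V] [DecidableEq V] {side : V → Bool} {P : (V → S) → ℝ}
variable {N : Type} [Fintype N] [DecidableEq N] {sN : N → Bool}
variable {f : (V ⊕ N → S) → ℝ}

/-- A law of the maps with nonnegative entropy balance for the weight `w`. -/
structure LawW (w : (V → S) → ℝ) (side : V → Bool) (μ : S → ℝ) (c : S → Bool)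
    (P : (V → S) → ℝ) : Prop where
  nonneg : ∀ z, 0 ≤ P z
  sum : ∑ z, P z = 1
  supp : ∀ z, 0 < P z → 0 < mus side μ c z * w z
  ent : 0 ≤ ∑ z, P z * (Real.log (mus side μ c z * w z) - Real.log (P z))

/-- the total weight of the new vertices -/
noncomputable def zwG (μ : S → ℝ) (c : S → Bool) (sN : N → Bool) (f : (V ⊕ N → S) → ℝ)
    (z : V → S) : ℝ := ∑ y, mus sN μ c y * f (Sum.elim z y)

/-- the law after adding new vertices -/
noncomputable def extG (μ : S → ℝ) (c : S → Bool) (sN : N → Bool) (f : (V ⊕ N → S) → ℝ)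
    (P : (V → S) → ℝ) (w : V ⊕ N → S) : ℝ :=
  P (fun v => w (.inl v)) * (mus sN μ c (fun n => w (.inr n)) *
    f (Sum.elim (fun v => w (.inl v)) (fun n => w (.inr n))) /
      zwG μ c sN f (fun v => w (.inl v)))

theorem extP_eq {E' : Multiset ((V ⊕ N) × ℕ × (V ⊕ N))} :
    extP A μ c sN E' P = extG μ c sN (kapE A μ E') P := rfl

theorem zw_eq {E' : Multiset ((V ⊕ N) × ℕ × (V ⊕ N))} :
    zw A μ c sN E' = zwG (V := V) μ c sN (kapE A μ E') := rfl

theorem zwG_nonneg (h : Rev A μ c) (hf : ∀ z, 0 ≤ f z) (z : V → S) : 0 ≤ zwG μ c sN f z :=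
  Finset.sum_nonneg fun _ _ => mul_nonneg (mus_nonneg h _ _) (hf _)

theorem extG_nonneg (h : Rev A μ c) (hf : ∀ z, 0 ≤ f z) (hP : ∀ z, 0 ≤ P z) (w : V ⊕ N → S) :
    0 ≤ extG μ c sN f P w :=
  mul_nonneg (hP _) (div_nonneg (mul_nonneg (mus_nonneg h _ _) (hf _)) (zwG_nonneg h hf _))

/-- the old vertices keep their law -/
theorem extG_sum (hZ : ∀ z, P z ≠ 0 → zwG μ c sN f z ≠ 0) (G : (V → S) → ℝ) :
    ∑ w, extG μ c sN f P w * G (fun v => w (.inl v)) = ∑ z, P z * G z := by
  rw [sum_arrow]
  refine Finset.sum_congr rfl fun z _ => ?_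
  have h1 : ∀ y : N → S, extG μ c sN f P (Sum.elim z y) *
      G (fun v => Sum.elim z y (.inl v)) = (P z * G z / zwG μ c sN f z) *
        (mus sN μ c y * f (Sum.elim z y)) := by
    intro y
    change P z * (mus sN μ c y * f (Sum.elim z y) / zwG μ c sN f z) * G z = _
    ring
  rw [Finset.sum_congr rfl fun y _ => h1 y, ← Finset.mul_sum]
  change P z * G z / zwG μ c sN f z * zwG μ c sN f z = _
  by_cases h0 : P z = 0
  · rw [h0]; ring
  · exact div_mul_cancel₀ _ (hZ z h0)

/-- Adding new vertices. The factor `ℓ` of the old weight is replaced by the new factor `f`. -/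
theorem LawW.ext (h : Rev A μ c) (hf : ∀ z, 0 ≤ f z) {w w₂ ℓ : (V → S) → ℝ}
    (hw₂ : ∀ z, 0 ≤ w₂ z) (hL : ∀ z, w z = ℓ z * w₂ z) (hP : LawW w side μ c P)
    (hZ : ∀ z, P z ≠ 0 → zwG μ c sN f z ≠ 0)
    (hE : ∑ z, P z * Real.log (ℓ z) ≤ ∑ z, P z * Real.log (zwG μ c sN f z)) :
    LawW (fun z => w₂ (fun v => z (.inl v)) * f z) (Sum.elim side sN) μ c
      (extG μ c sN f P) := by
  have elim : ∀ w : V ⊕ N → S, Sum.elim (fun v => w (.inl v)) (fun n => w (.inr n)) = w := by
    intro w; funext v; rcases v with v | v <;> rfl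
  have split : ∀ z : V ⊕ N → S, mus (Sum.elim side sN) μ c z *
      (w₂ (fun v => z (.inl v)) * f z) =
      mus side μ c (fun v => z (.inl v)) * w₂ (fun v => z (.inl v)) *
        (mus sN μ c (fun n => z (.inr n)) *
          f (Sum.elim (fun v => z (.inl v)) (fun n => z (.inr n)))) := by
    intro z
    have h1 : mus (Sum.elim side sN) μ c z = mus side μ c (fun v => z (.inl v)) *
        mus sN μ c (fun n => z (.inr n)) := by
      conv_lhs => rw [← elim z]
      rw [mus_sumElim]
    rw [h1, elim]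
    ring
  have pos : ∀ z, 0 < P z → mus side μ c z ≠ 0 ∧ ℓ z ≠ 0 ∧ w₂ z ≠ 0 := by
    intro z hz
    have h1 := hP.supp z hz
    rw [hL z] at h1
    refine ⟨fun h0 => ?_, fun h0 => ?_, fun h0 => ?_⟩ <;>
      · rw [h0] at h1; simp at h1
  have posG : ∀ z : V ⊕ N → S, 0 < extG μ c sN f P z →
      0 < P (fun v => z (.inl v)) ∧
        0 < mus sN μ c (fun n => z (.inr n)) *
          f (Sum.elim (fun v => z (.inl v)) (fun n => z (.inr n))) ∧
        0 < zwG μ c sN f (fun v => z (.inl v)) := by
    intro z hw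
    unfold extG at hw
    have h1 : P (fun v => z (.inl v)) ≠ 0 := fun h0 => by
      rw [h0, zero_mul] at hw; exact lt_irrefl _ hw
    have h2 : mus sN μ c (fun n => z (.inr n)) *
        f (Sum.elim (fun v => z (.inl v)) (fun n => z (.inr n))) ≠ 0 := fun h0 => by
      rw [h0, zero_div, mul_zero] at hw; exact lt_irrefl _ hw
    have h3 : zwG μ c sN f (fun v => z (.inl v)) ≠ 0 := fun h0 => by
      rw [h0, div_zero, mul_zero] at hw; exact lt_irrefl _ hw
    exact ⟨lt_of_le_of_ne (hP.nonneg _) h1.symm,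
      lt_of_le_of_ne (mul_nonneg (mus_nonneg h _ _) (hf _)) h2.symm,
      lt_of_le_of_ne (zwG_nonneg h hf _) h3.symm⟩
  refine ⟨fun z => extG_nonneg h hf hP.nonneg z, ?_, fun z hz => ?_, ?_⟩
  · have h1 := extG_sum (P := P) hZ (fun _ => 1)
    simp only [mul_one] at h1
    rw [h1, hP.sum]
  · obtain ⟨p1, p2, _⟩ := posG z hz
    obtain ⟨n1, _, n3⟩ := pos _ p1
    rw [split]
    exact mul_pos (mul_pos (lt_of_le_of_ne (mus_nonneg h _ _) n1.symm)
      (lt_of_le_of_ne (hw₂ _) n3.symm)) p2
  · have h1 := extG_sum (P := P) hZ (fun z =>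
      (Real.log (mus side μ c z * w z) - Real.log (P z)) -
        Real.log (ℓ z) + Real.log (zwG μ c sN f z))
    have h2 : ∑ z, extG μ c sN f P z *
        (Real.log (mus (Sum.elim side sN) μ c z * (w₂ (fun v => z (.inl v)) * f z)) -
          Real.log (extG μ c sN f P z)) =
        ∑ z, extG μ c sN f P z * ((Real.log (mus side μ c (fun v => z (.inl v)) *
          w (fun v => z (.inl v))) - Real.log (P (fun v => z (.inl v)))) -
            Real.log (ℓ (fun v => z (.inl v))) +
              Real.log (zwG μ c sN f (fun v => z (.inl v)))) := by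
      refine Finset.sum_congr rfl fun z _ => ?_
      rcases (extG_nonneg (sN := sN) h hf hP.nonneg z).eq_or_lt with h0 | h0
      · rw [← h0, zero_mul, zero_mul]
      · obtain ⟨p1, p2, p3⟩ := posG z h0
        obtain ⟨n1, n2, n3⟩ := pos _ p1
        congr 1
        rw [split, hL, Real.log_mul (mul_ne_zero n1 n3) p2.ne', Real.log_mul n1 n3,
          Real.log_mul n1 (mul_ne_zero n2 n3), Real.log_mul n2 n3]
        unfold extG
        rw [Real.log_mul p1.ne' (div_pos p2 p3).ne', Real.log_div p2.ne' p3.ne']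
        ring
    rw [h2, h1]
    have h3 : ∑ z, P z * ((Real.log (mus side μ c z * w z) - Real.log (P z)) -
        Real.log (ℓ z) + Real.log (zwG μ c sN f z)) =
        ∑ z, P z * (Real.log (mus side μ c z * w z) - Real.log (P z)) -
          ∑ z, P z * Real.log (ℓ z) + ∑ z, P z * Real.log (zwG μ c sN f z) := by
      rw [← Finset.sum_sub_distrib, ← Finset.sum_add_distrib]
      exact Finset.sum_congr rfl fun z _ => by ring
    rw [h3]
    have := hP.ent
    linarith

/-- the weight may be replaced by a better one -/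
theorem LawW.mono {w w' : (V → S) → ℝ} (hP : LawW w side μ c P)
    (hw' : ∀ z, 0 < P z → 0 < mus side μ c z * w' z)
    (hE : ∑ z, P z * Real.log (mus side μ c z * w z) ≤
      ∑ z, P z * Real.log (mus side μ c z * w' z)) : LawW w' side μ c P := by
  refine ⟨hP.nonneg, hP.sum, hw', ?_⟩
  have h1 := hP.ent
  simp only [mul_sub, Finset.sum_sub_distrib] at h1 ⊢
  linarith

/-- old records -/
theorem MargT.ext_oldG (h : Rev A μ c) {r : Set V × Multiset (V × ℕ × V)}
    (hZ : ∀ z, P z ≠ 0 → zwG μ c sN f z ≠ 0) (hm : MargT A μ c side P r) :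
    MargT A μ c (Sum.elim side sN) (extG μ c sN f P) (tmap .inl r) := by
  intro F hF
  have key : ∀ (z : V → S) (y : N → S), F (Sum.elim z y) =
      ∑ y' : N → S, mus sN μ c y' * F (Sum.elim z y') := by
    intro z y
    have h1 : ∀ y' : N → S, F (Sum.elim z y') = F (Sum.elim z y) := fun y' =>
      hF _ _ fun v hv => by
        obtain ⟨u, _, rfl⟩ := hv
        rfl
    simp only [h1]
    rw [← Finset.sum_mul, mus_sum h, one_mul]
  have elim : ∀ w : V ⊕ N → S, w = Sum.elim (fun v => w (.inl v)) (fun n => w (.inr n)) := by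
    intro w; funext v; rcases v with v | v <;> rfl
  have h1 : ∀ w : V ⊕ N → S, F w =
      ∑ y' : N → S, mus sN μ c y' * F (Sum.elim (fun v => w (.inl v)) y') := by
    intro w
    conv_lhs => rw [elim w]
    exact key _ _
  have h2 := extG_sum (P := P) (sN := sN) hZ
    (fun z => ∑ y' : N → S, mus sN μ c y' * F (Sum.elim z y'))
  calc ∑ w, extG μ c sN f P w * F w
      = ∑ w, extG μ c sN f P w *
        ∑ y' : N → S, mus sN μ c y' * F (Sum.elim (fun v => w (.inl v)) y') :=
        Finset.sum_congr rfl fun w _ => by rw [← h1]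
    _ = ∑ z, P z * ∑ y' : N → S, mus sN μ c y' * F (Sum.elim z y') := h2
    _ = ∑ z, mus side μ c z * kapE A μ r.2 z *
        ∑ y' : N → S, mus sN μ c y' * F (Sum.elim z y') := by
        refine hm _ fun z z' hz => ?_
        refine Finset.sum_congr rfl fun y' _ => ?_
        congr 1
        exact hF _ _ fun v hv => by
          obtain ⟨u, hu, rfl⟩ := hv
          exact hz u hu
    _ = _ := by
        rw [sum_arrow]
        refine Finset.sum_congr rfl fun z _ => ?_
        rw [Finset.mul_sum]
        refine Finset.sum_congr rfl fun y _ => ?_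
        rw [mus_sumElim]
        change _ = mus side μ c z * mus sN μ c y *
          kapE A μ (r.2.map (emap (Sum.inl : V → V ⊕ N))) _ * _
        rw [kapE_map]
        simp only [Sum.elim_inl]
        ring

end Vale.Agent.P050.SP
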