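import Vale.Agent.P050.R4.H153.MfOk

/-!
# P050, mirrored frames: the steps without mirror images
-/

namespace Vale.Agent.P050.SP

open Finset Matrix Vale.Agent.P050.Ears Vale.Agent.P050.Lev

section

variable {S : Type} [Fintype S] [DecidableEq S] {A : Matrix S S ℝ} {μ : S → ℝ} {c : S → Bool}
variable {V : Type} [Fintype V] [DecidableEq V] {side : V → Bool} {P : (V → S) → ℝ}
variable {N : Type} [Fintype N] [DecidableEq N] {sN : N → Bool}

theorem LawW.mus_ne {w : (V → S) → ℝ} (hP : LawW w side μ c P) {z : V → S}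
    (hz : P z ≠ 0) : mus side μ c z ≠ 0 := fun h0 => by
  have h1 := hP.supp z (lt_of_le_of_ne (hP.nonneg z) hz.symm)
  rw [h0, zero_mul] at h1
  exact lt_irrefl _ h1

/-- new vertices with new edges -/
theorem LawW.ext_edges (h : Rev A μ c) {L L₂ : Multiset (V × ℕ × V)}
    {M : Multiset (V × SP × V)} {E' : Multiset ((V ⊕ N) × ℕ × (V ⊕ N))} {ℓ : (V → S) → ℝ}
    (hL : ∀ z, kapE A μ L z = ℓ z * kapE A μ L₂ z)
    (hP : LawW (fun z => kapE A μ L z * partE A μ M z) side μ c P)
    (hZ : ∀ z, P z ≠ 0 → zw A μ c sN E' z ≠ 0)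
    (hE : ∑ z, P z * Real.log (ℓ z) ≤ ∑ z, P z * Real.log (zw A μ c sN E' z)) :
    LawW (fun z => kapE A μ (L₂.map (emap .inl) + E') z * partE A μ (M.map (pmap .inl)) z)
      (Sum.elim side sN) μ c (extP A μ c sN E' P) := by
  have h1 := hP.ext (sN := sN) (f := kapE A μ E') (w₂ := fun z => kapE A μ L₂ z * partE A μ M z)
    (ℓ := ℓ) h (fun z => kapE_nonneg h _ _)
    (fun z => mul_nonneg (kapE_nonneg h _ _) (partE_nonneg h _ _))
    (fun z => by rw [hL z]; ring) hZ hE
  have h2 : (fun z : V ⊕ N → S => kapE A μ L₂ (fun v => z (.inl v)) *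
      partE A μ M (fun v => z (.inl v)) * kapE A μ E' z) =
      fun z => kapE A μ (L₂.map (emap .inl) + E') z * partE A μ (M.map (pmap .inl)) z := by
    funext z
    rw [kapE_add, kapE_map, partE_map]
    ring
  rw [← h2]
  exact h1

end

variable {V : Type} {L : Multiset (V × ℕ × V)} {M : Multiset (V × SP × V)}
variable {R R' : Set (Set V × Multiset (V × ℕ × V))} {B B' : Set (Blk V)}
variable {iF : Fintype V} {iD : DecidableEq V} {side : V → Bool} {U : Set V}
variable {E : Multiset (V × ℕ × V)}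

theorem MOK.point : MOK (V := Unit) 0 0 {(Set.univ, 0)} ∅ inferInstance inferInstance
    fun _ => false := by
  refine ⟨fun p hp => absurd hp (Multiset.notMem_zero p),
    fun p hp => absurd hp (Multiset.notMem_zero p), fun r hr => ?_,
    fun b hb => absurd hb (Set.notMem_empty b), fun S _ _ A μ c h => ?_⟩
  · rw [Set.mem_singleton_iff.1 hr]
    exact fun p hp => absurd hp (Multiset.notMem_zero p)
  · refine ⟨mus (fun _ => false) μ c, ⟨mus_nonneg h _, mus_sum h _, fun z hz => ?_, ?_⟩,
      fun r hr => ?_, fun b hb => absurd hb (Set.notMem_empty b)⟩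
    · rw [kapE_zero, partE_zero, mul_one, mul_one]; exact hz
    · simp only [kapE_zero, partE_zero, mul_one, sub_self, mul_zero, Finset.sum_const_zero]
      exact le_rfl
    · rw [Set.mem_singleton_iff.1 hr]
      intro F _
      simp only [kapE_zero, mul_one]

theorem MOK.weak (hT : MOK L M R B iF iD side) (hd : ∀ r' ∈ R', ∃ r ∈ R, TDer r r')
    (hb : ∀ b ∈ B', b ∈ B ∨ b = (Set.univ, L, M)) : MOK L M R' B' iF iD side := by
  refine ⟨hT.virt, hT.prt, fun r' hr' => ?_, fun b h0 => ?_, fun S _ _ A μ c h => ?_⟩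
  · obtain ⟨r, hr, t⟩ := hd r' hr'
    exact t.tok (hT.rok r hr)
  · rcases hb b h0 with h1 | rfl
    · exact hT.bok b h1
    · exact ⟨hT.virt, hT.prt⟩
  · obtain ⟨P, hP, hM, hB⟩ := hT.law S A μ c h
    refine ⟨P, hP, fun r' hr' => ?_, fun b h0 => ?_⟩
    · obtain ⟨r, hr, t⟩ := hd r' hr'
      exact t.margT h (hT.rok r hr) (hM r hr)
    · rcases hb b h0 with h1 | rfl
      · exact hB b h1
      · exact BalW.univ h hP

/-- a new edge -/
theorem MOK.pen {a : V} {d : ℕ} (hT : MOK L M R B iF iD side) :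
    MOK ((.inl a, d, .inr ()) ::ₘ L.map (emap .inl)) (M.map (pmap .inl)) (penT R a d)
      (oldB Unit B) inferInstance inferInstance (Sum.elim side fun _ => sh (side a) d) := by
  have tk : ∀ E : Multiset (V × ℕ × V), TOK side E →
      TOK (Sum.elim side fun _ : Unit => sh (side a) d)
        ((.inl a, d, .inr ()) ::ₘ E.map (emap .inl)) := by
    intro E hE p hp
    rcases Multiset.mem_cons.1 hp with rfl | hp
    · rfl
    · exact TOK.old hE p hp
  refine ⟨tk L hT.virt, prt_old hT.prt, ?_, bok_old hT.bok, fun S _ _ A μ c h => ?_⟩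
  · rintro r (⟨r₀, h0, rfl⟩ | ⟨U', E', h0, _, rfl⟩)
    · exact TOK.old (hT.rok r₀ h0)
    · exact tk _ (hT.rok _ h0)
  · obtain ⟨P, hP, hM, hB⟩ := hT.law S A μ c h
    have h1 : ∀ z, P z ≠ 0 →
        zw A μ c (fun _ : Unit => sh (side a) d) {(.inl a, d, .inr ())} z = 1 := fun z hz =>
      zw_pen h d (hP.mus_ne hz)
    have hZ : ∀ z, P z ≠ 0 →
        zw A μ c (fun _ : Unit => sh (side a) d) {(.inl a, d, .inr ())} z ≠ 0 := fun z hz => by
      rw [h1 z hz]; exact one_ne_zero
    have hl := LawW.ext_edges (L₂ := L) h (ℓ := fun _ => 1) (fun z => by rw [one_mul]) hP hZ (by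
      refine Finset.sum_le_sum fun z _ => ?_
      by_cases hz : P z = 0
      · rw [hz, zero_mul, zero_mul]
      · rw [h1 z hz])
    rw [add_comm, Multiset.singleton_add] at hl
    refine ⟨_, hl, ?_, bal_old h hZ hB⟩
    rintro r (⟨r₀, h0, rfl⟩ | ⟨U', E', h0, h2, rfl⟩)
    · exact (hM r₀ h0).ext_old h hZ
    · refine MargT.ext_new (E₁ := E') h (hM _ h0) (fun v hv => ?_) (fun p hp => ?_)
        (fun z y => ?_) fun G _ => ?_
      · rcases hv with ⟨w, hw, h3⟩ | h3
        · rwa [← Sum.inl.inj h3]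
        · exact absurd h3 (by simp)
      · rw [Multiset.mem_singleton.1 hp]
        refine ⟨fun v hv => ?_, fun v hv => absurd hv (by simp)⟩
        rw [← hv]
        exact Or.inl ⟨a, h2, rfl⟩
      · rw [kapE_cons, kapE_map]
        simp only [Sum.elim_inl, kapE, Multiset.map_singleton, Multiset.prod_singleton]
        rw [mul_comm]
      · refine Finset.sum_congr rfl fun z _ => ?_
        by_cases hz : mus side μ c z = 0
        · rw [hz]; ring
        · rw [zw_pen h d hz, mul_one]

/-- an edge is subdivided -/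
theorem MOK.sub {u w : V} {d d' : ℕ} (hT : MOK ((u, d + d', w) ::ₘ L) M R B iF iD side) :
    MOK ((.inl u, d, .inr ()) ::ₘ (.inr (), d', .inl w) ::ₘ L.map (emap .inl))
      (M.map (pmap .inl)) (subT R u d d' w) (oldB Unit B) inferInstance inferInstance
      (Sum.elim side fun _ => sh (side u) d) := by
  have hw : side w = sh (side u) (d + d') := hT.virt (u, d + d', w) (Multiset.mem_cons_self _ _)
  have tk : ∀ E : Multiset (V × ℕ × V), TOK side E →
      TOK (Sum.elim side fun _ : Unit => sh (side u) d)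
        ((.inl u, d, .inr ()) ::ₘ (.inr (), d', .inl w) ::ₘ E.map (emap .inl)) := by
    intro E hE p hp
    rcases Multiset.mem_cons.1 hp with rfl | hp
    · rfl
    · rcases Multiset.mem_cons.1 hp with rfl | hp
      · change side w = sh (sh (side u) d) d'
        rw [sh_add, hw]
      · exact TOK.old hE p hp
  refine ⟨tk L fun p hp => hT.virt p (Multiset.mem_cons_of_mem hp), prt_old hT.prt, ?_,
    bok_old hT.bok, fun S _ _ A μ c h => ?_⟩
  · rintro r (⟨r₀, h0, rfl⟩ | ⟨U', E', h0, _, _, rfl⟩)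
    · exact TOK.old (hT.rok r₀ h0)
    · exact tk _ fun p hp => hT.rok _ h0 p (Multiset.mem_cons_of_mem hp)
  · obtain ⟨P, hP, hM, hB⟩ := hT.law S A μ c h
    have h1 : ∀ z, P z ≠ 0 → zw A μ c (fun _ : Unit => sh (side u) d)
        {(.inl u, d, .inr ()), (.inr (), d', .inl w)} z = kap A μ (d + d') (z u) (z w) :=
      fun z hz => zw_sub h d d' (hP.mus_ne hz)
    have hZ : ∀ z, P z ≠ 0 → zw A μ c (fun _ : Unit => sh (side u) d)
        {(.inl u, d, .inr ()), (.inr (), d', .inl w)} z ≠ 0 := fun z hz => by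
      rw [h1 z hz]
      intro h0
      have h2 := hP.supp z (lt_of_le_of_ne (hP.nonneg z) hz.symm)
      rw [kapE_cons, h0, zero_mul, zero_mul, mul_zero] at h2
      exact lt_irrefl _ h2
    have hl := LawW.ext_edges (L₂ := L) h (ℓ := fun z => kap A μ (d + d') (z u) (z w))
      (fun z => kapE_cons _ _ _ _ _) hP hZ (by
      refine Finset.sum_le_sum fun z _ => ?_
      by_cases hz : P z = 0
      · rw [hz, zero_mul, zero_mul]
      · rw [h1 z hz])
    have e1 : L.map (emap (Sum.inl : V → V ⊕ Unit)) +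
        {(.inl u, d, .inr ()), (.inr (), d', .inl w)} =
        (.inl u, d, .inr ()) ::ₘ (.inr (), d', .inl w) ::ₘ L.map (emap .inl) := by
      rw [add_comm, Multiset.insert_eq_cons, Multiset.cons_add, Multiset.singleton_add]
    rw [e1] at hl
    refine ⟨_, hl, ?_, bal_old h hZ hB⟩
    rintro r (⟨r₀, h0, rfl⟩ | ⟨U', E', h0, h2, h3, rfl⟩)
    · exact (hM r₀ h0).ext_old h hZ
    · refine MargT.ext_new (E₁ := E') h (hM _ h0) (fun v hv => ?_) (fun p hp => ?_)
        (fun z y => ?_) fun G _ => ?_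
      · rcases hv with ⟨w, hw, h3⟩ | h3
        · rwa [← Sum.inl.inj h3]
        · exact absurd h3 (by simp)
      · rcases Multiset.mem_cons.1 hp with rfl | hp
        · refine ⟨fun v hv => ?_, fun v hv => absurd hv (by simp)⟩
          rw [← hv]
          exact Or.inl ⟨u, h2, rfl⟩
        · rw [Multiset.mem_singleton.1 hp]
          refine ⟨fun v hv => absurd hv (by simp), fun v hv => ?_⟩
          rw [← hv]
          exact Or.inl ⟨w, h3, rfl⟩
      · rw [kapE_cons, kapE_cons, kapE_map]
        have e2 : kapE A μ ({(.inl u, d, .inr ()), (.inr (), d', .inl w)} :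
            Multiset ((V ⊕ Unit) × ℕ × (V ⊕ Unit))) (Sum.elim z y) =
            kap A μ d (z u) (y ()) * kap A μ d' (y ()) (z w) := by
          simp [kapE]
        rw [e2]
        simp only [Sum.elim_inl, Sum.elim_inr]
        ring
      · refine Finset.sum_congr rfl fun z _ => ?_
        by_cases hz : mus side μ c z = 0
        · rw [hz]; ring
        · rw [zw_sub h d d' hz, kapE_cons]
          ring

/-- The vertices `g n` of a recorded tree are cloned. -/
theorem MOK.clone {N : Type} {g : N → V} {ρ : V → V ⊕ N}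
    {iN : Fintype N} {iE : DecidableEq N} (hT : MOK L M R B iF iD side) (hr : (U, E) ∈ R)
    (hE : ∀ p ∈ E, p.1 ∈ U ∧ p.2.2 ∈ U) (hg : ∀ n, ρ (g n) = .inr n)
    (hρ : ∀ v, (∀ n, g n ≠ v) → ρ v = .inl v) :
    MOK (L.map (emap .inl) + E.map (emap ρ)) (M.map (pmap .inl)) (cloneT R g ρ E)
      (oldB N B) inferInstance inferInstance (Sum.elim side fun n => side (g n)) := by
  have tm : ∀ E : Multiset (V × ℕ × V), TOK side E →
      TOK (Sum.elim side fun n => side (g n)) (E.map (emap ρ)) := by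
    intro E hE p hp
    obtain ⟨q, hq, rfl⟩ := Multiset.mem_map.1 hp
    change Sum.elim side _ (ρ q.2.2) = sh (Sum.elim side _ (ρ q.1)) q.2.1
    rw [clone_side hg hρ, clone_side hg hρ]
    exact hE q hq
  refine ⟨?_, prt_old hT.prt, ?_, bok_old hT.bok, fun S _ _ A μ c h => ?_⟩
  · intro p hp
    rcases Multiset.mem_add.1 hp with hp | hp
    · exact TOK.old hT.virt p hp
    · exact tm E (hT.rok _ hr) p hp
  · rintro r (⟨r₀, h0, rfl⟩ | ⟨U', E', h0, _, _, rfl⟩)
    · exact TOK.old (hT.rok r₀ h0)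
    · exact tm _ (hT.rok _ h0)
  · obtain ⟨P, hP, hM, hB⟩ := hT.law S A μ c h
    have hm := hM _ hr
    have hZ := clone_zw_ne h hg hρ hE hP.nonneg hm
    refine ⟨extP A μ c (fun n => side (g n)) (E.map (emap ρ)) P,
      LawW.ext_edges h (ℓ := fun _ => 1) (fun z => by rw [one_mul]) hP hZ ?_, ?_,
      bal_old h hZ hB⟩
    · simp only [Real.log_one, mul_zero, Finset.sum_const_zero]
      exact clone_gain h hg hρ hE hP.sum hm
    · rintro r (⟨r₀, h0, rfl⟩ | ⟨U', E', h0, h1, h2, rfl⟩)
      · exact (hM r₀ h0).ext_old h hZ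
      · refine MargT.ext_new (E₁ := E') h (hM _ h0) (fun v hv => (clone_ends hg hρ v hv).1)
          (clone_mem h1) (fun z y => ?_) fun G hG => ?_
        · rw [Multiset.map_add, kapE_add, mul_comm]
          congr 1
          rw [kapE_map]
          exact kapE_congr fun p hp => ⟨by rw [hρ _ fun n hn => (h2 p hp n).1 hn.symm]; rfl,
            by rw [hρ _ fun n hn => (h2 p hp n).2 hn.symm]; rfl⟩
        · exact clone_hs h hg hρ h2 G fun z z' hz => hG z z' fun v hv =>
            hz v (clone_ends hg hρ v hv).2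

end Vale.Agent.P050.SP
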