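import Vale.Agent.P050.R4.H153.Tree
import Vale.Agent.P050.R4.H345.FitCor

/-!
# P050, series-parallel graphs: trees with parts of the class `Fit`
-/

namespace Vale.Agent.P050.SP

theorem sound_fit : Sound fun e d => Fit e (.dist d) := fun _ _ he =>
  ⟨he.fits.1, he.fits.2.1, he.fits.2.2, fun _ _ _ _ _ _ h => he.sem h⟩

end Vale.Agent.P050.SP
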