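import Vale.Agent.P050.R4.H153.WalkG
import Vale.Agent.P050.R4.H153.TreeApt

/-!
# P050, walk graphs with parts of the class `Apt`
-/

namespace Vale.Agent.P050.SP

/-- two vertices joined by a tight part -/
theorem WalkG.one {C : SP → ℕ → Prop} {e : SP} (hs : simple e) (he : C e (len e)) :
    WalkG C (SP.pen (⊥ : SimpleGraph Unit) e ()) (penR {([], (), [])} () e) :=
  WalkG.pen (P := []) (Q := []) .point rfl hs he

end Vale.Agent.P050.SP
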