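import Vale.Agent.P050.R4.H153.WalkGDef
import Vale.Agent.P050.R4.H153.Tree
import Vale.Agent.P050.R4.H153.Attach2
import Vale.Agent.P050.R4.H859.WalkStep

/-!
# P050, walk graphs: the theorem
-/

namespace Vale.Agent.P050.SP

open Finset Matrix Vale.Agent.P050.Ears Vale.Agent.P050.Lev

/-- the inductive statement -/
structure WOK {V : Type} (H : SimpleGraph V) (R : Set (WRec V)) (iF : Fintype V)
    (iD : DecidableEq V) (side : V → Bool) : Prop where
  proper : ∀ u v, H.Adj u v → side u ≠ side v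
  rok : ∀ r ∈ R, ROK side r
  law : ∀ (S : Type) [Fintype S] [DecidableEq S] (A : Matrix S S ℝ) (μ : S → ℝ) (c : S → Bool),
    Rev A μ c → ∃ π : (V → S) → ℝ, LawOn H side A μ c π ∧ ∀ r ∈ R, Marg A μ c side π r

variable {V : Type} {H : SimpleGraph V} {R R' : Set (WRec V)} {iF : Fintype V}
variable {iD : DecidableEq V} {side : V → Bool} {C : SP → ℕ → Prop}

theorem WOK.point : WOK (⊥ : SimpleGraph Unit) {([], (), [])} inferInstance inferInstance
    fun _ => false := by
  refine ⟨fun u v h => absurd h (by simp), fun r hr => ?_, fun S _ _ A μ c h => ?_⟩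
  · rw [Set.mem_singleton_iff.1 hr]
    exact ⟨trivial, trivial⟩
  · obtain ⟨P, hP, hM⟩ := TG.point.law S A μ c h
    refine ⟨P, hP, fun r hr => ?_⟩
    rw [Set.mem_singleton_iff.1 hr]
    intro F
    have h1 := (hM () () 0 rfl).one fun x => F [] x []
    exact h1

theorem Der.rok {r r' : WRec V} (t : Der r r') : ROK side r → ROK side r' := by
  induction t with
  | refl R => exact id
  | trans _ _ h1 h2 => exact fun hR => h2 (h1 hR)
  | swap P v Q => exact fun hR => ⟨hR.2, hR.1⟩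
  | shift P v d w Q =>
    rintro ⟨h1, h2, h3⟩
    refine ⟨⟨?_, h1⟩, h3⟩
    change side v = sh (side w) d
    rw [h2, sh_sh]
  | tail P v t => exact fun hR => ⟨hR.1, t.ok v hR.2⟩

theorem WOK.weak (hT : WOK H R iF iD side) (hd : ∀ r' ∈ R', ∃ r ∈ R, Der r r') :
    WOK H R' iF iD side := by
  refine ⟨hT.proper, fun r' hr' => ?_, fun S _ _ A μ c h => ?_⟩
  · obtain ⟨r, hr, t⟩ := hd r' hr'
    exact t.rok (hT.rok r hr)
  · obtain ⟨P, hP, hM⟩ := hT.law S A μ c h
    refine ⟨P, hP, fun r' hr' => ?_⟩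
    obtain ⟨r, hr, t⟩ := hd r' hr'
    exact (t.marg h (hT.rok r hr)).2 P (hM r hr)

theorem WOK.pen {x : SP} {P Q : List (ℕ × V)} {a : V} (hC : Sound C)
    (hT : WOK H R iF iD side) (hr : (P, a, Q) ∈ R) (hs : simple x) (hx : C x (len x)) :
    WOK (pen H x a) (penR R a x) inferInstance inferInstance (penSide side x a) := by
  obtain ⟨hb, _, _, hsem⟩ := hC x (len x) hx
  refine ⟨fun u v => pen_proper hT.proper hb u v, ?_, fun S _ _ A μ c h => ?_⟩
  · rintro r (⟨r₀, h0, rfl⟩ | ⟨P', Q', h0, rfl⟩)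
    · exact ROK_map (fun _ => rfl) (hT.rok r₀ h0)
    · exact ROK_hang (e := x) (L := []) (hT.rok _ h0)
  · obtain ⟨π, hP, hM⟩ := hT.law S A μ c h
    obtain ⟨π', h1, h2, h3⟩ := hang_step (e := x) (L := []) h
      (fun t ht => by rw [List.mem_singleton.1 ht]; exact hs)
      (fun t ht => by rw [List.mem_singleton.1 ht]; exact hb)
      (fun t ht => by rw [List.mem_singleton.1 ht]; exact hsem S A μ c h) hP (hM _ hr)
    refine ⟨π', h1, ?_⟩
    rintro r (⟨r₀, h0, rfl⟩ | ⟨P', Q', h0, rfl⟩)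
    · exact h2 r₀ (hM r₀ h0)
    · exact h3 P' Q' (hM _ h0)

theorem WOK.att {e : SP} {d : ℕ} {P Q : List (ℕ × V)} {a b : V} (hC : Sound C)
    (hT : WOK H R iF iD side) (hr : (P, a, (d, b) :: Q) ∈ R) (hab : a ≠ b) (hs : simple e)
    (hd : ¬ (direct e ∧ H.Adj a b)) (he : C e d) :
    WOK (att H e a b) (oldRec _ R) inferInstance inferInstance (attSide side e a) := by
  obtain ⟨hb, hle, hpar, hsem⟩ := hC e d he
  have hside : side b = xor (side a) (decide (len e % 2 = 1)) := by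
    have h1 : side b = sh (side a) d := (hT.rok _ hr).2.1
    rw [h1]
    unfold sh
    rw [hpar]
  refine ⟨fun u v => att_proper hT.proper hb hside u v, ?_, fun S _ _ A μ c h => ?_⟩
  · rintro r ⟨r₀, h0, rfl⟩
    exact ROK_map (fun _ => rfl) (hT.rok r₀ h0)
  · obtain ⟨π, hP, hM⟩ := hT.law S A μ c h
    obtain ⟨π', h1, h2⟩ := att_step h hs hb hle hpar (hsem S A μ c h) hab hd (hT.rok _ hr) hP
      (hM _ hr)
    refine ⟨π', h1, ?_⟩
    rintro r ⟨r₀, h0, rfl⟩
    exact h2 r₀ (hM r₀ h0)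

theorem WOK.clone {x : SP} {L : List SP} {P Q : List (ℕ × V)} {a b : V} (hC : Sound C)
    (hT : WOK H R iF iD side) (hr : (P, a, (len (chn x L), b) :: Q) ∈ R) (hab : a ≠ b)
    (hL : ∀ t ∈ x :: L, simple t ∧ C t (len t)) (hd : ¬ (direct (chn x L) ∧ H.Adj a b)) :
    WOK (SP.att H (chn x L) a b) (cloneR R a b x L) inferInstance inferInstance
      (attSide side (chn x L) a) := by
  have hb : ∀ t ∈ x :: L, bip t := fun t ht => (hC t _ (hL t ht).2).1
  have hside : side b = xor (side a) (decide (len (chn x L) % 2 = 1)) := (hT.rok _ hr).2.1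
  refine ⟨fun u v => att_proper hT.proper (bip_chn L x hb) hside u v, ?_,
    fun S _ _ A μ c h => ?_⟩
  · rintro r (⟨r₀, h0, rfl⟩ | ⟨P', Q', h0, rfl⟩)
    · exact ROK_map (fun _ => rfl) (hT.rok r₀ h0)
    · exact ROK_clone (hT.rok _ h0)
  · obtain ⟨π, hP, hM⟩ := hT.law S A μ c h
    obtain ⟨π', h1, h2, h3⟩ := clone_step h (fun t ht => (hL t ht).1) hb
      (fun t ht => (hC t _ (hL t ht).2).2.2.2 S A μ c h) hab hd (hT.rok _ hr) hP (hM _ hr)
    refine ⟨π', h1, ?_⟩
    rintro r (⟨r₀, h0, rfl⟩ | ⟨P', Q', h0, rfl⟩)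
    · exact h2 r₀ (hM r₀ h0)
    · exact h3 P' Q' (hM _ h0)

theorem WalkG.wok (hC : Sound C) (h : WalkG C H R) :
    ∃ (iF : Fintype V) (iD : DecidableEq V) (side : V → Bool), WOK H R iF iD side := by
  induction h with
  | point => exact ⟨inferInstance, inferInstance, _, WOK.point⟩
  | weak _ hd ih =>
    obtain ⟨iF, iD, side, hT⟩ := ih
    exact ⟨iF, iD, side, hT.weak hd⟩
  | pen _ hr hs hx ih =>
    obtain ⟨iF, iD, side, hT⟩ := ih
    exact ⟨inferInstance, inferInstance, _, hT.pen hC hr hs hx⟩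
  | att _ hr hab hs hd he ih =>
    obtain ⟨iF, iD, side, hT⟩ := ih
    exact ⟨inferInstance, inferInstance, _, hT.att hC hr hab hs hd he⟩
  | clone _ hr hab hL hd ih =>
    obtain ⟨iF, iD, side, hT⟩ := ih
    exact ⟨inferInstance, inferInstance, _, hT.clone hC hr hab hL hd⟩

/-- no isolated vertices -/
theorem WalkG.ni (h : WalkG C H R) : NI H := by
  induction h with
  | point => exact fun u v huv => absurd (Subsingleton.elim u v) huv
  | weak _ _ ih => exact ih
  | pen _ _ _ _ ih => exact pen_ni ih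
  | att _ _ hab _ _ _ ih => exact att_ni hab ih
  | clone _ _ hab _ _ ih => exact att_ni hab ih

/-- The theorem on walk graphs. -/
theorem WalkG.gsid (hC : Sound C) {V W : Type} [Fintype V] [DecidableEq V]
    {H : SimpleGraph V} {G : SimpleGraph W} {R : Set (WRec W)} (h : WalkG C G R)
    (φ : H ≃g G) (hH : H ≠ ⊥) :
    ∃ side : V → Bool, GSid H side := by
  classical
  obtain ⟨iF, iD, side, hT⟩ := h.wok hC
  have hiso : ∀ v, ∃ w, G.Adj v w := by
    intro v
    by_cases hs : Subsingleton W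
    · exfalso
      apply hH
      ext u v
      simp only [SimpleGraph.bot_adj, iff_false]
      intro huv
      exact huv.ne (φ.injective (hs.elim _ _))
    · rw [not_subsingleton_iff_nontrivial] at hs
      obtain ⟨w, hw⟩ := exists_ne v
      exact h.ni v w hw.symm
  refine ⟨fun v => side (φ v), gsid_of_rev H _ (fun u v huv => hT.proper _ _
    (φ.map_adj_iff.2 huv)) (fun v => ?_) ?_⟩
  · obtain ⟨w, hw⟩ := hiso (φ v)
    refine ⟨φ.symm w, φ.map_adj_iff.1 ?_⟩
    rwa [φ.apply_symm_apply]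
  · intro S _ _ _ A μ c hR
    obtain ⟨P, hP, _⟩ := hT.law S A μ c hR
    have h1 := hP.one_le hR
    have h4 := sum_iso (A := A) (μ := μ) (c := c) φ side (fun _ => 1)
    simp only [mul_one] at h4
    have h5 : ∑ z, wt H (fun v => side (φ v)) A μ c z = ∑ z, wt G side A μ c z := h4.symm
    rw [h5]
    exact h1

theorem WalkG.sid (hC : Sound C) {V W : Type} [Fintype V] [DecidableEq V]
    {H : SimpleGraph V} {G : SimpleGraph W} {R : Set (WRec W)} (h : WalkG C G R)
    (φ : H ≃g G) (hH : H ≠ ⊥) {U : Type*} [Finite U] [Nonempty U] (T : SimpleGraph U) :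
    edgeDensity T ^ Nat.card H.edgeSet ≤ homDensity H T := by
  obtain ⟨side, hs⟩ := h.gsid hC φ hH
  exact sidorenko_of_gsid hs T

end Vale.Agent.P050.SP
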