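import Vale.Agent.P050.R4.H859.WalkDef

/-!
# P050, walk graphs: the class, for an arbitrary class of parts
-/

namespace Vale.Agent.P050.SP

/-- the records after attaching a part: the old ones -/
def oldRec {V : Type} (W : Type) (R : Set (WRec V)) : Set (WRec (V ⊕ W)) :=
  {r | ∃ r₀ ∈ R, r = r₀.map .inl}

/-- the records after hanging the part `x` at `a`: the old ones, and those which end with `a` and
the new vertex, at distance `len x` -/
def penR {V : Type} (R : Set (WRec V)) (a : V) (x : SP) : Set (WRec (V ⊕ (Unit ⊕ Inn x))) :=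
  oldRec _ R ∪ {r | ∃ P Q, (P, a, Q) ∈ R ∧ r = (rmap .inl P, .inl a, [(len x, .inr (.inl ()))])}

/-- the records after attaching the chain of the parts `x :: L` at `a` and `b`: the old ones, and
those where the piece from `a` to `b` is replaced by the chain -/
def cloneR {V : Type} (R : Set (WRec V)) (a b : V) (x : SP) (L : List SP) :
    Set (WRec (V ⊕ Inn (chn x L))) :=
  oldRec _ R ∪ {r | ∃ P Q, (P, a, (len (chn x L), b) :: Q) ∈ R ∧
    r = (rmap .inl P, .inl a, jun x L .inr (.inl b) ++ rmap .inl Q)}

/-- The class of the walk graphs, `C e d`: the part `e` may be put at distance `d`.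
`WalkG C H R`: the elements of `R` are records of walks in `H`. -/
inductive WalkG (C : SP → ℕ → Prop) : {V : Type} → SimpleGraph V → Set (WRec V) → Prop
  /-- one vertex -/
  | point : WalkG C (⊥ : SimpleGraph Unit) {([], (), [])}
  /-- records contained in the given ones -/
  | weak {V : Type} {H : SimpleGraph V} {R R' : Set (WRec V)} : WalkG C H R →
      (∀ r' ∈ R', ∃ r ∈ R, Der r r') → WalkG C H R'
  /-- a tight part is hung at a recorded vertex -/
  | pen {V : Type} {H : SimpleGraph V} {R : Set (WRec V)} {x : SP} {P : List (ℕ × V)} {a : V}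
      {Q : List (ℕ × V)} : WalkG C H R → (P, a, Q) ∈ R → simple x → C x (len x) →
      WalkG C (pen H x a) (penR R a x)
  /-- a part is put between two consecutive vertices of a record -/
  | att {V : Type} {H : SimpleGraph V} {R : Set (WRec V)} {e : SP} {d : ℕ} {P : List (ℕ × V)}
      {a b : V} {Q : List (ℕ × V)} : WalkG C H R → (P, a, (d, b) :: Q) ∈ R → a ≠ b → simple e →
      ¬ (direct e ∧ H.Adj a b) → C e d → WalkG C (att H e a b) (oldRec _ R)
  /-- a chain of tight parts is put between two consecutive vertices of a record at the right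
  distance -/
  | clone {V : Type} {H : SimpleGraph V} {R : Set (WRec V)} {x : SP} {L : List SP}
      {P : List (ℕ × V)} {a b : V} {Q : List (ℕ × V)} : WalkG C H R →
      (P, a, (len (chn x L), b) :: Q) ∈ R → a ≠ b → (∀ t ∈ x :: L, simple t ∧ C t (len t)) →
      ¬ (direct (chn x L) ∧ H.Adj a b) → WalkG C (att H (chn x L) a b) (cloneR R a b x L)

end Vale.Agent.P050.SP
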